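import Crest.Agent.X212.Rod53.Swp
import Crest.Agent.X212.Grm47.Core

/-!
# X212 / Rod53, part Unk (helper53): the standard unknot; the meridian of a knot in `S³` is unknotted

* `unk`, `unkA` : the tubes round the circles `z₁ = 0` and `z₂ = 0` of `S³`;
* `unkFl h hu : Fl unk c d (𝓡 3) (Lens h)` : the fillings of the unknot are lens spaces;
* `T.exists_unk` : a diffeomorphism of `S³` carries the germ of `unk` to the germ of `T.mer` (from the disc theorem);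
* `exists_lens`, `F.third_lens` : the fillings of `T.mer`, and the third fillings of `F.mer`, are lens spaces.
-/

set_option autoImplicit false
set_option linter.unusedSectionVars false

open Set Filter Topology Function Metric TopologicalSpace
open scoped ContDiff Manifold ComplexConjugate

noncomputable section

namespace Crest.Agent.X212.Rod53

open Crest.Agent.X212.Glue52 Crest.Agent.X212.Cyl58

theorem sph_ext {y y' : S3'} (h : L4 y = L4 y') : y = y' := Subtype.ext (L4.injective h)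

theorem nsq_sph (y : S3') : ‖(L4 y).1‖ ^ 2 + ‖(L4 y).2‖ ^ 2 = 1 := by rw [norm_L4, norm_eq_of_mem_sphere, one_pow]

/-- the normalising factor -/
def nf1 (ζ : ℂ) : ℝ := (√(1 + ‖ζ‖ ^ 2))⁻¹

theorem nf1_pos (ζ : ℂ) : 0 < nf1 ζ := by unfold nf1; positivity

theorem nf1_sq (ζ : ℂ) : nf1 ζ ^ 2 * (1 + ‖ζ‖ ^ 2) = 1 := by
  rw [nf1, inv_pow, Real.sq_sqrt (by positivity), inv_mul_cancel₀ (by positivity)]

/-- the tube round the circle `z₁ = 0` -/
def uB (w : Circle × ℂ) : S3' := ⟨L4.symm (nf1 w.2 * w.2, nf1 w.2 * w.1), by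
  rw [mem_sphere_zero_iff_norm, ← sq_eq_sq₀ (norm_nonneg _) zero_le_one, ← norm_L4, L4.apply_symm_apply,
    norm_polar (nf1_pos _).le, norm_mul, Complex.norm_real, Real.norm_of_nonneg (nf1_pos _).le]
  linear_combination nf1_sq w.2⟩

theorem L4_uB (w : Circle × ℂ) : L4 (uB w) = ((nf1 w.2 : ℂ) * w.2, (nf1 w.2 : ℂ) * w.1) := L4.apply_symm_apply _

theorem uB_eq {w : Circle × ℂ} {y : S3'} {r : ℝ} (hr : 0 < r) (h : L4 y = ((r : ℂ) * w.2, (r : ℂ) * w.1)) : uB w = y := by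
  have h1 := nsq_sph y
  rw [h, norm_polar hr.le, norm_mul, Complex.norm_real, Real.norm_of_nonneg hr.le] at h1
  have : r = nf1 w.2 := by
    rw [← sq_eq_sq₀ hr.le (nf1_pos _).le]
    exact mul_right_cancel₀ (show 1 + ‖w.2‖ ^ 2 ≠ 0 by positivity) (by rw [nf1_sq]; linear_combination h1)
  exact sph_ext (by rw [L4_uB, h, this])

/-- the inverse of `uB` -/
def vB (y : S3') : Circle × ℂ := (dir (L4 y).2, (‖(L4 y).2‖⁻¹ : ℝ) * (L4 y).1)

theorem uB_ne (w : Circle × ℂ) : (L4 (uB w)).2 ≠ 0 := by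
  rw [L4_uB, ← norm_ne_zero_iff, norm_polar (nf1_pos _).le]
  exact (nf1_pos _).ne'

theorem vB_uB (w : Circle × ℂ) : vB (uB w) = w := by
  have : (nf1 w.2 : ℂ) ≠ 0 := by exact_mod_cast (nf1_pos _).ne'
  rw [vB, L4_uB, dir_mul (nf1_pos _), norm_polar (nf1_pos _).le, Complex.ofReal_inv, inv_mul_cancel_left₀ this]

theorem uB_vB {y : S3'} (h : (L4 y).2 ≠ 0) : uB (vB y) = y := by
  have : (‖(L4 y).2‖ : ℂ) ≠ 0 := by exact_mod_cast norm_ne_zero_iff.2 h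
  exact uB_eq (norm_pos_iff.2 h) (by rw [vB, norm_mul_dir, Complex.ofReal_inv, mul_inv_cancel_left₀ this])

theorem cm_L4 : ContMDiff (𝓡 3) 𝓘(ℝ, ℂ × ℂ) ∞ fun y : S3' => L4 y := L4.contDiff.contMDiff.comp contMDiff_coe_sphere

theorem isOE_uB : IsOE IT (𝓡 3) uB := by
  have h1 : ContMDiff (𝓡 3) 𝓘(ℝ, ℂ) ∞ fun y : S3' => (L4 y).1 := contDiff_fst.contMDiff.comp cm_L4
  have h2 : ContMDiff (𝓡 3) 𝓘(ℝ, ℂ) ∞ fun y : S3' => (L4 y).2 := contDiff_snd.contMDiff.comp cm_L4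
  have h3 : ∀ w : Circle × ℂ, ContMDiffAt IT 𝓘(ℝ, ℂ) ∞ (fun w : Circle × ℂ => (nf1 w.2 : ℂ)) w := fun w =>
    have k : 0 < 1 + ‖w.2‖ ^ 2 := by positivity
    cm_ofReal (cm_fun (g := fun t => (√(1 + t))⁻¹) (((contDiffAt_const.add contDiffAt_id).sqrt
      k.ne').inv (Real.sqrt_pos.2 k).ne') (cm_nsq contMDiffAt_snd))
  refine ⟨LeftInverse.injective vB_uB, fun w => Glue52.ld_of_inverse (g := vB) (t := {y | (L4 y).2 ≠ 0})
    isOpen_univ (isOpen_ne.preimage h2.continuous) (mem_univ w) (ContMDiff.contMDiffOn ?_)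
    (fun y hy => ContMDiffAt.contMDiffWithinAt ?_) (fun w _ => uB_ne w) (mapsTo_univ _ _) (fun w _ => vB_uB w)
    fun _ => uB_vB⟩
  · exact ContMDiff.codRestrict_sphere (L4.symm.contDiff.contMDiff.comp fun w =>
      (cm_mul (h3 w) contMDiffAt_snd).prodMk_space (cm_mul (h3 w) (cm_coe contMDiffAt_fst))) _
  · exact (cm_dir (h2 y) hy).prodMk (cm_mul (cm_ofReal (cm_fun (g := fun t => t⁻¹)
      (contDiffAt_inv ℝ (norm_ne_zero_iff.2 hy)) (cm_norm (h2 y) hy))) (h1 y))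

/-- the exchange of the two coordinates -/
def sx : E4 ≃ₗᵢ[ℝ] E4 where
  toLinearEquiv := (L4.trans ((ContinuousLinearEquiv.prodComm ℝ ℂ ℂ).trans L4.symm)).toLinearEquiv
  norm_map' x := by
    rw [← sq_eq_sq₀ (norm_nonneg _) (norm_nonneg _), ← norm_L4, ← norm_L4, add_comm]
    simp

/-- the tube round the circle `z₂ = 0` -/
def uA (w : Circle × ℂ) : S3' := sphD (n := 3) sx (uB w)

theorem L4_sx (y : S3') : L4 (sphD (n := 3) sx y) = (L4 y).swap := L4.apply_symm_apply _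

theorem L4_uA (w : Circle × ℂ) : L4 (uA w) = ((nf1 w.2 : ℂ) * w.1, (nf1 w.2 : ℂ) * w.2) := by rw [uA, L4_sx, L4_uB]; rfl

theorem isOE_uA : IsOE IT (𝓡 3) uA := (IsOE.of_diffeo _).comp isOE_uB

theorem uA_ne (w : Circle × ℂ) : (L4 (uA w)).1 ≠ 0 := by rw [uA, L4_sx]; exact uB_ne w

theorem exists_uA {y : S3'} (h : (L4 y).1 ≠ 0) : ∃ w, uA w = y :=
  ⟨vB (sphD (n := 3) sx y), by
    rw [uA, uB_vB (by rw [L4_sx]; exact h)]
    exact sph_ext (by rw [L4_sx, L4_sx, Prod.swap_swap])⟩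

/-- THE STANDARD UNKNOT -/
def unk : Tb (𝓡 3) S3' := ⟨uB, isOE_uB.loc, isOE_uB.inj, by simp⟩

/-- the dual circle -/
def unkA : Tb (𝓡 3) S3' := ⟨uA, isOE_uA.loc, isOE_uA.inj, by simp⟩

theorem mem_unk {y : S3'} : y ∈ unk.Ex ↔ (L4 y).1 ≠ 0 := by
  refine ⟨fun h e => ?_, fun h u (e : uB (u, 0) = y) => h (by rw [← e, L4_uB, mul_zero])⟩
  have k : (L4 y).2 ≠ 0 := fun k => by simpa [e, k] using nsq_sph y
  have : vB y = ((vB y).1, 0) := by simp [vB, e]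
  exact h (vB y).1 (show uB ((vB y).1, 0) = y by rw [← this, uB_vB k])

/-- the transition between the two tubes -/
def fl (w : Circle × ℂ) : Circle × ℂ := (dir w.2, (‖w.2‖⁻¹ : ℝ) * w.1)

theorem uA_fl {w : Circle × ℂ} (h : w.2 ≠ 0) : uA (fl w) = uB w := by
  have k := norm_pos_iff.2 h
  have : (‖w.2‖ : ℂ) ≠ 0 := by exact_mod_cast k.ne'
  refine (uB_eq (mul_pos (nf1_pos (fl w).2) (inv_pos.2 k)) ?_).symm
  rw [L4_uA, Complex.ofReal_mul, mul_assoc, mul_assoc]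
  congr 2
  simp only [fl]
  rw [coe_dir h, Complex.ofReal_inv, div_eq_inv_mul]

theorem uA_sw {w : Circle × ℂ} (h : w.2 ≠ 0) : uA (sw w) = uB (w.1, w.2⁻¹) := by
  rw [← uA_fl (w := (w.1, w.2⁻¹)) (inv_ne_zero h), sw_eq, fl, norm_inv, inv_inv]
  congr 2
  rw [Complex.inv_def, mul_comm, dir_pos_mul (inv_pos.2 (Complex.normSq_pos.2 h)), dir_conj]

theorem fl_gl (c : Z2) {w : Circle × ℂ} (h : w.2 ≠ 0) : fl (gl c (1, 0) w) = cv c.2 c.1 (fl w) := by
  rw [fl, dir_gl _ _ h, norm_gl]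
  simp [gl, cv, fl, mul_assoc, mul_comm, mul_left_comm]

theorem rot_uB (α β : Circle) (w : Circle × ℂ) : sphD (n := 3) (rot α β) (uB w) = uB (β * w.1, α * w.2) :=
  (uB_eq (nf1_pos w.2) (by rw [coe_sphD, L4_rot, L4_uB, rt]; simp [mul_left_comm])).symm

theorem rot_uA (α β : Circle) (w : Circle × ℂ) : sphD (n := 3) (rot α β) (uA w) = uA (α * w.1, β * w.2) :=
  sph_ext (by rw [uA, uA, ← rot_uB, L4_sx, coe_sphD, coe_sphD (rot β α), L4_rot, L4_rot, L4_sx]; rfl)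

section Desc

variable {EA HA EB HB EC HC : Type}
  [NormedAddCommGroup EA] [NormedSpace ℝ EA] [TopologicalSpace HA]
  [NormedAddCommGroup EB] [NormedSpace ℝ EB] [TopologicalSpace HB]
  [NormedAddCommGroup EC] [NormedSpace ℝ EC] [TopologicalSpace HC]
  {IA : ModelWithCorners ℝ EA HA} {IB : ModelWithCorners ℝ EB HB} {IC : ModelWithCorners ℝ EC HC}
  {A B C : Type} [TopologicalSpace A] [ChartedSpace HA A] [TopologicalSpace B]
  [ChartedSpace HB B] [TopologicalSpace C] [ChartedSpace HC C]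

/-- a local diffeomorphism with the fibres of a covering descends to an open embedding -/
theorem exists_desc {π : A → B} {f : A → C} (hπ : IsLocalDiffeomorph IA IB ∞ π) (hs : Surjective π)
    (hf : IsLocalDiffeomorph IA IC ∞ f) (h : ∀ a a', f a = f a' ↔ π a = π a') :
    ∃ g : B → C, IsOE IB IC g ∧ ∀ a, g (π a) = f a := by
  have k : ∀ a, f (surjInv hs (π a)) = f a := fun a => (h _ _).2 (surjInv_eq _ _)
  refine ⟨f ∘ surjInv hs, ⟨fun x y e => ?_, fun x => ?_⟩, k⟩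
  · simpa only [surjInv_eq] using (h _ _).1 e
  · obtain ⟨a, rfl⟩ := hs x
    exact Glue52.ld_of_comp (hπ a) (Glue52.ld_congr (hf a) (Eventually.of_forall k))

end Desc

section Lens

variable {c d : Z2} (h : LH c (1, 0)) (hu : Uni c d)

include h in
theorem lh_ne : c.2 ≠ 0 := by simpa [dt] using h.ne

theorem exists_eA : ∃ g : Circle × ℂ → Lens h, IsOE IT (𝓡 3) g ∧ ∀ w, g (cv c.2 c.1 w) = cov h (uA w) :=
  exists_desc (ld_cv (lh_ne h) _) (cv_surj (lh_ne h) _) (ld_comp (ld_cov h) isOE_uA.loc) fun w w' => by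
    rw [cov_eq_iff, cv_eq_iff, exists_comm]
    refine exists_congr fun β => exists_congr fun α => and_congr ?_ (by rw [rot_uA, isOE_uA.inj.eq_iff])
    simp [Ker, and_comm, mul_comm]

include hu in
theorem exists_eB : ∃ g : Circle × ℂ → Lens h, IsOE IT (𝓡 3) g ∧
    ∀ w, g (cv (dt c d * dt c (1, 0)) (dt c d * dt (1, 0) d) w) = cov h (uB w) :=
  have n := mul_ne_zero hu.lh.ne h.ne
  exists_desc (ld_cv n _) (cv_surj n _) (ld_comp (ld_cov h) isOE_uB.loc) fun w w' => by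
    rw [cov_eq_iff, cv_eq_iff]
    refine exists_congr fun α => exists_congr fun β => and_congr ?_ (by rw [rot_uB, isOE_uB.inj.eq_iff])
    rw [← ker_iff hu, ← hu.decomp]

/-- THE FILLINGS OF THE UNKNOT ARE LENS SPACES -/
def unkFl : Fl unk c d (𝓡 3) (Lens h) :=
  have n := mul_ne_zero hu.lh.ne h.ne
  have a := (exists_eA h).choose_spec
  have b := (exists_eB h hu).choose_spec
  have i := leftInverse_invFun isOE_uA.inj
  have a' : ∀ w, ((exists_eA h).choose ∘ invFun uA) (uA (cv c.2 c.1 w)) = cov h (uA w) :=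
    fun w => (congrArg _ (i _)).trans (a.2 w)
  Fl.mk' ((exists_eA h).choose ∘ invFun uA) (exists_eB h hu).choose
    (fun p hp => by
      obtain ⟨w, rfl⟩ := exists_uA (mem_unk.1 hp)
      exact Glue52.ld_of_comp (isOE_uA.loc w) (Glue52.ld_congr (a.1.loc w)
        (Eventually.of_forall fun w => congrArg _ (i w))))
    (fun p hp q hq e => by
      obtain ⟨w, rfl⟩ := exists_uA (mem_unk.1 hp)
      obtain ⟨w', rfl⟩ := exists_uA (mem_unk.1 hq)
      rw [(i w).symm.trans ((a.1.inj e).trans (i w'))]) b.1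
    (fun y => by
      obtain ⟨y, rfl⟩ := cov_surj h y
      by_cases e : (L4 y).2 = 0
      · obtain ⟨w, rfl⟩ := exists_uA (y := y) fun k => by simpa [e, k] using nsq_sph y
        exact Or.inl ⟨_, mem_unk.2 (uA_ne _), a' w⟩
      · exact Or.inr ⟨_, (b.2 _).trans (congrArg _ (uB_vB e))⟩)
    (fun w hw => by
      obtain ⟨w, rfl⟩ := cv_surj n (dt c d * dt (1, 0) d) w
      have k := mt cv_ne.2 hw
      rw [b.2, gl_cv _ _ _ _ k, ← hu.decomp, ← uA_fl k, ← a', ← fl_gl c k, uA_fl (gl_ne.2 k)]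
      rfl)
    fun p hp u e => by
      obtain ⟨w, rfl⟩ := exists_uA (mem_unk.1 hp)
      obtain ⟨w, rfl⟩ := cv_surj (lh_ne h) c.1 w
      obtain ⟨w', e'⟩ := cv_surj n (dt c d * dt (1, 0) d) (u, 0)
      rw [a', ← e', b.2, cov_eq_iff] at e
      obtain ⟨α, β, -, e⟩ := e
      have := uA_ne (α * w.1, β * w.2)
      rw [← rot_uA, ← e, L4_uB, cv_ne.1 (congrArg Prod.snd e')] at this
      exact this (mul_zero _)

theorem unkFl_e (w : Circle × ℂ) : (unkFl h hu).e (uA (cv c.2 c.1 w)) = cov h (uA w) :=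
  (Fl.e_of _ (mem_unk.2 (uA_ne _))).trans
    ((congrArg _ (leftInverse_invFun isOE_uA.inj _)).trans ((exists_eA h).choose_spec.2 w))

theorem unkFl_it (w : Circle × ℂ) :
    (unkFl h hu).it (cv (dt c d * dt c (1, 0)) (dt c d * dt (1, 0) d) w) = cov h (uB w) :=
  (exists_eB h hu).choose_spec.2 w

end Lens

/-! ### the meridian lies in a ball -/

/-- the ball chart of the model -/
def bc (x : E3) : Circle × ℂ := (dir (-1 - (L3 x).2 * Complex.I), (L3 x).1)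

/-- its inverse -/
def bi (z : Circle × ℂ) : E3 := L3.symm (z.2, (z.1 : ℂ).im / (z.1 : ℂ).re)

theorem bc_ne (t : ℝ) : -1 - t * Complex.I ≠ 0 := fun e => by simpa using congrArg Complex.re e

theorem bc_re (x : E3) : ((bc x).1 : ℂ).re < 0 := by
  have := norm_pos_iff.2 (bc_ne (L3 x).2)
  rw [bc, coe_dir (bc_ne _), Complex.div_ofReal_re]
  exact div_neg_of_neg_of_pos (by simp) this

theorem bi_bc (x : E3) : bi (bc x) = x := by
  have := norm_ne_zero_iff.2 (bc_ne (L3 x).2)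
  rw [bi, bc, coe_dir (bc_ne _), Complex.div_ofReal_re, Complex.div_ofReal_im, div_div_div_cancel_right₀ this]
  simp

theorem bc_bi {z : Circle × ℂ} (h : (z.1 : ℂ).re < 0) : bc (bi z) = z := by
  rw [bc, bi, L3.apply_symm_apply]
  refine Prod.ext ?_ rfl
  have : -1 - (((z.1 : ℂ).im / (z.1 : ℂ).re : ℝ) : ℂ) * Complex.I = ((-(z.1 : ℂ).re⁻¹ : ℝ) : ℂ) * z.1 :=
    Complex.ext (by simp [h.ne]) (by simp [div_eq_inv_mul])
  exact (congrArg dir this).trans (dir_mul (neg_pos.2 (inv_lt_zero.2 h)) _)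

theorem cm_bi {z : Circle × ℂ} (h : (z.1 : ℂ).re < 0) : ContMDiffAt IT 𝓘(ℝ, E3) ∞ bi z :=
  L3.symm.contDiff.contMDiff.contMDiffAt.comp z (contMDiffAt_snd.prodMk_space
    ((Complex.imCLM.contDiff.contDiffAt.div Complex.reCLM.contDiff.contDiffAt h.ne).comp_contMDiffAt
      (f := fun z : Circle × ℂ => (z.1 : ℂ)) (cm_coe contMDiffAt_fst)))

theorem isOE_bc : IsOE 𝓘(ℝ, E3) IT bc :=
  ⟨LeftInverse.injective bi_bc, fun x => Glue52.ld_of_inverse (g := bi) (t := {z | (z.1 : ℂ).re < 0}) isOpen_univ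
    (isOpen_lt (by fun_prop) continuous_const) (mem_univ x) (fun x _ => ((cm_dir (ContDiff.contMDiff
      (contDiff_const.sub ((Complex.ofRealCLM.contDiff.comp (contDiff_snd.comp L3.contDiff)).mul
        contDiff_const)) x) (bc_ne _)).prodMk
      ((contDiff_fst.comp L3.contDiff).contMDiff x)).contMDiffWithinAt)
    (fun _ hz => (cm_bi hz).contMDiffWithinAt) (fun x _ => bc_re x) (mapsTo_univ _ _) (fun x _ => bi_bc x)
    fun _ => bc_bi⟩

theorem exists_bc : ∃ R : ℝ, ∀ z, ∃ x, ‖x‖ ≤ R ∧ bc x = mtb z := by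
  have h1 : ∀ z, ‖an z + 1‖ ≤ 1 / 2 → (z.1 : ℂ).re < 0 := fun z hz => by
    have := (Complex.re_le_norm _).trans hz
    rw [Complex.add_re, an, Complex.re_ofReal_mul, Circle.coe_inv_eq_conj, Complex.conj_re, Complex.one_re] at this
    nlinarith [norm_nonneg z.2]
  have h2 : IsCompact {z | ‖an z + 1‖ ≤ 1 / 2} :=
    (isCompact_univ.prod (isCompact_closedBall 0 2)).of_isClosed_subset
      (isClosed_le (continuous_an.add continuous_const).norm continuous_const) fun z hz => ⟨trivial, by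
        have := norm_sub_le (an z + 1) 1
        rw [add_sub_cancel_right, norm_one, norm_an] at this
        exact mem_closedBall_zero_iff.2 (by linarith [show ‖an z + 1‖ ≤ 1 / 2 from hz])⟩
  obtain ⟨R, hR⟩ := h2.exists_bound_of_continuousOn fun z hz => (cm_bi (h1 z hz)).continuousAt.continuousWithinAt
  have h3 : ∀ z, ‖an (mtb z) + 1‖ ≤ 1 / 2 := fun z => by
    rw [an_mtb, show -1 - sh z.2 + 1 = -sh z.2 by ring, norm_neg]
    exact (norm_sh_lt _).le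
  exact ⟨R, fun z => ⟨_, hR _ (h3 z), bc_bi (h1 _ (h3 z))⟩⟩

/-- the disc theorem in the three-sphere -/
def Disc : Prop := ∀ e₁ e₂ : E3 → S3', IsOE 𝓘(ℝ, E3) (𝓡 3) e₁ → IsOE 𝓘(ℝ, E3) (𝓡 3) e₂ → ∀ R : ℝ,
  ∃ ψ : S3' ≃ₘ^∞⟮𝓡 3, 𝓡 3⟯ S3', ∀ x, ‖x‖ ≤ R → ψ (e₁ x) = e₂ x

theorem exists_kap : ∃ (κ : ℂ ≃ₘ^∞⟮𝓘(ℝ, ℂ), 𝓘(ℝ, ℂ)⟯ ℂ) (ε : ℝ), 0 < ε ∧ (∀ w, 3 ≤ ‖w‖ → κ w = w) ∧
    ∀ η, ‖η‖ ≤ ε → κ (-η) = (-1 - sh η)⁻¹ := by
  have n : ∀ y : ℂ, ‖y‖ < 1 → 1 - y ≠ 0 := fun y hy e => by simp [← sub_eq_zero.1 e] at hy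
  have d : HasDerivAt (fun y : ℂ => y * (1 - y)⁻¹) 1 0 := by
    have := (hasDerivAt_id (0 : ℂ)).mul (((hasDerivAt_id (0 : ℂ)).const_sub 1).inv (by simp))
    exact HasDerivAt.congr_deriv this (by simp)
  obtain ⟨F, f1, f2, f3, f4, -⟩ := Grm47.exists_ext (T := ℝ) (g := fun _ y => y * (1 - y)⁻¹) one_pos one_pos
    (contDiffOn_snd.mul ((contDiffOn_const.sub contDiffOn_snd).inv fun p hp => n _ (mem_ball_zero_iff.1 hp.2)))
    (isCompact_singleton (x := 0)) (fun _ _ => zero_mul _) fun _ _ => by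
      rw [(d.hasFDerivAt.restrictScalars ℝ).fderiv]
      intro v hv
      simpa using pow_pos (norm_pos_iff.2 hv) 2
  obtain ⟨ε, h0, h1⟩ := Metric.nhds_basis_closedBall.eventually_iff.1 f4
  refine ⟨(Grm47.monoD (f1.comp (contDiff_const.prodMk contDiff_id)) (f2 0 rfl) (f3 0)).trans (roD 1),
    min ε (1 / 4), by positivity, fun w hw => ?_, fun η hη => ?_⟩
  · exact (congrArg (ro 1) (f3 0 w (by linarith))).trans (ro_far 1 hw)
  · obtain ⟨h2, h3⟩ := le_min_iff.1 hη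
    have h4 := n (-η) (by rw [norm_neg]; linarith)
    have h5 := norm_sub_le (1 - -η) η
    rw [show 1 - -η - η = 1 by ring, norm_one] at h5
    refine (congrArg (ro 1) (h1 (x := -η) (by simpa using h2) 0)).trans ((ro_small (Or.inl rfl) ?_).trans ?_)
    · rw [norm_mul, norm_inv, norm_neg, mul_inv_le_iff₀ (norm_pos_iff.2 h4)]
      linarith
    · rw [sh_of h3, show -1 - η = -(1 - -η) by ring]
      field_simp
      ring

theorem exists_unkA : ∃ (ψ : S3' ≃ₘ^∞⟮𝓡 3, 𝓡 3⟯ S3') (ε : ℝ), 0 < ε ∧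
    ∀ z, ‖z.2‖ ≤ ε → ψ (unk.τ z) = unkA.mer.τ z := by
  obtain ⟨κ, ε, h0, h1, h2⟩ := exists_kap
  refine ⟨(sphD (n := 3) (rot (dir (-1)) 1)).trans (unk.oe.pushD ((Diffeomorph.refl _ _ _).prodCongr κ)
    (unk.isClosed_tube 3) fun z hz => Prod.ext rfl (h1 _ (not_le.1 hz).le)), ε, h0, fun z hz => ?_⟩
  refine (congrArg _ (rot_uB _ _ z)).trans ((push_apply unk.inj _ _).trans (Eq.trans ?_ (uA_sw (mer_ne _)).symm))
  refine congrArg uB (Prod.ext (one_mul _) (Eq.trans (congrArg κ ?_) (h2 _ hz)))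
  simp [coe_dir]

/-- THE MERIDIAN IS UNKNOTTED -/
theorem Tb.exists_unk (hD : Disc) (T : Tb (𝓡 3) S3') : ∃ (ψ : S3' ≃ₘ^∞⟮𝓡 3, 𝓡 3⟯ S3') (ε : ℝ), 0 < ε ∧
    ∀ z, ‖z.2‖ ≤ ε → ψ (unk.τ z) = T.mer.τ z := by
  obtain ⟨ψ, ε, h0, h1⟩ := exists_unkA
  obtain ⟨R, hR⟩ := exists_bc
  obtain ⟨φ, h2⟩ := hD _ _ (unkA.oe.comp isOE_bc) (T.oe.comp isOE_bc) R
  refine ⟨ψ.trans φ, ε, h0, fun z hz => (congrArg φ (h1 z hz)).trans ?_⟩
  obtain ⟨x, h3, h4⟩ := hR z
  rw [Tb.mer_τ, Tb.mer_τ, ← h4]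
  exact h2 x h3

variable {EN HN : Type} [NormedAddCommGroup EN] [NormedSpace ℝ EN] [FiniteDimensional ℝ EN]
  [TopologicalSpace HN] {IN : ModelWithCorners ℝ EN HN} [IN.Boundaryless]
  {N : Type} [TopologicalSpace N] [ChartedSpace HN N] [IsManifold IN ∞ N] [T2Space N]
  {EN' HN' : Type} [NormedAddCommGroup EN'] [NormedSpace ℝ EN'] [FiniteDimensional ℝ EN']
  [TopologicalSpace HN'] {IN' : ModelWithCorners ℝ EN' HN'} [IN'.Boundaryless]
  {N' : Type} [TopologicalSpace N'] [ChartedSpace HN' N'] [IsManifold IN' ∞ N'] [T2Space N']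
  {EZ HZ : Type} [NormedAddCommGroup EZ] [NormedSpace ℝ EZ] [TopologicalSpace HZ]
  {IZ : ModelWithCorners ℝ EZ HZ} {Z : Type} [TopologicalSpace Z] [ChartedSpace HZ Z]

/-- transport of a filling along a diffeomorphism that matches the tubes near the cores -/
def Fl.ofDif {T : Tb IN N} {T' : Tb IN' N'} {a b : Z2} (F : Fl T a b IZ Z) (hu : Uni a b)
    (ψ : N' ≃ₘ^∞⟮IN', IN⟯ N) {ε : ℝ} (h0 : 0 < ε) (h : ∀ z, ‖z.2‖ ≤ ε → ψ (T'.τ z) = T.τ z) : Fl T' a b IZ Z :=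
  have k : ∀ p, ψ p ∈ T.Ex ↔ p ∈ T'.Ex := fun _ => forall_congr' fun u => not_congr (by
    rw [← h (u, 0) (by simpa using h0.le)]; exact ψ.injective.eq_iff)
  F.ofGerm hu ψ (fun _ _ => ψ.isLocalDiffeomorph _) ⟨fun p => (k p).2, ψ.injective.injOn, fun p hp =>
    ⟨ψ.symm p, (k _).1 (by rwa [ψ.apply_symm_apply]), ψ.apply_symm_apply p⟩⟩ id (fun _ => Glue52.ld_id _)
    (fun _ => rfl) bijective_id fun u => (near_core u h0).mono fun w hw k => ⟨k, h _ (by rwa [norm_gl])⟩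

theorem Fl.ofDif_e {T : Tb IN N} {T' : Tb IN' N'} {a b : Z2} (F : Fl T a b IZ Z) (hu : Uni a b)
    (ψ : N' ≃ₘ^∞⟮IN', IN⟯ N) {ε : ℝ} (h0 : 0 < ε) (h : ∀ z, ‖z.2‖ ≤ ε → ψ (T'.τ z) = T.τ z) {p : N'}
    (hp : p ∈ T'.Ex) : (F.ofDif hu ψ h0 h).e p = F.e (ψ p) := e_of _ hp

/-- THE FILLINGS OF THE MERIDIAN ARE LENS SPACES -/
theorem exists_lens (hD : Disc) {T : Tb (𝓡 3) S3'} {c d : Z2} (H : Fl T.mer c d IZ Z) (hu : Uni c d)
    (h : LH c (1, 0)) : Nonempty (Lens h ≃ₘ^∞⟮𝓡 3, IZ⟯ Z) := by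
  obtain ⟨ψ, ε, h0, h1⟩ := T.exists_unk hD
  exact ⟨((unkFl h hu).exists_diffeo (H.ofDif hu ψ h0 h1)).choose⟩

theorem lh_third {a b : Z2} (hu : Uni a b) (h : a.1 ≠ 0) : LH (a.2, -a.1) (1, 0) :=
  ⟨⟨_, Fl.uni_third hu⟩, ⟨_, uni_ws⟩, by simpa [dt] using h⟩

/-- THE THIRD FILLING IS A LENS SPACE of order `|q|` -/
theorem Fl.third_lens (hD : Disc) {T : Tb (𝓡 3) S3'} {a b : Z2} (F : Fl T a b IN N)
    (G : Fl F.mer (1, 0) (0, -1) IZ Z) (hu : Uni a b) (h : a.1 ≠ 0) :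
    Nonempty (Lens (lh_third hu h) ≃ₘ^∞⟮𝓡 3, IZ⟯ Z) := exists_lens hD (F.third G hu) (Fl.uni_third hu) _

end Crest.Agent.X212.Rod53
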