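import Crest.Agent.X212.Rod53.Lens
import Crest.Agent.X212.Cyl58.Bnd

/-!
# X212 / Rod53, part Bnd (helper53): the necks of the rod manifold as bands of layer M

* `T.mf hv : Mf 4` (`= (T.tp hv).mf`); cross-sections `mS`, `mR`, `mL h`;
* `AN T hv Y c ρ` : a neck over half circles; `A.band : Band (T.mf hv)`, side `false` = inside;
* `T.sA`, `T.rA`, `T.lA` : the `S³`, `S¹ × S²` and lens necks; `F.yB` : the vertical neck.
-/

set_option autoImplicit false
set_option linter.unusedSectionVars false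

open Set Filter Topology Function Metric TopologicalSpace
open scoped ContDiff Manifold ComplexConjugate

noncomputable section

namespace Crest.Agent.X212.Rod53

open Crest.Agent.X212.Glue52 Crest.Agent.X212.Cyl58 Crest.Agent.X212.M Crest.Agent.X212.Cyf70

instance : ConnectedSpace (sphere (0 : E3) 1) := isConnected_iff_connectedSpace.1
  (isConnected_sphere (by rw [← Module.finrank_eq_rank]; simp) _ zero_le_one)

/-- the three-sphere -/
abbrev mS : Mf 3 := pcMf (sph E4 3)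

/-- `S¹ × S²` as a piece -/
abbrev pcR : Pc E3 := Pc.of ((𝓡 1).prod (𝓡 2)) (Circle × sphere (0 : E3) 1) (linE 3 _ (by simp))

/-- `S¹ × S²` -/
abbrev mR : Mf 3 := pcMf pcR

/-- the lens space as a piece -/
abbrev pcL {a b : Z2} (h : LH a b) : Pc E3 := Pc.of (𝓡 3) (Lens h) (ContinuousLinearEquiv.refl ℝ E3)

/-- the lens space -/
abbrev mL {a b : Z2} (h : LH a b) : Mf 3 := pcMf (pcL h)

variable {EN HN : Type} [NormedAddCommGroup EN] [NormedSpace ℝ EN] [FiniteDimensional ℝ EN]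
  [TopologicalSpace HN] {IN : ModelWithCorners ℝ EN HN} [IN.Boundaryless]
  {N : Type} [TopologicalSpace N] [ChartedSpace HN N] [IsManifold IN ∞ N] [T2Space N]
  [SecondCountableTopology N]

/-- the rod manifold as a bundled manifold -/
abbrev Tb.mf (T : Tb IN N) {v : ℝ → Z2} (hv : Loc v) : Mf 4 :=
  haveI := T.secondCountable hv
  pcMf (T.pcX v)

theorem Tb.tp_mf [CompactSpace N] (T : Tb IN N) {v : ℝ → Z2} (hv : Loc v) : (T.tp hv).mf = T.mf hv := rfl

/-- a neck over the half circles of radii `ρ s` about `c` -/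
structure AN (T : Tb IN N) (v : ℝ → Z2) (Y : Mf 3) (c : ℝ) (ρ : ℝ → ℝ) where
  j : Y.M × ℝ → X T v
  oe : IsOE (IC Y.I) (𝓡 4) j
  mono : StrictMono ρ
  img : ∀ S, j '' (univ ×ˢ S) = T.disc v c (ρ '' S)

namespace AN

variable {T : Tb IN N} {v : ℝ → Z2} {Y : Mf 3} [CompactSpace Y.M] [ConnectedSpace Y.M] {c : ℝ} {ρ : ℝ → ℝ}
  (A : AN T v Y c ρ) (hv : Loc v)

theorem mem (p : Y.M × ℝ) : A.j p ∈ T.tor v ∧ T.rr v c (A.j p) = ρ p.2 := by
  obtain ⟨h, _, rfl, e⟩ := (A.img {p.2}).subset ⟨p, ⟨mem_univ _, rfl⟩, rfl⟩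
  exact ⟨h, e.symm⟩

theorem j_mem {S : Set ℝ} {p : Y.M × ℝ} : A.j p ∈ T.disc v c S ↔ ρ p.2 ∈ S := by
  rw [T.mem_disc, (A.mem p).2, and_iff_right (A.mem p).1]

theorem range_j : range A.j = T.disc v c (range ρ) := by
  rw [← image_univ, ← image_univ, ← A.img, univ_prod_univ]

theorem sides : Sides (X := T.mf hv) Y A.j fun b =>
    if b then (T.disc v c (Iic (ρ 0)))ᶜ else T.disc v c (Iio (ρ 0)) where
  oe := A.oe
  op b := by
    cases b
    exacts [T.isOpen_disc isOpen_Iio, (T.isClosed_disc isClosed_Iic fun _ h => h).isOpen_compl]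
  dj := disjoint_left.2 fun _ h h' => h ⟨h'.1, Iio_subset_Iic_self (T.mem_disc.1 h').2⟩
  cov x hx := by
    by_cases h : x ∈ T.disc v c (Iic (ρ 0))
    · exact ⟨false, h.1, lt_of_le_of_ne h.2 fun e => hx (A.range_j ▸ ⟨h.1, 0, e.symm⟩)⟩
    · exact ⟨true, h⟩
  mem b p hp := by
    cases b
    · exact A.j_mem.2 (A.mono (by simpa [pm] using hp))
    · exact fun h => (A.mono (by simpa [pm] using hp : 0 < p.2)).not_ge (A.j_mem.1 h)

/-- the band; the side `false` is the inside -/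
def band : Band (T.mf hv) := ofSd (A.sides hv)

@[simp] theorem band_j : (A.band hv).j = A.j := rfl

theorem band_true : (A.band hv).wall.sd true = (T.disc v c (Iic (ρ 0)))ᶜ := ofSd_sd (A.sides hv) true

theorem band_false : (A.band hv).wall.sd false = T.disc v c (Iio (ρ 0)) := ofSd_sd (A.sides hv) false

theorem band_band : (A.band hv).wall.band = T.disc v c (range ρ) := A.range_j

theorem band_slab (S : Set ℝ) : (A.band hv).slab S = T.disc v c (ρ '' S) := A.img S

theorem band_core : (A.band hv).wall.core = T.disc v c {ρ 0} := by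
  rw [← Band.slab_zero, band_slab, image_singleton]

theorem compl_true : ((A.band hv).wall.sd true)ᶜ = T.disc v c (Iic (ρ 0)) := by
  rw [band_true]
  exact compl_compl _

theorem isCompact_in : IsCompact ((A.band hv).wall.sd true)ᶜ :=
  A.compl_true hv ▸ T.isCompact_disc isClosed_Iic (fun _ h => h) fun x _ => hv x

theorem half_true : (A.band hv).wall.half true = T.disc v c (ρ '' Ioi 0) := by
  rw [← A.img]
  exact ((A.band hv).band_inter true).trans (by simp [pm, Ioi]; rfl)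

theorem half_false : (A.band hv).wall.half false = T.disc v c (ρ '' Iio 0) := by
  rw [← A.img]
  exact ((A.band hv).band_inter false).trans (by simp [pm, Iio]; rfl)

/-- a neck of a letter over the times `J` is a neck of the word -/
theorem pushable [CompactSpace N] {Z : TP V4} {J : Set ℝ} (k : TIso (T.tp hv) Z J)
    (h : ∀ s x, |x - c| ≤ ρ s → x ∈ J) : Pushable (A := T.mf hv) (X := Z.mf) (A.band hv) k.φ true :=
  k.pushable (A.band hv) true (A.isCompact_in hv)
    (fun x hx => h 0 _ ((T.abs_time_le c x).trans ((A.compl_true hv).subset hx).2))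
    fun p => h p.2 _ ((T.abs_time_le c _).trans_eq (A.mem p).2)

/-- nested or separated necks are compatible -/
theorem disjoint {Y' : Mf 3} [CompactSpace Y'.M] [ConnectedSpace Y'.M] {c' : ℝ} {ρ' : ℝ → ℝ}
    (A' : AN T v Y' c' ρ') (h : ∀ s s', ρ s + |c - c'| < ρ' s' ∨ ρ' s' + |c - c'| < ρ s ∨ ρ s + ρ' s' < |c - c'|) :
    Disjoint (A.band hv).wall.band (A'.band hv).wall.band := by
  rw [band_band, band_band]
  exact T.disjoint_disc (by rintro _ ⟨s, rfl⟩ _ ⟨s', rfl⟩; exact h s s')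

end AN

namespace Tb

variable (T : Tb IN N) {v : ℝ → Z2} {a b : Z2} {c : ℝ} {ρ : ℝ → ℝ}

/-- the `S³` neck -/
def sA (hu : Uni a b) (A : Arc v a b c ρ) (hm : StrictMono ρ) : AN T v mS c ρ :=
  ⟨T.sb v hu c ρ, T.isOE_sb hu A, hm, T.image_sb hu A⟩

/-- the `S¹ × S²` neck -/
def rA (hu : Uni a b) (A : Arc v a a c ρ) (hm : StrictMono ρ) : AN T v mR c ρ :=
  ⟨T.rb v hu c ρ, T.isOE_rb hu A, hm, T.image_rb hu A⟩

/-- the lens neck -/
def lA (h : LH a b) (A : Arc v a b c ρ) (hm : StrictMono ρ) : AN T v (mL h) c ρ :=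
  ⟨T.lb v h c ρ, T.isOE_lb h A, hm, T.image_lb h A⟩

@[simp] theorem sA_j (hu : Uni a b) (A : Arc v a b c ρ) (hm : StrictMono ρ) :
    (T.sA hu A hm).j = T.sb v hu c ρ := rfl

@[simp] theorem rA_j (hu : Uni a b) (A : Arc v a a c ρ) (hm : StrictMono ρ) :
    (T.rA hu A hm).j = T.rb v hu c ρ := rfl

@[simp] theorem lA_j (h : LH a b) (A : Arc v a b c ρ) (hm : StrictMono ρ) :
    (T.lA h A hm).j = T.lb v h c ρ := rfl

/-- the standard radii in `(r, R)` -/
theorem arc_sig {r R : ℝ} (h0 : 0 ≤ r) (h : r < R) (h1 : ∀ s ∈ Ioo r R, c - s ∈ Jr v a ∧ c + s ∈ Jr v b) :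
    Arc v a b c (sig r R) :=
  ⟨isOE_sig h, fun s => h0.trans_lt (sig_mem h s).1, fun s => (h1 _ (sig_mem h s)).1,
    fun s => (h1 _ (sig_mem h s)).2⟩

end Tb

namespace Fl

variable {T : Tb IN N} {v : ℝ → Z2} {a b : Z2} {Y : Mf 3} [CompactSpace Y.M] [ConnectedSpace Y.M]
  (F : Fl T a b Y.I Y.M) (hv : Loc v) (hu : Uni a b) {σ : ℝ → ℝ} (hσ : IsOE 𝓘(ℝ, ℝ) 𝓘(ℝ, ℝ) σ)
  (hm : StrictMono σ) (h : ∀ s, σ s ∈ Jr v a)

/-- the vertical neck as a band; the side `false` is the past -/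
def yB : Band (T.mf hv) where
  Y := Y
  j := F.yb v hu σ
  oe := F.isOE_yb hu hσ h
  ht x := T.time v x - σ 0
  cont := T.continuous_time.sub continuous_const
  pos p := by rw [F.time_yb hu h, sub_pos]; exact hm.lt_iff_lt
  neg p := by rw [F.time_yb hu h, sub_neg]; exact hm.lt_iff_lt
  off x hx e := hx (image_subset_range _ _ ((F.image_yb hu h {0}).symm.subset ⟨0, rfl, (sub_eq_zero.1 e).symm⟩))

@[simp] theorem yB_j : (F.yB hv hu hσ hm h).j = F.yb v hu σ := rfl

theorem yB_true : (F.yB hv hu hσ hm h).wall.sd true = T.time v ⁻¹' Ioi (σ 0) := by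
  ext x
  change 0 < pm true * (T.time v x - σ 0) ↔ _
  simp [pm]

theorem yB_false : (F.yB hv hu hσ hm h).wall.sd false = T.time v ⁻¹' Iio (σ 0) := by
  ext x
  change 0 < pm false * (T.time v x - σ 0) ↔ _
  simp [pm]

theorem yB_slab (S : Set ℝ) : (F.yB hv hu hσ hm h).slab S = T.time v ⁻¹' (σ '' S) := F.image_yb hu h S

theorem yB_band : (F.yB hv hu hσ hm h).wall.band = T.time v ⁻¹' range σ := by
  rw [← image_univ, ← F.yB_slab hv hu hσ hm h, Band.slab, univ_prod_univ, image_univ]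
  rfl

theorem disjoint_yB {Y' : Mf 3} [CompactSpace Y'.M] [ConnectedSpace Y'.M] {c : ℝ} {ρ : ℝ → ℝ}
    (A : AN T v Y' c ρ) (k : ∀ s s', ρ s < |σ s' - c|) :
    Disjoint (A.band hv).wall.band (F.yB hv hu hσ hm h).wall.band := by
  rw [AN.band_band, yB_band]
  exact T.disjoint_disc_time (by rintro _ ⟨s, rfl⟩ _ ⟨s', rfl⟩; exact k s s')

end Fl

end Crest.Agent.X212.Rod53
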