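import Crest.Agent.X212.Rod53.Fill
import Crest.Agent.X212.Cyl58.Int

/-!
# X212 / Rod53, part Mer (helper53): the meridian tube and the Rolfsen twist

Annulus coordinate `an (u, ζ) = ‖ζ‖ u⁻¹`, chart `sw (θ, w) = ((dir w)⁻¹, ‖w‖ θ)`; the meridian is `an = -1`.
* `T.mer`, `F.mer` : the tube `(θ, η) ↦ τ (sw (θ, -1 - sh η))` round the meridian, in `N` and in a filling;
* `ga`, `T.ang` : its angle function (`u` near the core of `T`, `1` far out, `dir η` on the tube);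
* `ph i`, `T.rolf i`, `F.ind F' (T.rolf i)` : the twist `ζ ↦ ζ ga ^ i`; `T.tg_rolf`, `F.tg_rolf`;
* `F.rolf F' i` : the filling of slope `(q, p + i q)` is the filling of `F.mer` along `(-i, 1)`.
-/

set_option autoImplicit false
set_option linter.unusedSectionVars false

open Set Filter Topology Function Metric TopologicalSpace
open scoped ContDiff Manifold ComplexConjugate

noncomputable section

namespace Crest.Agent.X212.Rod53

open Crest.Agent.X212.Glue52 Crest.Agent.X212.Cyl58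

/-! ### radial maps -/

/-- a radial map of the plane -/
def rad (l : ℝ → ℝ) (ζ : ℂ) : ℂ := l ‖ζ‖ * dir ζ

section Rad

variable {l : ℝ → ℝ} {ε : ℝ}

theorem rad_of {ζ : ℂ} (h : l ‖ζ‖ = ‖ζ‖) : rad l ζ = ζ := by rw [rad, h, norm_mul_dir]

theorem rad_nonneg (h : Up l univ) (h0 : l 0 = 0) {x : ℝ} (hx : 0 ≤ x) : 0 ≤ l x := h0 ▸ h.strictMono.monotone hx

theorem norm_rad (h : Up l univ) (h0 : l 0 = 0) (ζ : ℂ) : ‖rad l ζ‖ = l ‖ζ‖ :=
  norm_polar (rad_nonneg h h0 (norm_nonneg _)) _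

theorem dir_rad (h : Up l univ) (h0 : l 0 = 0) (ζ : ℂ) : dir (rad l ζ) = dir ζ := by
  by_cases e : ζ = 0
  · rw [e, rad_of (by rwa [norm_zero])]
  · exact dir_mul (h0 ▸ h.strictMono (norm_pos_iff.2 e)) _

theorem isOE_rad (h : Up l univ) (hε : 0 < ε) (h0 : ∀ x ≤ ε, l x = x) : IsOE 𝓘(ℝ, ℂ) 𝓘(ℝ, ℂ) (rad l) := by
  have k0 := h0 0 hε.le
  refine ⟨fun z w e => eq_of_dir (h.strictMono.injective ?_) ?_, fun z => ?_⟩
  · rw [← norm_rad h k0, e, norm_rad h k0]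
  · rw [← dir_rad h k0, e, dir_rad h k0]
  by_cases e : z = 0
  · refine Glue52.ld_congr (Glue52.ld_id z) ?_
    filter_upwards [ball_mem_nhds z hε] with w hw
    exact rad_of (h0 _ (by rw [e] at hw; exact (mem_ball_zero_iff.1 hw).le))
  · have k := norm_pos_iff.2 e
    rw [← norm_mul_dir z]
    refine Glue52.ld_of_comp (ld_polar (a := (dir z, ‖z‖)) k) (Glue52.ld_congr
      ((ld_prodMap_at (Glue52.ld_id _) (h.isOE.loc _)).comp _ _ (ld_polar (k0 ▸ h.strictMono k))) ?_)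
    filter_upwards [(isOpen_lt continuous_const continuous_snd).mem_nhds k] with a ha
    simp only [comp_apply, rad, polar, norm_polar (le_of_lt ha), dir_mul ha]
    rfl

end Rad

/-- the profile of the shrinking -/
def shl : ℝ → ℝ := (exists_up_Iio (show (1 / 4 : ℝ) < 1 / 2 by norm_num)).choose

theorem shl_spec : Up shl univ ∧ (∀ x ≤ 1 / 4, shl x = x) ∧ range shl = Iio (1 / 2) :=
  (exists_up_Iio (show (1 / 4 : ℝ) < 1 / 2 by norm_num)).choose_spec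

theorem shl_zero : shl 0 = 0 := shl_spec.2.1 0 (by norm_num)

/-- the radial shrinking of the plane onto the disc of radius `1 / 2`, the identity on the disc of radius `1 / 4` -/
def sh : ℂ → ℂ := rad shl

theorem isOE_sh : IsOE 𝓘(ℝ, ℂ) 𝓘(ℝ, ℂ) sh := isOE_rad shl_spec.1 (by norm_num) shl_spec.2.1

theorem sh_of {η : ℂ} (h : ‖η‖ ≤ 1 / 4) : sh η = η := rad_of (shl_spec.2.1 _ h)

theorem sh_zero : sh 0 = 0 := sh_of (by simp)

theorem norm_sh_lt (η : ℂ) : ‖sh η‖ < 1 / 2 :=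
  (norm_rad shl_spec.1 shl_zero η).trans_lt (shl_spec.2.2.subset ⟨_, rfl⟩)

theorem dir_sh (η : ℂ) : dir (sh η) = dir η := dir_rad shl_spec.1 shl_zero η

theorem sh_ne {η : ℂ} : sh η ≠ 0 ↔ η ≠ 0 := by rw [← sh_zero, isOE_sh.inj.ne_iff, sh_zero]

/-! ### the annulus chart -/

/-- the annulus coordinate -/
def an (z : Circle × ℂ) : ℂ := ‖z.2‖ * (z.1⁻¹ : Circle)

/-- annulus chart → tube -/
def sw : Circle × ℂ → Circle × ℂ := gl (-1, 0) (0, 1)

/-- tube → annulus chart -/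
def ws : Circle × ℂ → Circle × ℂ := gl (1, 0) (0, -1)

theorem uni_sw : Uni (-1, 0) (0, 1) := Or.inr (by simp [dt])
theorem uni_ws : Uni (1, 0) (0, -1) := Or.inr (by simp [dt])

theorem sw_eq (z : Circle × ℂ) : sw z = ((dir z.2)⁻¹, (‖z.2‖ : ℂ) * z.1) := by simp [sw, gl]

theorem ws_eq (z : Circle × ℂ) : ws z = (dir z.2, an z) := by simp [ws, gl, an]

theorem norm_an (z : Circle × ℂ) : ‖an z‖ = ‖z.2‖ := norm_polar (norm_nonneg _) _

theorem an_ne {z : Circle × ℂ} : an z ≠ 0 ↔ z.2 ≠ 0 := by rw [← norm_ne_zero_iff, norm_an, norm_ne_zero_iff]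

theorem an_sw (z : Circle × ℂ) : an (sw z) = z.2 := by
  rw [an, sw, norm_gl, ← sw, sw_eq, inv_inv, norm_mul_dir]

theorem sw_ne {z : Circle × ℂ} : (sw z).2 ≠ 0 ↔ z.2 ≠ 0 := gl_ne

theorem ws_sw {z : Circle × ℂ} (h : z.2 ≠ 0) : ws (sw z) = z := by
  rw [ws_eq, an_sw, sw_eq, dir_mul (norm_pos_iff.2 h)]

theorem sw_ws {z : Circle × ℂ} (h : z.2 ≠ 0) : sw (ws z) = z := by
  rw [ws_eq, sw_eq, norm_an, an, dir_mul (norm_pos_iff.2 h), inv_inv, norm_mul_dir]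

theorem continuous_an : Continuous an := by unfold an; fun_prop

theorem cm_an {z : Circle × ℂ} (h : z.2 ≠ 0) : ContMDiffAt IT 𝓘(ℝ, ℂ) ∞ an z :=
  cm_mul (cm_ofReal (cm_norm contMDiffAt_snd h)) (cm_coe contMDiffAt_fst.inv)

theorem isOE_affC (c : ℂ) : IsOE 𝓘(ℝ, ℂ) 𝓘(ℝ, ℂ) fun w : ℂ => c - w :=
  IsOE.of_diffeo (diffeoOf (fun w : ℂ => c - w) (fun w : ℂ => c - w) (ContDiff.contMDiff (by fun_prop))
    (ContDiff.contMDiff (by fun_prop)) (sub_sub_cancel c) (sub_sub_cancel c))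

theorem mer_ne (η : ℂ) : -1 - sh η ≠ 0 := fun e => by
  have := norm_sh_lt η
  rw [← sub_eq_zero.1 e, norm_neg, norm_one] at this
  linarith

/-- the meridian tube in the model -/
def mtb (z : Circle × ℂ) : Circle × ℂ := sw (z.1, -1 - sh z.2)

theorem mtb_ne (z : Circle × ℂ) : (mtb z).2 ≠ 0 := sw_ne.2 (mer_ne _)

theorem an_mtb (z : Circle × ℂ) : an (mtb z) = -1 - sh z.2 := an_sw _

theorem isOE_mtb : IsOE IT IT mtb :=
  have k := IsOE.id.prodMap (IA := 𝓡 1) (A := Circle) ((isOE_affC (-1)).comp isOE_sh)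
  ⟨fun z w e => k.inj (gl_inj uni_sw (mer_ne z.2) (mer_ne w.2) e),
    fun z => (k.loc z).comp _ _ (ld_gl uni_sw (mer_ne z.2))⟩

theorem mtb_core {z : Circle × ℂ} : (∃ u, mtb (u, 0) = z) ↔ an z = -1 := by
  refine ⟨by rintro ⟨u, rfl⟩; rw [an_mtb, sh_zero, sub_zero], fun h => ⟨dir z.2, ?_⟩⟩
  rw [mtb, sh_zero, sub_zero, ← h, ← ws_eq, sw_ws (an_ne.1 (h ▸ neg_ne_zero.2 one_ne_zero))]

theorem isOpen_Mx : IsOpen {z | an z ≠ -1} := isOpen_ne.preimage continuous_an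

theorem an_ne_of {z : Circle × ℂ} (h : ‖z.2‖ ≠ 1) : an z ≠ -1 := fun e => h (by rw [← norm_an, e]; simp)

/-! ### the angle function and the twist -/

/-- `w + 1` near the unit circle, `1` near `0`, `w` far out -/
def gA (w : ℂ) : ℂ := (stp (1 / 16) (1 / 4) (‖w‖ ^ 2) : ℝ) * w + (1 - stp 4 9 (‖w‖ ^ 2) : ℝ)

/-- `0` near `-1`, `1` far from `-1` -/
def gC (w : ℂ) : ℝ := stp (1 / 4) (9 / 16) (‖w + 1‖ ^ 2)

/-- `-u` near the meridian, `‖ζ‖` far from it -/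
def gB (z : Circle × ℂ) : ℂ := (gC (an z) * ‖z.2‖ : ℝ) - (1 - gC (an z) : ℝ) * z.1

/-- the angle function of the meridian -/
def ga (z : Circle × ℂ) : Circle := z.1 * dir (gA (an z)) * (dir (gB z))⁻¹

theorem gA_ne {w : ℂ} (h : w ≠ -1) : gA w ≠ 0 := fun e => by
  have h0 := norm_nonneg w
  have e1 := congrArg norm (eq_neg_of_add_eq_zero_left e)
  rw [norm_neg, norm_mul, Complex.norm_real, Complex.norm_real, Real.norm_of_nonneg (stp_nonneg _ _ _),
    Real.norm_of_nonneg (sub_nonneg.2 (stp_le_one _ _ _))] at e1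
  rcases lt_or_ge ‖w‖ 1 with k | k
  · rw [stp_zero (a := 4) (by norm_num) (by nlinarith)] at e1
    nlinarith [stp_le_one (1 / 16) (1 / 4) (‖w‖ ^ 2), stp_nonneg (1 / 16) (1 / 4) (‖w‖ ^ 2)]
  · rw [stp_one (by norm_num) (by nlinarith)] at e1
    have := stp_nonneg 4 9 (‖w‖ ^ 2)
    rw [gA, stp_one (by norm_num) (by nlinarith), stp_zero (by norm_num) (by nlinarith)] at e
    exact h (by simpa [add_eq_zero_iff_eq_neg] using e)

theorem gC_one {w : ℂ} (h : 3 / 4 ≤ ‖w + 1‖) : gC w = 1 := stp_one (by norm_num) (by nlinarith)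

theorem gB_far {z : Circle × ℂ} (h : 3 / 4 ≤ ‖an z + 1‖) : gB z = (‖z.2‖ : ℝ) := by simp [gB, gC_one h]

theorem gB_eq (z : Circle × ℂ) : gB z = ((gC (an z) : ℝ) * an z - (1 - gC (an z) : ℝ)) * z.1 := by
  have : an z * z.1 = ‖z.2‖ := by rw [an, mul_assoc, ← Circle.coe_mul, inv_mul_cancel, Circle.coe_one, mul_one]
  rw [sub_mul, mul_assoc, this, gB, Complex.ofReal_mul]

theorem gB_ne {z : Circle × ℂ} (h : z.2 ≠ 0) : gB z ≠ 0 := by
  rcases le_or_gt (3 / 4) ‖an z + 1‖ with k | k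
  · rw [gB_far k]
    exact_mod_cast norm_ne_zero_iff.2 h
  · rw [gB_eq]
    refine mul_ne_zero (fun e => ?_) z.1.coe_ne_zero
    have h1 := (Complex.re_le_norm _).trans_lt k
    have h2 := congrArg Complex.re e
    have h3 : 0 ≤ gC (an z) := stp_nonneg _ _ _
    have h4 : gC (an z) ≤ 1 := stp_le_one _ _ _
    simp only [Complex.add_re, Complex.one_re, Complex.sub_re, Complex.re_ofReal_mul, Complex.ofReal_re,
      Complex.zero_re] at h1 h2
    nlinarith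

theorem dir_real {r : ℝ} (h : 0 ≤ r) : dir r = 1 := by
  rcases h.eq_or_lt with rfl | h
  · exact dir_zero
  · simpa using dir_mul h 1

theorem ga_near {z : Circle × ℂ} (h : ‖z.2‖ ≤ 1 / 4) : ga z = z.1 := by
  have h0 := norm_nonneg z.2
  have h1 : gA (an z) = (1 : ℝ) := by
    rw [gA, norm_an, stp_zero (by norm_num) (by nlinarith), stp_zero (by norm_num) (by nlinarith)]
    simp
  have h2 := norm_sub_le (an z + 1) (an z)
  rw [add_sub_cancel_left, norm_one, norm_an] at h2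
  rw [ga, h1, gB_far (by linarith), dir_real h0, dir_real zero_le_one, inv_one, mul_one, mul_one]

theorem ga_far {z : Circle × ℂ} (h : 3 ≤ ‖z.2‖) : ga z = 1 := by
  have h1 : gA (an z) = an z := by
    rw [gA, norm_an, stp_one (by norm_num) (by nlinarith), stp_one (by norm_num) (by nlinarith)]
    simp
  have h2 := norm_sub_le (an z + 1) 1
  rw [add_sub_cancel_right, norm_one, norm_an] at h2
  rw [ga, h1, gB_far (by linarith), dir_real (norm_nonneg _), an, dir_mul (by linarith), inv_one, mul_one,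
    mul_inv_cancel]

theorem dir_neg {w : ℂ} (h : w ≠ 0) : dir (-w) = dir w * dir (-1) := by
  rw [← dir_mul_circle h, coe_dir (neg_ne_zero.2 one_ne_zero)]
  simp

theorem ga_mtb {z : Circle × ℂ} (h : z.2 ≠ 0) : ga (mtb z) = dir z.2 := by
  have h0 := norm_sh_lt z.2
  have h1 := norm_sub_le (-1) (sh z.2)
  have h2 := norm_add_le (-1 - sh z.2) (sh z.2)
  have h3 := norm_nonneg (-1 - sh z.2)
  have h4 := norm_nonneg (sh z.2)
  rw [sub_add_cancel] at h2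
  rw [norm_neg, norm_one] at h1 h2
  have k1 : gA (-1 - sh z.2) = -sh z.2 := by
    rw [gA, stp_one (by norm_num) (by nlinarith), stp_zero (by norm_num) (by nlinarith)]
    push_cast
    ring
  have k2 : gC (-1 - sh z.2) = 0 := stp_zero (by norm_num) (by
    rw [show -1 - sh z.2 + 1 = -sh z.2 by ring, norm_neg]; nlinarith)
  rw [ga, gB_eq, an_mtb, k1, k2, dir_neg (sh_ne.2 h), dir_sh,
    dir_mul_circle (by simp), show ((0 : ℝ) : ℂ) * (-1 - sh z.2) - (1 - 0 : ℝ) = -1 by simp,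
    mul_comm (mtb z).1, mul_assoc (dir z.2), mul_assoc (dir z.2), mul_inv_cancel, mul_one]

theorem cm_ga {z : Circle × ℂ} (h : an z ≠ -1) : ContMDiffAt IT (𝓡 1) ∞ ga z := by
  by_cases e : z.2 = 0
  · refine contMDiffAt_fst.congr_of_eventuallyEq ?_
    filter_upwards [(isOpen_lt (continuous_norm.comp continuous_snd) continuous_const).mem_nhds
      (show ‖z.2‖ < 1 / 4 by simp [e])] with w hw using ga_near (le_of_lt hw)
  have h1 := cm_an e
  have h2 : ∀ a b, ContMDiffAt IT 𝓘(ℝ, ℝ) ∞ (fun z => stp a b (‖an z‖ ^ 2)) z := fun a b =>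
    cm_fun (contDiff_stp a b).contDiffAt (cm_nsq h1)
  have h3 : ContMDiffAt IT 𝓘(ℝ, ℝ) ∞ (fun z => gC (an z)) z :=
    cm_fun (contDiff_stp _ _).contDiffAt (cm_nsq (h1.add contMDiffAt_const))
  exact (contMDiffAt_fst.mul (cm_dir ((cm_mul (cm_ofReal (h2 _ _)) h1).add
    (cm_ofReal (contMDiffAt_const.sub (h2 _ _)))) (gA_ne h))).mul (cm_dir ((cm_ofReal
      (h3.mul (cm_norm contMDiffAt_snd e))).sub (cm_mul (cm_ofReal (contMDiffAt_const.sub h3))
        (cm_coe contMDiffAt_fst))) (gB_ne e)).inv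

/-- the twist in the model -/
def ph (i : ℤ) (z : Circle × ℂ) : Circle × ℂ := (z.1, z.2 * (ga z ^ i : Circle))

theorem norm_ph (i : ℤ) (z : Circle × ℂ) : ‖(ph i z).2‖ = ‖z.2‖ := by rw [ph, norm_mul, Circle.norm_coe, mul_one]

theorem ph_ne {i : ℤ} {z : Circle × ℂ} : (ph i z).2 ≠ 0 ↔ z.2 ≠ 0 := by
  rw [← norm_ne_zero_iff, norm_ph, norm_ne_zero_iff]

theorem an_ph (i : ℤ) (z : Circle × ℂ) : an (ph i z) = an z := by rw [an, norm_ph]; rfl

theorem ga_ph (i : ℤ) (z : Circle × ℂ) : ga (ph i z) = ga z := by rw [ga, gB, an_ph, norm_ph]; rfl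

theorem ph_ph (i j : ℤ) (z : Circle × ℂ) : ph i (ph j z) = ph (j + i) z := by
  rw [ph, ga_ph, ph, ph, zpow_add, Circle.coe_mul, mul_assoc]

theorem ph_zero (z : Circle × ℂ) : ph 0 z = z := by simp [ph]

theorem ph_far (i : ℤ) {z : Circle × ℂ} (h : 3 ≤ ‖z.2‖) : ph i z = z := by simp [ph, ga_far h]

theorem ph_near (i : ℤ) {z : Circle × ℂ} (h : ‖z.2‖ ≤ 1 / 4) : ph i z = tw i z := by rw [ph, ga_near h, tw]

theorem ph_gl (i : ℤ) (a b : Z2) {w : Circle × ℂ} (h : ‖w.2‖ ≤ 1 / 4) (h0 : w.2 ≠ 0) :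
    ph i (gl a b w) = gl (ac (0, 1) (1, i) a) (ac (0, 1) (1, i) b) w := by
  rw [ph_near i (by rwa [norm_gl]), ← gl_ac _ _ _ _ h0, ← gl_id (tw i _), gl_tw _ _ _ (gl_ne.2 h0)]
  simp

theorem ph_mtb (i : ℤ) {z : Circle × ℂ} (h : z.2 ≠ 0) : ph i (mtb z) = mtb (gl (i, 1) (1, 0) z) := by
  rw [ph, ga_mtb h]
  simp [mtb, sw_eq, gl, norm_mul_dir, mul_assoc, mul_comm, mul_left_comm]

theorem ld_ph (i : ℤ) {z : Circle × ℂ} (h : an z ≠ -1) : IsLocalDiffeomorphAt IT IT ∞ (ph i) z :=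
  have k : ∀ i, ContMDiffOn IT IT ∞ (ph i) {z | an z ≠ -1} := fun _ _ hz =>
    (contMDiffAt_fst.prodMk (cm_mul contMDiffAt_snd (cm_coe (cm_zpow (cm_ga hz) _)))).contMDiffWithinAt
  Glue52.ld_of_inverse (g := ph (-i)) isOpen_Mx isOpen_Mx h (k _) (k _) (fun z hz => (an_ph i z).trans_ne hz)
    (fun z hz => (an_ph _ z).trans_ne hz) (fun z _ => by rw [ph_ph, add_neg_cancel, ph_zero])
    fun z _ => by rw [ph_ph, neg_add_cancel, ph_zero]

variable {EN HN : Type} [NormedAddCommGroup EN] [NormedSpace ℝ EN] [FiniteDimensional ℝ EN]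
  [TopologicalSpace HN] {IN : ModelWithCorners ℝ EN HN} [IN.Boundaryless]
  {N : Type} [TopologicalSpace N] [ChartedSpace HN N] [IsManifold IN ∞ N] [T2Space N]
  {EN' HN' : Type} [NormedAddCommGroup EN'] [NormedSpace ℝ EN'] [FiniteDimensional ℝ EN']
  [TopologicalSpace HN'] {IN' : ModelWithCorners ℝ EN' HN'} [IN'.Boundaryless]
  {N' : Type} [TopologicalSpace N'] [ChartedSpace HN' N'] [IsManifold IN' ∞ N'] [T2Space N']
  {EY HY : Type} [NormedAddCommGroup EY] [NormedSpace ℝ EY] [FiniteDimensional ℝ EY]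
  [TopologicalSpace HY] {IY : ModelWithCorners ℝ EY HY} [IY.Boundaryless]
  {Y : Type} [TopologicalSpace Y] [ChartedSpace HY Y] [IsManifold IY ∞ Y] [T2Space Y]
  {EY' HY' : Type} [NormedAddCommGroup EY'] [NormedSpace ℝ EY'] [FiniteDimensional ℝ EY']
  [TopologicalSpace HY'] {IY' : ModelWithCorners ℝ EY' HY'} [IY'.Boundaryless]
  {Y' : Type} [TopologicalSpace Y'] [ChartedSpace HY' Y'] [IsManifold IY' ∞ Y'] [T2Space Y']
  {EZ HZ : Type} [NormedAddCommGroup EZ] [NormedSpace ℝ EZ] [TopologicalSpace HZ]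
  {IZ : ModelWithCorners ℝ EZ HZ} {Z : Type} [TopologicalSpace Z] [ChartedSpace HZ Z]

theorem near_core (u : Circle) {ε : ℝ} (h : 0 < ε) : ∀ᶠ w in 𝓝 ((u, 0) : Circle × ℂ), ‖w.2‖ ≤ ε := by
  filter_upwards [(isOpen_lt (continuous_norm.comp continuous_snd) continuous_const).mem_nhds
    (show ‖((u, 0) : Circle × ℂ).2‖ < ε by simpa using h)] with w hw using le_of_lt hw

namespace Tb

variable (T : Tb IN N)

theorem isClosed_tube (r : ℝ) : IsClosed (T.τ '' {z | ‖z.2‖ ≤ r}) := by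
  have : {z : Circle × ℂ | ‖z.2‖ ≤ r} = univ ×ˢ closedBall 0 r := by ext; simp
  exact ((this ▸ isCompact_univ.prod (isCompact_closedBall _ _)).image T.oe.continuous).isClosed

/-- a self-map of the model that is the identity far out, read in `N` -/
theorem ld_push {ψ : Circle × ℂ → Circle × ℂ} {r : ℝ} (h : ∀ z, r ≤ ‖z.2‖ → ψ z = z) {p : N}
    (hp : ∀ z, T.τ z = p → IsLocalDiffeomorphAt IT IT ∞ ψ z) : IsLocalDiffeomorphAt IN IN ∞ (push T.τ ψ) p := by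
  by_cases e : p ∈ range T.τ
  · obtain ⟨z, rfl⟩ := e
    exact Glue52.ld_of_comp (T.ld z) (Glue52.ld_congr ((hp z rfl).comp _ _ (T.ld _))
      (Eventually.of_forall (push_apply T.inj ψ)))
  · exact Glue52.ld_congr (Glue52.ld_id p) (extend_eventuallyEq T.inj (T.isClosed_tube r)
      (fun z hz => congrArg T.τ (h z (not_le.1 hz).le)) fun k => e (image_subset_range _ _ k))

open Classical in
/-- `f` on the exterior, `j` on the core -/
def ovr {S : Type} (f : N → S) (j : Circle × ℂ → S) (p : N) : S := if p ∈ T.Ex then f p else j (invFun T.τ p)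

theorem ovr_of {S : Type} {f : N → S} {j : Circle × ℂ → S} {p : N} (h : p ∈ T.Ex) : T.ovr f j p = f p := if_pos h

theorem ovr_τ {S : Type} {f : N → S} {j : Circle × ℂ → S} {w : Circle × ℂ} (h : w.2 ≠ 0 → f (T.τ w) = j w) :
    T.ovr f j (T.τ w) = j w := by
  by_cases e : w.2 = 0
  · exact (if_neg fun k => T.τ_mem.1 k e).trans (congrArg j (leftInverse_invFun T.inj w))
  · exact (T.ovr_of (T.τ_mem.2 e)).trans (h e)

theorem ovr_core {S : Type} {f : N → S} {j : Circle × ℂ → S} (u : Circle) : T.ovr f j (T.τ (u, 0)) = j (u, 0) :=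
  T.ovr_τ fun h => absurd rfl h

theorem ld_ovr {f : N → Z} {j : Circle × ℂ → Z} {p : N} (h : p ∈ T.Ex) (k : IsLocalDiffeomorphAt IN IZ ∞ f p) :
    IsLocalDiffeomorphAt IN IZ ∞ (T.ovr f j) p :=
  Glue52.ld_congr k (by filter_upwards [T.isOpen_Ex.mem_nhds h] with _ h using T.ovr_of h)

theorem ld_ovr_core {f : N → Z} {j : Circle × ℂ → Z} {u : Circle} (k : IsLocalDiffeomorphAt IT IZ ∞ j (u, 0))
    (h : ∀ᶠ w in 𝓝 ((u, 0) : Circle × ℂ), w.2 ≠ 0 → f (T.τ w) = j w) :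
    IsLocalDiffeomorphAt IN IZ ∞ (T.ovr f j) (T.τ (u, 0)) :=
  Glue52.ld_of_comp (T.ld _) (Glue52.ld_congr k (h.mono fun _ => T.ovr_τ))

/-- THE MERIDIAN TUBE -/
def mer : Tb IN N := ⟨T.τ ∘ mtb, (T.oe.comp isOE_mtb).loc, (T.oe.comp isOE_mtb).inj, T.dim⟩

theorem mer_τ (z : Circle × ℂ) : T.mer.τ z = T.τ (mtb z) := rfl

theorem mer_mem (z : Circle × ℂ) : T.mer.τ z ∈ T.Ex := T.τ_mem.2 (mtb_ne z)

theorem τ_mem_mer {z : Circle × ℂ} : T.τ z ∈ T.mer.Ex ↔ an z ≠ -1 :=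
  not_exists.symm.trans (not_congr ((exists_congr fun _ => T.inj.eq_iff).trans mtb_core))

theorem mem_mer_of {p : N} (h : p ∉ range T.τ) : p ∈ T.mer.Ex := fun _ e => h ⟨_, e⟩

/-- the angle function of the meridian tube -/
def ang : N → Circle := extend T.τ ga 1

theorem ang_τ (z : Circle × ℂ) : T.ang (T.τ z) = ga z := T.inj.extend_apply _ _ z

theorem ang_mer {z : Circle × ℂ} (h : z.2 ≠ 0) : T.ang (T.mer.τ z) = dir z.2 := (T.ang_τ _).trans (ga_mtb h)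

theorem ang_out {p : N} (h : p ∉ T.τ '' {z | ‖z.2‖ ≤ 3}) : T.ang p = 1 :=
  extend_eq_of_notMem T.inj (fun _ hz => ga_far (not_le.1 hz).le) h

theorem cm_ang {p : N} (h : p ∈ T.mer.Ex) : ContMDiffAt IN (𝓡 1) ∞ T.ang p := by
  by_cases e : p ∈ range T.τ
  · obtain ⟨z, rfl⟩ := e
    exact T.oe.contMDiffAt_iff.1 ((cm_ga (T.τ_mem_mer.1 h)).congr_of_eventuallyEq (Eventually.of_forall T.ang_τ))
  · refine (contMDiffAt_const (c := 1)).congr_of_eventuallyEq ?_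
    filter_upwards [(T.isClosed_tube 3).isOpen_compl.mem_nhds fun k => e (image_subset_range _ _ k)] with q hq
      using T.ang_out hq

/-- THE ROLFSEN TWIST of the exterior of the meridian -/
def rolf (i : ℤ) : N → N := push T.τ (ph i)

theorem rolf_τ (i : ℤ) (z : Circle × ℂ) : T.rolf i (T.τ z) = T.τ (ph i z) := push_apply T.inj _ z

/-- the twist is the identity on the outer exterior -/
theorem rolf_out (i : ℤ) {p : N} (h : p ∉ T.τ '' {z | ‖z.2‖ ≤ 3}) : T.rolf i p = p :=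
  extend_eq_of_notMem T.inj (fun _ hz => congrArg T.τ (ph_far i (not_le.1 hz).le)) h

theorem rolf_rolf (i j : ℤ) (p : N) : T.rolf i (T.rolf j p) = T.rolf (j + i) p :=
  (push_push T.inj _ _ p).trans (by rw [show ph i ∘ ph j = ph (j + i) from funext (ph_ph i j), rolf])

theorem rolf_zero (p : N) : T.rolf 0 p = p := by rw [rolf, show ph 0 = id from funext ph_zero, push_id T.inj]

theorem rolf_mem {i : ℤ} {p : N} : (T.rolf i p ∈ T.Ex ↔ p ∈ T.Ex) ∧ (T.rolf i p ∈ T.mer.Ex ↔ p ∈ T.mer.Ex) ∧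
    T.ang (T.rolf i p) = T.ang p := by
  by_cases e : p ∈ range T.τ
  · obtain ⟨z, rfl⟩ := e
    rw [rolf_τ, τ_mem, τ_mem, τ_mem_mer, τ_mem_mer, an_ph, ph_ne, ang_τ, ang_τ, ga_ph]
    exact ⟨Iff.rfl, Iff.rfl, rfl⟩
  · rw [rolf, push_of_notMem _ e]
    exact ⟨Iff.rfl, Iff.rfl, rfl⟩

theorem tg_rolf (i : ℤ) : TG T.mer T.mer (T.rolf i) (i, 1) (1, 0) where
  uni := Or.inr (by simp [dt])
  ld _ h := T.ld_push (fun _ => ph_far i) fun z e => ld_ph i (T.τ_mem_mer.1 (e ▸ h))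
  bij := InvOn.bijOn (f' := T.rolf (-i)) ⟨fun p _ => by rw [rolf_rolf, add_neg_cancel, rolf_zero],
    fun p _ => by rw [rolf_rolf, neg_add_cancel, rolf_zero]⟩ (fun _ => T.rolf_mem.2.1.2) fun _ => T.rolf_mem.2.1.2
  eq _ h := (T.rolf_τ i _).trans (congrArg T.τ (ph_mtb i h))

end Tb

namespace Fl

variable {T : Tb IN N} {T' : Tb IN' N'} {a b a' b' : Z2}

/-- renaming the slopes -/
def cast (F : Fl T a b IZ Z) (ha : a = a') (hb : b = b') : Fl T a' b' IZ Z :=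
  { F with eq := ha ▸ hb ▸ F.eq }

theorem cast_e (F : Fl T a b IZ Z) (ha : a = a') (hb : b = b') : (F.cast ha hb).e = F.e := rfl

theorem cast_it (F : Fl T a b IZ Z) (ha : a = a') (hb : b = b') : (F.cast ha hb).it = F.it := rfl

variable (F : Fl T a b IY Y) (F' : Fl T' a' b' IY' Y')

theorem pe_symm_e {p : N} (h : p ∈ T.Ex) : F.pe.symm (F.e p) = p := F.pe.left_inv h

/-- a second tube, disjoint from the core, in the filling -/
def psh (S : Tb IN N) (h : ∀ z, S.τ z ∈ T.Ex) : Tb IY Y :=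
  ⟨F.e ∘ S.τ, fun z => (S.ld z).comp _ _ (F.ld_e (h z)), fun z w e => S.inj (F.injOn_e (h z) (h w) e), F.dim⟩

theorem e_mem_psh {S : Tb IN N} {h : ∀ z, S.τ z ∈ T.Ex} {p : N} (hp : p ∈ T.Ex) :
    F.e p ∈ (F.psh S h).Ex ↔ p ∈ S.Ex :=
  forall_congr' fun _ => not_congr (F.injOn_e.eq_iff (h _) hp)

theorem core_mem_psh {S : Tb IN N} {h : ∀ z, S.τ z ∈ T.Ex} (u : Circle) : F.it (u, 0) ∈ (F.psh S h).Ex :=
  fun _ => F.e_ne (h _) u

/-- the map of fillings induced by a map of exteriors -/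
def ind (g : N → N') : Y → Y' := F.tb.ovr (F'.e ∘ g ∘ F.pe.symm) F'.it

theorem ind_e (g : N → N') {p : N} (h : p ∈ T.Ex) : F.ind F' g (F.e p) = F'.e (g p) :=
  (F.tb.ovr_of (F.bijOn_e.mapsTo h)).trans (congrArg (F'.e ∘ g) (F.pe_symm_e h))

theorem ind_it {g : N → N'} {w : Circle × ℂ} (h : w.2 ≠ 0 → g (T.τ (gl a b w)) = T'.τ (gl a' b' w)) :
    F.ind F' g (F.it w) = F'.it w :=
  F.tb.ovr_τ fun k => by
    rw [tb_τ, ← F.e_τ k, comp_apply, comp_apply, F.pe_symm_e (T.τ_mem.2 (gl_ne.2 k)), h k, F'.e_τ k]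

/-- a monomial map of the exteriors of second tubes that respects the first tubes passes to the fillings -/
theorem tg_ind {S : Tb IN N} {S' : Tb IN' N'} {h : ∀ z, S.τ z ∈ T.Ex} {h' : ∀ z, S'.τ z ∈ T'.Ex} {g : N → N'}
    {p q : Z2} (k : TG S S' g p q) (hT : ∀ x ∈ S.Ex, g x ∈ T'.Ex ↔ x ∈ T.Ex)
    (hg : ∀ u, ∀ᶠ w in 𝓝 ((u, 0) : Circle × ℂ), w.2 ≠ 0 → g (T.τ (gl a b w)) = T'.τ (gl a' b' w)) :
    TG (F.psh S h) (F'.psh S' h') (F.ind F' g) p q := by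
  have c : ∀ u, F.ind F' g (F.it (u, 0)) = F'.it (u, 0) := fun u => F.ind_it F' fun k => absurd rfl k
  refine ⟨k.uni, fun y hy => ?_, ⟨fun y hy => ?_, fun y hy y' hy' e => ?_, fun y hy => ?_⟩, fun w hw => ?_⟩
  · rcases F.surj' y with ⟨x, hx, rfl⟩ | ⟨u, rfl⟩
    · have m := (F.e_mem_psh hx).1 hy
      refine Glue52.ld_of_comp (F.ld_e hx) (Glue52.ld_congr ((k.ld x m).comp _ _ (F'.ld_e ((hT x m).2 hx))) ?_)
      filter_upwards [T.isOpen_Ex.mem_nhds hx] with x hx using F.ind_e F' g hx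
    · exact Glue52.ld_of_comp (F.oeT.loc _) (Glue52.ld_congr (F'.oeT.loc _) ((hg u).mono fun _ => F.ind_it F'))
  · rcases F.surj' y with ⟨x, hx, rfl⟩ | ⟨u, rfl⟩
    · have m := (F.e_mem_psh hx).1 hy
      rw [F.ind_e F' g hx, F'.e_mem_psh ((hT x m).2 hx)]
      exact k.bij.mapsTo m
    · exact c u ▸ F'.core_mem_psh u
  · rcases F.surj' y with ⟨x, hx, rfl⟩ | ⟨u, rfl⟩ <;> rcases F.surj' y' with ⟨x', hx', rfl⟩ | ⟨u', rfl⟩
    · have m := (F.e_mem_psh hx).1 hy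
      have m' := (F.e_mem_psh hx').1 hy'
      rw [F.ind_e F' g hx, F.ind_e F' g hx'] at e
      rw [k.bij.injOn m m' (F'.injOn_e ((hT x m).2 hx) ((hT x' m').2 hx') e)]
    · rw [F.ind_e F' g hx, c] at e
      exact absurd e (F'.e_ne ((hT x ((F.e_mem_psh hx).1 hy)).2 hx) _)
    · rw [F.ind_e F' g hx', c] at e
      exact absurd e.symm (F'.e_ne ((hT x' ((F.e_mem_psh hx').1 hy')).2 hx') _)
    · rw [c, c] at e
      rw [F'.oeT.inj e]
  · rcases F'.surj' y with ⟨x, hx, rfl⟩ | ⟨u, rfl⟩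
    · obtain ⟨x, m, rfl⟩ := k.bij.surjOn ((F'.e_mem_psh hx).1 hy)
      exact ⟨_, (F.e_mem_psh ((hT x m).1 hx)).2 m, F.ind_e F' g ((hT x m).1 hx)⟩
    · exact ⟨_, F.core_mem_psh u, c u⟩
  · exact (F.ind_e F' g (h w)).trans (congrArg F'.e (k.eq w hw))

/-- THE MERIDIAN TUBE IN A FILLING -/
def mer : Tb IY Y := F.psh T.mer T.mer_mem

theorem mer_τ (z : Circle × ℂ) : F.mer.τ z = F.e (T.τ (mtb z)) := rfl

theorem e_mem_mer {p : N} (h : p ∈ T.Ex) : F.e p ∈ F.mer.Ex ↔ p ∈ T.mer.Ex := F.e_mem_psh h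

theorem it_mem_mer {w : Circle × ℂ} (h : ‖w.2‖ ≠ 1) : F.it w ∈ F.mer.Ex := by
  by_cases e : w.2 = 0
  · exact (show w = (w.1, 0) from Prod.ext rfl e) ▸ F.core_mem_psh w.1
  · rw [← F.e_τ e, F.e_mem_mer (T.τ_mem.2 (gl_ne.2 e)), T.τ_mem_mer]
    exact an_ne_of (by rwa [norm_gl])

variable (G : Fl T a' b' IY' Y') {i : ℤ} (ha : a' = ac (0, 1) (1, i) a) (hb : b' = ac (0, 1) (1, i) b)

include ha hb in
/-- the twist is the identity on the inner solid torus -/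
theorem ind_rolf_it {w : Circle × ℂ} (h : ‖w.2‖ ≤ 1 / 4) : F.ind G (T.rolf i) (F.it w) = G.it w :=
  F.ind_it G fun k => by rw [T.rolf_τ, ph_gl i a b h k, ha, hb]

include ha hb in
theorem tg_rolf : TG F.mer G.mer (F.ind G (T.rolf i)) (i, 1) (1, 0) :=
  F.tg_ind G (T.tg_rolf i) (fun _ _ => T.rolf_mem.1) fun u => (near_core u (ε := 1 / 4) (by norm_num)).mono
    fun w h k => by rw [T.rolf_τ, ph_gl i a b h k, ha, hb]

theorem uni_rolf (i : ℤ) : Uni (-i, 1) (1, 0) := Or.inr (by simp [dt])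

/-- ROLFSEN: the filling of slope `(q, p + i q)` is the filling of the meridian tube along `(-i, 1)` -/
def rolf : Fl F.mer (-i, 1) (1, 0) IY' Y' :=
  (G.mer.triv.cast (by simp [ac]) (by simp [ac])).ofTG (F.tg_rolf G ha hb) (uni_rolf i)

theorem rolf_e' {y : Y} (h : y ∈ F.mer.Ex) : (F.rolf G ha hb).e y = F.ind G (T.rolf i) y :=
  (ofTG_e _ _ _ h).trans (G.mer.triv_e ((F.tg_rolf G ha hb).bij.mapsTo h))

theorem rolf_e {p : N} (h : p ∈ T.Ex) (h' : p ∈ T.mer.Ex) : (F.rolf G ha hb).e (F.e p) = G.e (T.rolf i p) :=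
  (F.rolf_e' G ha hb ((F.e_mem_mer h).2 h')).trans (F.ind_e G _ h)

theorem rolf_e_it {w : Circle × ℂ} (h : ‖w.2‖ ≤ 1 / 4) : (F.rolf G ha hb).e (F.it w) = G.it w :=
  (F.rolf_e' G ha hb (F.it_mem_mer (by linarith))).trans (F.ind_rolf_it G ha hb h)

theorem rolf_it (w : Circle × ℂ) : (F.rolf G ha hb).it w = G.mer.τ w := ofTG_it _ _ _ w

end Fl

end Crest.Agent.X212.Rod53
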