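import Crest.Agent.X212.Rod53.Band
import Crest.Agent.X212.Cyl58.TP

/-!
# X212 / Rod53, part Fun (helper53): timed pieces, change of the rod structure and of the tube

* `T.pcX v`, `T.tp hv : TP E4`; `F.tiso : TIso (cylT Y) (T.tp hv) J` for `J ⊆ Jr v a`;
* `fn T' T g v' v : X T' v' → X T v` for an embedding `g` of the tubes, on `T'.ag v' v` (points off the axis
  or with `v' = v` near their time); `T.chg : TIso (T.tp hv') (T.tp hv) J` if `v' = v` on `J`;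
* `torT` : the pure toric tube; `X torT v → X T v` is an embedding onto `T.tor v`;
* connectedness.
-/

set_option autoImplicit false
set_option linter.unusedSectionVars false

open Set Filter Topology Function Metric TopologicalSpace
open scoped ContDiff Manifold ComplexConjugate

noncomputable section

namespace Crest.Agent.X212.Rod53

open Crest.Agent.X212.Glue52 Crest.Agent.X212.Cyl58

variable {EN HN : Type} [NormedAddCommGroup EN] [NormedSpace ℝ EN] [FiniteDimensional ℝ EN]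
  [TopologicalSpace HN] {IN : ModelWithCorners ℝ EN HN} [IN.Boundaryless]
  {N : Type} [TopologicalSpace N] [ChartedSpace HN N] [IsManifold IN ∞ N] [T2Space N]
  {EN' HN' : Type} [NormedAddCommGroup EN'] [NormedSpace ℝ EN'] [FiniteDimensional ℝ EN']
  [TopologicalSpace HN'] {IN' : ModelWithCorners ℝ EN' HN'} [IN'.Boundaryless]
  {N' : Type} [TopologicalSpace N'] [ChartedSpace HN' N'] [IsManifold IN' ∞ N'] [T2Space N']

instance (T : Tb IN N) (v : ℝ → Z2) : Nonempty (X T v) := ⟨T.ext v (T.τ (1, 1), 0)⟩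

namespace Tb

variable (T : Tb IN N) {v v' : ℝ → Z2} {a b : Z2} {c : ℝ}

variable (v) in
/-- the rod manifold as a piece -/
abbrev pcX : Pc E4 := Pc.of (𝓡 4) (X T v) (ContinuousLinearEquiv.refl ℝ E4)

/-- the rod manifold as a timed piece -/
def tp [CompactSpace N] [SecondCountableTopology N] (hv : Loc v) : TP E4 where
  P := T.pcX v
  sc := T.secondCountable hv
  τ := T.time v
  cont := T.continuous_time
  prop _ _ := T.isCompact_time isCompact_Icc fun x _ => hv x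

variable (v v') in
/-- the points off the axis, or with `v = v'` near their time -/
def ag : Set (X T v) := {p | T.eta v p < 1 ∨ T.time v p ∈ interior {x | v x = v' x}}

theorem isOpen_ag : IsOpen (T.ag v v') :=
  (isOpen_lt T.continuous_eta continuous_const).union (isOpen_interior.preimage T.continuous_time)

theorem eta_rod (hu : Uni a b) {w : (Circle × ℂ) × ℝ} (h : w ∈ Ur v a) :
    T.eta v (T.rod v hu w) < 1 ↔ w.1.2 ≠ 0 := by
  refine ⟨fun k e => k.ne ((T.hf_rod _ _ hu h).trans (by simp [e])), fun k => ?_⟩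
  rw [T.rod_eq_ext hu k]
  exact T.eta_ext_lt (T.τ_mem.2 (gl_ne.2 k))

theorem eta_vtx (hu : Uni a b) {z : ℂ × ℂ} (h : z ∈ Uv v a b c) :
    T.eta v (T.vtx v hu c z) < 1 ↔ z.1 ≠ 0 ∧ z.2 ≠ 0 := by
  refine ⟨fun k => ⟨fun e => k.ne ((T.hf_vtx _ _ hu h).trans (by simp [e])),
    fun e => k.ne ((T.hf_vtx _ _ hu h).trans (by simp [e]))⟩, fun k => ?_⟩
  rw [T.vtx_eq_ext hu k.1 k.2]
  refine T.eta_ext_lt (T.τ_mem.2 (mul_ne_zero ?_ (Circle.coe_ne_zero _)))
  have := norm_pos_iff.2 k.1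
  have := norm_pos_iff.2 k.2
  exact_mod_cast (show (0 : ℝ) < 2 * ‖z.1‖ * ‖z.2‖ by positivity).ne'

theorem ext_mem_ag {q : N × ℝ} (h : q.1 ∈ T.Ex) : T.ext v q ∈ T.ag v v' := Or.inl (T.eta_ext_lt h)

theorem rod_mem_ag (hu : Uni a b) {w : (Circle × ℂ) × ℝ} (h : w ∈ Ur v a) :
    T.rod v hu w ∈ T.ag v v' ↔ w.1.2 ≠ 0 ∨ w.2 ∈ interior {x | v x = v' x} := by
  rw [ag, mem_ofPred_eq, T.eta_rod hu h, T.time_rod hu h]

theorem vtx_mem_ag (hu : Uni a b) {z : ℂ × ℂ} (h : z ∈ Uv v a b c) :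
    T.vtx v hu c z ∈ T.ag v v' ↔ (z.1 ≠ 0 ∧ z.2 ≠ 0) ∨ tm c z ∈ interior {x | v x = v' x} := by
  rw [ag, mem_ofPred_eq, T.eta_vtx hu h, T.time_vtx hu h]

end Tb

theorem Jr_of_eq {v v' : ℝ → Z2} {a : Z2} {x : ℝ} (h : x ∈ Jr v' a) (e : x ∈ interior {x | v' x = v x}) :
    x ∈ Jr v a := by
  rw [mem_Jr]
  filter_upwards [mem_Jr.1 h, mem_interior_iff_mem_nhds.1 e] with y h1 h2 using (show v' y = v y from h2) ▸ h1

theorem Jv_of_eq {v v' : ℝ → Z2} {a b : Z2} {c x : ℝ} (h : x ∈ Jv v' a b c)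
    (e : x ∈ interior {x | v' x = v x}) : x ∈ Jv v a b c := by
  rw [mem_Jv]
  filter_upwards [mem_Jv.1 h, mem_interior_iff_mem_nhds.1 e] with y h1 h2 using (show v' y = v y from h2) ▸ h1

theorem int_symm {v v' : ℝ → Z2} {x : ℝ} (e : x ∈ interior {x | v' x = v x}) :
    x ∈ interior {x | v x = v' x} := by simpa only [eq_comm] using e

/-- an embedding of tubes -/
structure TE (T' : Tb IN' N') (T : Tb IN N) (g : N' → N) : Prop where
  oe : IsOE IN' IN g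
  eq : ∀ w, g (T'.τ w) = T.τ w

theorem TE.refl (T : Tb IN N) : TE T T id := ⟨IsOE.id, fun _ => rfl⟩

/-- the map induced by an embedding of tubes and a change of the rod structure -/
def fn (T' : Tb IN' N') (T : Tb IN N) (g : N' → N) (v' v : ℝ → Z2) (p : X T' v') : X T v :=
  invFun (T.nf v) (Sum.map (Prod.map g id) id (T'.nf v' p))

namespace TE

variable {T' : Tb IN' N'} {T : Tb IN N} {g : N' → N} (h : TE T' T g) {v v' : ℝ → Z2} {a b : Z2} {c : ℝ}
include h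

theorem mem_Ex {q : N'} : g q ∈ T.Ex ↔ q ∈ T'.Ex :=
  forall_congr' fun u => by rw [← h.eq, h.oe.inj.ne_iff]

theorem mem_range {q : N'} : g q ∈ range T.τ ↔ q ∈ range T'.τ :=
  exists_congr fun u => by rw [← h.eq, h.oe.inj.eq_iff]

theorem Φr_eq {w : (Circle × ℂ) × ℝ} (e : w.1.2 ≠ 0 ∨ v' w.2 = v w.2) :
    Sum.map (Prod.map g id) id (T'.Φr v' a b w) = T.Φr v a b w := by
  by_cases k : w.1.2 = 0
  · rw [T'.Φr_zero k, T.Φr_zero k, e.resolve_left fun e => e k]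
    rfl
  · rw [T'.Φr_ne k, T.Φr_ne k, ← h.eq]
    rfl

omit h in
theorem fn_of {p : X T' v'} {q : X T v} (e : Sum.map (Prod.map g id) id (T'.nf v' p) = T.nf v q) :
    fn T' T g v' v p = q := by
  rw [fn, e]
  exact leftInverse_invFun (T.nf_injective v) q

theorem fn_ext {q : N' × ℝ} (hq : q.1 ∈ T'.Ex) : fn T' T g v' v (T'.ext v' q) = T.ext v (g q.1, q.2) :=
  fn_of (by rw [T'.nf_ext hq, T.nf_ext (h.mem_Ex.2 hq)]; rfl)

omit h in
theorem mem_Ur {w : (Circle × ℂ) × ℝ} (hw : w ∈ Ur v' a)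
    (e : w.1.2 ≠ 0 ∨ w.2 ∈ interior {x | v' x = v x}) : w ∈ Ur v a :=
  e.elim Or.inl fun e => hw.imp_right (Jr_of_eq · e)

omit h in
theorem mem_Uv {z : ℂ × ℂ} (hz : z ∈ Uv v' a b c)
    (e : (z.1 ≠ 0 ∧ z.2 ≠ 0) ∨ tm c z ∈ interior {x | v' x = v x}) : z ∈ Uv v a b c :=
  e.elim Or.inl fun e => hz.imp_right (Jv_of_eq · e)

theorem fn_rod (hu : Uni a b) {w : (Circle × ℂ) × ℝ} (hw : w ∈ Ur v' a)
    (e : w.1.2 ≠ 0 ∨ w.2 ∈ interior {x | v' x = v x}) : fn T' T g v' v (T'.rod v' hu w) = T.rod v hu w :=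
  fn_of (by
    rw [T'.nf_rod hu hw, T.nf_rod hu (mem_Ur hw e),
      h.Φr_eq (e.imp_right fun e => interior_subset (s := {x | v' x = v x}) e)])

theorem fn_vtx (hu : Uni a b) {z : ℂ × ℂ} (hz : z ∈ Uv v' a b c)
    (e : (z.1 ≠ 0 ∧ z.2 ≠ 0) ∨ tm c z ∈ interior {x | v' x = v x}) :
    fn T' T g v' v (T'.vtx v' hu c z) = T.vtx v hu c z := by
  refine fn_of ?_
  rw [T'.nf_vtx hu hz, T.nf_vtx hu (mem_Uv hz e)]
  have e' := e.imp_right fun e => interior_subset (s := {x | v' x = v x}) e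
  by_cases k : z.1 = 0
  · rw [Tb.Φv, Tb.Φv, if_pos k, if_pos k]
    exact h.Φr_eq (Or.inr (e'.resolve_left fun e => e.1 k))
  · rw [T'.Φv_R k, T.Φv_R k]
    exact h.Φr_eq (e'.imp_left fun e => mt (hR_ne k).1 e.2)

theorem ld_fn {p : X T' v'} (hp : p ∈ T'.ag v' v) :
    IsLocalDiffeomorphAt (𝓡 4) (𝓡 4) ∞ (fn T' T g v' v) p := by
  induction p using T'.ind with
  | h1 q x hq =>
    refine Glue52.ld_of_comp (ld_pd (T'.ext v') (mk_mem_prod hq (mem_univ x))) (Glue52.ld_congr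
      ((ld_prodMap_at (h.oe.loc q) (Glue52.ld_id x)).comp _ _
        (ld_pd (T.ext v) (mk_mem_prod (h.mem_Ex.2 hq) (mem_univ x)))) ?_)
    filter_upwards [(T'.isOpen_Ex.preimage continuous_fst).mem_nhds hq] with z hz using h.fn_ext hz
  | h2 a b hu u x hx =>
    have e := (T'.rod_mem_ag hu (Or.inr hx)).1 hp
    refine Glue52.ld_of_comp (ld_pd (T'.rod v' hu) (Or.inr hx)) (Glue52.ld_congr
      (ld_pd (T.rod v hu) (mem_Ur (Or.inr hx) e)) ?_)
    filter_upwards [isOpen_Ur.mem_nhds (Or.inr hx), (isOpen_interior.preimage continuous_snd).mem_nhds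
      (e.resolve_left fun k => k rfl)] with z h1 h2 using h.fn_rod hu h1 (Or.inr h2)
  | h3 a b hu c hc =>
    have e := (T'.vtx_mem_ag hu (Tb.zero_mem_Uv hc)).1 hp
    refine Glue52.ld_of_comp (ld_pd (T'.vtx v' hu c) (Tb.zero_mem_Uv hc)) (Glue52.ld_congr
      (ld_pd (T.vtx v hu c) (mem_Uv (Tb.zero_mem_Uv hc) e)) ?_)
    filter_upwards [isOpen_Uv.mem_nhds (Tb.zero_mem_Uv hc), (isOpen_interior.preimage (continuous_tm c)).mem_nhds
      (e.resolve_left fun k => k.1 rfl)] with z h1 h2 using h.fn_vtx hu h1 (Or.inr h2)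

theorem nf_fn {p : X T' v'} (hp : p ∈ T'.ag v' v) :
    T.nf v (fn T' T g v' v p) = Sum.map (Prod.map g id) id (T'.nf v' p) := by
  refine invFun_eq ?_
  induction p using T'.ind with
  | h1 q x hq => exact ⟨T.ext v (g q, x), by rw [T'.nf_ext hq, T.nf_ext (h.mem_Ex.2 hq)]; rfl⟩
  | h2 a b hu u x hx =>
    have e := (T'.rod_mem_ag hu (Or.inr hx)).1 hp
    exact ⟨_, by rw [T'.nf_rod hu (Or.inr hx), T.nf_rod hu (mem_Ur (Or.inr hx) e),
      h.Φr_eq (e.imp_right fun e => interior_subset (s := {x | v' x = v x}) e)]⟩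
  | h3 a b hu c hc =>
    have e := (T'.vtx_mem_ag hu (Tb.zero_mem_Uv hc)).1 hp
    exact ⟨_, by rw [T'.nf_vtx hu (Tb.zero_mem_Uv hc), T.nf_vtx hu (mem_Uv (Tb.zero_mem_Uv hc) e),
      T.Φv_zero, T'.Φv_zero]; rfl⟩

theorem injOn_fn : InjOn (fn T' T g v' v) (T'.ag v' v) := fun p hp q hq e =>
  T'.nf_injective v' <| ((h.oe.inj.prodMap injective_id).sumMap injective_id)
    (by rw [← h.nf_fn hp, ← h.nf_fn hq, e])

theorem time_fn {p : X T' v'} (hp : p ∈ T'.ag v' v) : T.time v (fn T' T g v' v p) = T'.time v' p := by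
  rw [Tb.time, Tb.time, h.nf_fn hp]
  cases T'.nf v' p <;> rfl

theorem hf_fn {Z : Type} (k : ℝ → Z) (d : Z) {p : X T' v'} (hp : p ∈ T'.ag v' v) :
    T.hf v k d (fn T' T g v' v p) = T'.hf v' k d p := by
  rw [Tb.hf, Tb.hf, h.nf_fn hp]
  rcases T'.nf v' p with ⟨q, x⟩ | s
  · show T.rf k d (g q) = T'.rf k d q
    by_cases e : q ∈ range T'.τ
    · obtain ⟨w, rfl⟩ := e
      rw [h.eq, T.rf_τ, T'.rf_τ]
    · rw [T'.rf_not _ _ e, T.rf_not _ _ (mt h.mem_range.1 e)]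
  · rfl

theorem yy_fn {p : X T' v'} (hp : p ∈ T'.ag v' v) : T.yy v (fn T' T g v' v p) = T'.yy v' p :=
  h.hf_fn _ _ hp

theorem fn_mem_tor {p : X T' v'} (hp : p ∈ T'.ag v' v) : fn T' T g v' v p ∈ T.tor v ↔ p ∈ T'.tor v' :=
  (h.hf_fn _ _ hp).to_iff

theorem fn_mem_ov {O : Set (ℝ × ℝ)} {p : X T' v'} (hp : p ∈ T'.ag v' v) :
    fn T' T g v' v p ∈ T.ov v O ↔ p ∈ T'.ov v' O := by
  refine and_congr (h.fn_mem_tor hp) ?_
  rw [mem_preimage, mem_preimage, Tb.bs, Tb.bs, h.time_fn hp, h.yy_fn hp]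

theorem rr_fn {p : X T' v'} (hp : p ∈ T'.ag v' v) : T.rr v c (fn T' T g v' v p) = T'.rr v' c p := by
  rw [Tb.rr, Tb.rr, h.time_fn hp, h.yy_fn hp]

theorem fn_mem_ag {p : X T' v'} (hp : p ∈ T'.ag v' v) : fn T' T g v' v p ∈ T.ag v v' :=
  hp.imp (fun e => (h.hf_fn _ _ hp).trans_lt e) fun e => int_symm ((h.time_fn hp).symm ▸ e)

/-- the range of `fn` -/
theorem exists_fn {q : X T v} (hq : q ∈ T.ag v v') (hg : q ∈ T.tor v ∨ Surjective g) :
    ∃ p ∈ T'.ag v' v, fn T' T g v' v p = q := by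
  induction q using T.ind with
  | h1 q x k =>
    obtain ⟨q', rfl⟩ : q ∈ range g := hg.elim (fun e => by
      obtain ⟨w, e⟩ := (T.ext_mem_tor (p := (q, x)) k).1 e
      exact ⟨_, (h.eq w).trans e⟩) fun e => e q
    exact ⟨_, T'.ext_mem_ag (q := (q', x)) (h.mem_Ex.1 k), h.fn_ext (h.mem_Ex.1 k)⟩
  | h2 a b hu u x hx =>
    have e := ((T.rod_mem_ag hu (Or.inr hx)).1 hq)
    have e1 := mem_Ur (Or.inr hx) e
    exact ⟨_, (T'.rod_mem_ag hu e1).2 (e.imp_right int_symm), h.fn_rod hu e1 (e.imp_right int_symm)⟩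
  | h3 a b hu c hc =>
    have e := ((T.vtx_mem_ag hu (Tb.zero_mem_Uv hc)).1 hq)
    have e1 := mem_Uv (Tb.zero_mem_Uv hc) e
    exact ⟨_, (T'.vtx_mem_ag hu e1).2 (e.imp_right int_symm), h.fn_vtx hu e1 (e.imp_right int_symm)⟩

theorem isOE_fn : IsOE (𝓡 4) (𝓡 4) (fn T' T g v v) :=
  have k : ∀ p, p ∈ T'.ag v v := fun _ => Or.inr (by simp)
  ⟨fun p q e => h.injOn_fn (k p) (k q) e, fun p => h.ld_fn (k p)⟩

end TE

/-- the pure toric tube -/
def torT : Tb IT (Circle × ℂ) := ⟨id, Glue52.ld_id, injective_id, by simp⟩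

theorem tor_torT (v : ℝ → Z2) (p : X torT v) : p ∈ torT.tor v := by
  rcases torT.ext_or_axis p with ⟨s, hs, rfl⟩ | h
  · exact (torT.ext_mem_tor hs).2 ⟨_, rfl⟩
  · exact h.1

namespace Tb

variable (T : Tb IN N) {v v' : ℝ → Z2} {a b : Z2} {c : ℝ}

theorem te_torT : TE torT T T.τ := ⟨⟨T.inj, T.ld⟩, fun _ => rfl⟩

theorem range_fn_torT : range (fn torT T T.τ v v) = T.tor v := by
  have k : ∀ p, p ∈ torT.ag v v := fun _ => Or.inr (by simp)
  ext q
  constructor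
  · rintro ⟨p, rfl⟩
    exact (T.te_torT.fn_mem_tor (k p)).2 (tor_torT v p)
  · intro hq
    obtain ⟨p, -, e⟩ := T.te_torT.exists_fn (v' := v) (Or.inr (by simp)) (Or.inl hq)
    exact ⟨p, e⟩

/-- change of the rod structure -/
def chgPD (v' v : ℝ → Z2) : PartialDiffeomorph (𝓡 4) (𝓡 4) (X T v') (X T v) ∞ :=
  pdOn T.isOpen_ag ⟨_, T.ext_mem_ag (q := (T.τ (1, 1), 0)) (T.τ_mem.2 one_ne_zero)⟩
    (fun _ => (TE.refl T).ld_fn) (TE.refl T).injOn_fn

theorem chgPD_source : (T.chgPD v' v).source = T.ag v' v := rfl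

theorem chgPD_apply (p : X T v') : T.chgPD v' v p = fn T T id v' v p := rfl

theorem chgPD_target : (T.chgPD v' v).target = T.ag v v' :=
  Subset.antisymm (by rintro _ ⟨p, hp, rfl⟩; exact (TE.refl T).fn_mem_ag hp)
    fun _ hq => (TE.refl T).exists_fn hq (Or.inr surjective_id)

/-- rod structures that agree over `J` give the same manifold over `J` -/
def chg [CompactSpace N] [SecondCountableTopology N] (hv' : Loc v') (hv : Loc v) {J : Set ℝ}
    (hJ : IsOpen J) (e : ∀ x ∈ J, v' x = v x) : TIso (T.tp hv') (T.tp hv) J :=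
  have k : ∀ p : X T v', T.time v' p ∈ J → p ∈ T.ag v' v := fun _ hp =>
    Or.inr (interior_maximal e hJ hp)
  TIso.mk' hJ (fn T T id v' v) (fun p hp => (TE.refl T).ld_fn (k p hp))
    (fun p q hp hq => (TE.refl T).injOn_fn (k p hp) (k q hq)) (fun p hp => (TE.refl T).time_fn (k p hp))
    fun q hq => by
      obtain ⟨p, hp, rfl⟩ := (TE.refl T).exists_fn (v' := v') (q := q)
        (Or.inr (interior_maximal (fun x hx => (e x hx).symm) hJ hq)) (Or.inr surjective_id)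
      exact ⟨p, show T.time v' p ∈ J from ((TE.refl T).time_fn hp) ▸ hq, rfl⟩

theorem chg_apply [CompactSpace N] [SecondCountableTopology N] (hv' : Loc v') (hv : Loc v) {J : Set ℝ}
    (hJ : IsOpen J) (e : ∀ x ∈ J, v' x = v x) (p : X T v') :
    T.chg hv' hv hJ e p = fn T T id v' v p := rfl

/-- the exterior chart is dense -/
theorem dense_ext : Dense (T.ext v '' (T.Ex ×ˢ univ)) := by
  have key : ∀ {a b : Z2} (hu : Uni a b) (c : ℝ), ∀ z ∈ Uv v a b c,
      T.vtx v hu c z ∈ closure (T.ext v '' (T.Ex ×ˢ univ)) := by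
    intro a b hu c z hz
    have h1 : Dense (({0}ᶜ : Set ℂ) ×ˢ ({0}ᶜ : Set ℂ)) :=
      (dense_compl_singleton 0).prod (dense_compl_singleton 0)
    refine mem_closure_image (s := ({0}ᶜ : Set ℂ) ×ˢ ({0}ᶜ : Set ℂ))
      ((T.vtx v hu c).contMDiffOn_toFun.continuousOn.continuousAt (isOpen_Uv.mem_nhds hz)) (h1 z)
      |> closure_mono ?_
    rintro _ ⟨w, hw, rfl⟩
    rcases T.ext_or_axis (T.vtx v hu c w) with ⟨s, hs, e⟩ | ⟨-, -, k, -⟩
    · exact ⟨s, ⟨hs, mem_univ _⟩, e⟩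
    · exact absurd k ((T.eta_vtx hu (Or.inl hw)).2 hw).ne
  intro p
  rcases T.ext_or_axis p with ⟨s, hs, rfl⟩ | ⟨k, -, -, a, b, c, hu, hp⟩
  · exact subset_closure ⟨s, ⟨hs, mem_univ _⟩, rfl⟩
  · obtain ⟨z, hz, rfl⟩ := T.mem_vtx hu k (Or.inr hp)
    exact key hu c z hz

theorem connectedSpace (h : IsPreconnected T.Ex) : ConnectedSpace (X T v) := by
  rw [connectedSpace_iff_univ, ← T.dense_ext.closure_eq]
  exact ⟨T.dense_ext.nonempty.closure,
    ((h.prod isPreconnected_univ).image _ (T.ext v).contMDiffOn_toFun.continuousOn).closure⟩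

end Tb

/-- the product structure over rods, as an isomorphism of timed pieces -/
def Fl.tiso [CompactSpace N] [SecondCountableTopology N] {W : Type} [NormedAddCommGroup W]
    [NormedSpace ℝ W] {Y : Pc W} [CompactSpace Y.M] [T2Space Y.M] [SecondCountableTopology Y.M]
    [Nonempty Y.M] {T : Tb IN N} {a b : Z2} (F : Fl T a b Y.I Y.M) {v : ℝ → Z2} (hv : Loc v)
    (hu : Uni a b) {J : Set ℝ} (hJ : IsOpen J) (h : J ⊆ Jr v a) : TIso (cylT Y) (T.tp hv) J :=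
  TIso.mk' hJ (F.cyf v hu) (fun p hp => F.ld_cyf hu p.1 (h hp))
    (fun _ _ hp hq => F.injOn_cyf hu ⟨mem_univ _, h hp⟩ ⟨mem_univ _, h hq⟩)
    (fun p hp => F.time_cyf hu p.1 (h hp)) fun q hq => by
      obtain ⟨y, e⟩ := F.exists_cyf hu (h hq)
      exact ⟨(y, T.time v q), hq, e⟩

theorem Fl.tiso_apply [CompactSpace N] [SecondCountableTopology N] {W : Type} [NormedAddCommGroup W]
    [NormedSpace ℝ W] {Y : Pc W} [CompactSpace Y.M] [T2Space Y.M] [SecondCountableTopology Y.M]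
    [Nonempty Y.M] {T : Tb IN N} {a b : Z2} (F : Fl T a b Y.I Y.M) {v : ℝ → Z2} (hv : Loc v)
    (hu : Uni a b) {J : Set ℝ} (hJ : IsOpen J) (h : J ⊆ Jr v a) (p : Y.M × ℝ) :
    F.tiso hv hu hJ h p = F.cyf v hu p := rfl

end Crest.Agent.X212.Rod53
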