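import Crest.Agent.X212.Rod53.Word

/-!
# X212 / Rod53, part Lens (helper53): lens spaces and lens necks

* `T.rn v a b`, `T.vn v a b c` : the formulas of the rod and vertex charts for a pair `(a, b)` that is NOT a basis;
  they are local diffeomorphisms (off the vertex), the fibres are the orbits of the finite group `Ker a b`;
* `Lens h` (`h : LH a b`) : the quotient of `S³` by `Ker a b`, `cov h : S³ → Lens h`, `cov_eq_iff`;
* `T.lb v h c ρ : Lens h × ℝ → X T v` : the neck over the half circles between the rods `a` and `b`.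
-/

set_option autoImplicit false
set_option linter.unusedSectionVars false

open Set Filter Topology Function Metric TopologicalSpace
open scoped ContDiff Manifold ComplexConjugate

noncomputable section

namespace Crest.Agent.X212.Rod53

open Crest.Agent.X212.Glue52 Crest.Agent.X212.Cyl58

/-- `(α, β)` is in the kernel of the torus map of `(a, b)` -/
def Ker (a b : Z2) (α β : Circle) : Prop := α ^ a.1 * β ^ b.1 = 1 ∧ α ^ a.2 * β ^ b.2 = 1

section Ker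

variable {a b a' : Z2} {α β α' β' : Circle}

theorem Ker.symm (h : Ker a b α β) : Ker b a β α := ⟨mul_comm (α ^ a.1) _ ▸ h.1, mul_comm (α ^ a.2) _ ▸ h.2⟩

theorem Ker.one : Ker a b 1 1 := by simp [Ker]

theorem Ker.mul (h : Ker a b α β) (h' : Ker a b α' β') : Ker a b (α * α') (β * β') :=
  ⟨by rw [mul_zpow, mul_zpow, mul_mul_mul_comm, h.1, h'.1, one_mul],
    by rw [mul_zpow, mul_zpow, mul_mul_mul_comm, h.2, h'.2, one_mul]⟩

theorem Ker.inv (h : Ker a b α β) : Ker a b α⁻¹ β⁻¹ :=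
  ⟨by rw [inv_zpow, inv_zpow, ← mul_inv, h.1, inv_one], by rw [inv_zpow, inv_zpow, ← mul_inv, h.2, inv_one]⟩

theorem Ker.pow (h : Ker a b α β) (c : Z2) : α ^ dt a c * β ^ dt b c = 1 := by
  have : α ^ dt a c * β ^ dt b c = (α ^ a.1 * β ^ b.1) ^ c.2 * ((α ^ a.2 * β ^ b.2) ^ c.1)⁻¹ := by
    simp only [dt, zpow_sub, mul_zpow, ← zpow_mul, mul_inv]
    exact mul_mul_mul_comm _ _ _ _
  rw [this, h.1, h.2]
  simp

theorem Ker.pow_left (h : Ker a b α β) : α ^ dt a b = 1 := by simpa [dt_self] using h.pow b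

theorem Ker.pow_right (h : Ker a b α β) : β ^ dt b a = 1 := h.symm.pow_left

theorem Ker.eq_one (hu : Uni a b) (h : Ker a b α β) : α = 1 ∧ β = 1 :=
  ⟨zpow_uni_injective hu (by rw [h.pow_left, one_zpow]),
    zpow_uni_injective hu.symm (by rw [h.pow_right, one_zpow])⟩

theorem Uni.decomp (h : Uni a a') (b : Z2) : b = (dt a a' * dt a b) • a' + (dt a a' * dt b a') • a := by
  have h1 := h.sq
  ext
  · simp only [dt, Prod.fst_add, Prod.smul_fst, smul_eq_mul] at h1 ⊢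
    linear_combination (-b.1) * h1
  · simp only [dt, Prod.snd_add, Prod.smul_snd, smul_eq_mul] at h1 ⊢
    linear_combination (-b.2) * h1

theorem ker_iff (h : Uni a a') {n m : ℤ} : Ker a (n • a' + m • a) α β ↔ β ^ n = 1 ∧ α * β ^ m = 1 := by
  have key : ∀ i j : ℤ, α ^ i * β ^ (n * j + m * i) = (α * β ^ m) ^ i * (β ^ n) ^ j := fun i j => by
    rw [zpow_add, mul_zpow, ← zpow_mul, ← zpow_mul, mul_comm (β ^ (n * j)), mul_assoc]
  have : Ker a (n • a' + m • a) α β ↔ Ker a a' (α * β ^ m) (β ^ n) := and_congr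
    (by rw [← key]; rfl) (by rw [← key]; rfl)
  rw [this]
  exact ⟨fun k => (k.eq_one h).symm, fun k => by rw [k.1, k.2]; exact Ker.one⟩

theorem finite_pow {n : ℤ} (hn : n ≠ 0) : {u : Circle | u ^ n = 1}.Finite := by
  have h1 := Polynomial.rootSet_finite (Polynomial.X ^ n.natAbs - 1 : Polynomial ℂ) ℂ
  refine (h1.preimage (f := fun u : Circle => (u : ℂ)) Circle.coe_injective.injOn).subset fun u hu => ?_
  have h2 : u ^ n.natAbs = 1 := by
    rcases Int.natAbs_eq n with e | e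
    · rw [← zpow_natCast, ← e]; exact hu
    · rw [← inv_inj, ← zpow_natCast, ← zpow_neg, ← e, inv_one]; exact hu
  refine Polynomial.mem_rootSet.2 ⟨Polynomial.X_pow_sub_C_ne_zero (Int.natAbs_pos.2 hn) 1, ?_⟩
  have h3 : (u : ℂ) ^ n.natAbs = 1 := by rw [← Circle.coe_pow, h2, Circle.coe_one]
  simp [h3]

theorem finite_ker (h : dt a b ≠ 0) : {p : Circle × Circle | Ker a b p.1 p.2}.Finite :=
  ((finite_pow h).prod (finite_pow (n := dt b a) (by rw [dt_swap]; omega))).subset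
    fun _ k => ⟨Ker.pow_left k, Ker.pow_right k⟩

end Ker

theorem ld_zpow {n : ℤ} (hn : n ≠ 0) : IsLocalDiffeomorph (𝓡 1) (𝓡 1) ∞ fun u : Circle => u ^ n := fun u => by
  obtain ⟨t, rfl⟩ := Circle.exp_surjective u
  refine Glue52.ld_of_comp (ld_circleExp t) (Glue52.ld_congr
    (((isOE_aff 0 (s := n) (by exact_mod_cast hn)).loc t).comp _ _ (ld_circleExp _)) ?_)
  exact Eventually.of_forall fun s => by
    simp only [comp_apply, zero_add]
    rw [← Circle.exp_zsmul, zsmul_eq_mul]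

theorem zpow_surj {n : ℤ} (hn : n ≠ 0) (u : Circle) : ∃ w : Circle, w ^ n = u := by
  obtain ⟨t, rfl⟩ := Circle.exp_surjective u
  have : (n : ℝ) ≠ 0 := by exact_mod_cast hn
  exact ⟨Circle.exp (t / n), by rw [← Circle.exp_zsmul, zsmul_eq_mul, mul_div_cancel₀ _ this]⟩

/-- the `n`-fold covering of the solid torus, with a twist -/
def cv (n m : ℤ) (w : Circle × ℂ) : Circle × ℂ := (w.1 ^ n, w.2 * (w.1 ^ m : Circle))

theorem cv_ne {n m : ℤ} {w : Circle × ℂ} : (cv n m w).2 = 0 ↔ w.2 = 0 := tw_ne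

theorem norm_cv (n m : ℤ) (w : Circle × ℂ) : ‖(cv n m w).2‖ = ‖w.2‖ := by
  rw [cv, norm_mul, Circle.norm_coe, mul_one]

theorem ld_cv {n : ℤ} (hn : n ≠ 0) (m : ℤ) : IsLocalDiffeomorph IT IT ∞ (cv n m) :=
  ld_comp (ld_prodMap (ld_zpow hn) Glue52.ld_id) (ld_tw m)

theorem cv_surj {n : ℤ} (hn : n ≠ 0) (m : ℤ) (w : Circle × ℂ) : ∃ w', cv n m w' = w := by
  obtain ⟨u, hu⟩ := zpow_surj hn w.1
  exact ⟨(u, w.2 * (u ^ (-m) : Circle)), Prod.ext hu (by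
    simp only [cv]
    rw [mul_assoc, ← Circle.coe_mul, ← zpow_add, neg_add_cancel, zpow_zero, Circle.coe_one, mul_one])⟩

theorem gl_cv (a a' : Z2) (n m : ℤ) {w : Circle × ℂ} (h : w.2 ≠ 0) :
    gl a a' (cv n m w) = gl a (n • a' + m • a) w := by
  have key : ∀ (d u : Circle) (i j : ℤ), (d * u ^ m) ^ i * (u ^ n) ^ j = d ^ i * u ^ (n * j + m * i) :=
    fun d u i j => by rw [mul_zpow, ← zpow_mul, ← zpow_mul, mul_assoc, ← zpow_add, add_comm]
  rw [gl, norm_cv]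
  simp only [gl, cv, dir_mul_circle h, key]
  rfl

theorem cv_eq_iff {n m : ℤ} {w w' : Circle × ℂ} : cv n m w = cv n m w' ↔
    ∃ α β : Circle, (β ^ n = 1 ∧ α * β ^ m = 1) ∧ w' = (β * w.1, α * w.2) := by
  constructor
  · intro e
    have e1 : w.1 ^ n = w'.1 ^ n := congrArg Prod.fst e
    have e2 : w.2 * (w.1 ^ m : Circle) = w'.2 * (w'.1 ^ m : Circle) := congrArg Prod.snd e
    refine ⟨((w'.1 / w.1) ^ m)⁻¹, w'.1 / w.1, ⟨by rw [div_zpow, e1, div_self'], inv_mul_cancel _⟩,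
      Prod.ext (by simp) ?_⟩
    have := (w'.1 ^ m).coe_ne_zero
    show w'.2 = (((w'.1 / w.1) ^ m)⁻¹ : Circle) * w.2
    rw [div_zpow, inv_div, Circle.coe_div, div_mul_eq_mul_div, mul_comm, e2, mul_div_cancel_right₀ _ this]
  · rintro ⟨α, β, ⟨h1, h2⟩, rfl⟩
    refine Prod.ext (by simp only [cv]; rw [mul_zpow, h1, one_mul]) ?_
    simp only [cv]
    rw [mul_zpow, Circle.coe_mul, mul_mul_mul_comm, ← Circle.coe_mul, h2, Circle.coe_one, one_mul]

/-- the torus action on `ℂ²` -/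
def rt (α β : Circle) (z : ℂ × ℂ) : ℂ × ℂ := (α * z.1, β * z.2)

theorem norm_rt1 (α β : Circle) (z : ℂ × ℂ) : ‖(rt α β z).1‖ = ‖z.1‖ := by
  rw [rt, norm_mul, Circle.norm_coe, one_mul]
theorem norm_rt2 (α β : Circle) (z : ℂ × ℂ) : ‖(rt α β z).2‖ = ‖z.2‖ := by
  rw [rt, norm_mul, Circle.norm_coe, one_mul]
theorem rt_ne1 {α β : Circle} {z : ℂ × ℂ} : (rt α β z).1 ≠ 0 ↔ z.1 ≠ 0 := by simp [rt]
theorem rt_ne2 {α β : Circle} {z : ℂ × ℂ} : (rt α β z).2 ≠ 0 ↔ z.2 ≠ 0 := by simp [rt]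
theorem tm_rt (c : ℝ) (α β : Circle) (z : ℂ × ℂ) : tm c (rt α β z) = tm c z := by
  rw [tm, norm_rt1, norm_rt2, tm]
theorem rt_rt (α β α' β' : Circle) (z : ℂ × ℂ) : rt α β (rt α' β' z) = rt (α * α') (β * β') z := by
  simp [rt, mul_assoc]
theorem rt_one (z : ℂ × ℂ) : rt 1 1 z = z := by simp [rt]

theorem hyp_rt (α β : Circle) {z : ℂ × ℂ} (h : z.1 ≠ 0) :
    (hyp (rt α β z)).1 = (α * (hyp z).1.1, β * (hyp z).1.2) := by
  refine Prod.ext ?_ ?_
  · show dir (α * z.1) = α * dir z.1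
    rw [mul_comm, dir_mul_circle h, mul_comm]
  · simp only [hyp, norm_rt1]
    simp only [rt]
    ring

theorem mem_Uv_rt {v : ℝ → Z2} {a b : Z2} {c : ℝ} {α β : Circle} {z : ℂ × ℂ} :
    rt α β z ∈ Uv v a b c ↔ z ∈ Uv v a b c := by
  simp only [Uv, mem_ofPred_eq, rt_ne1, rt_ne2, tm_rt]

/-- two primitive vectors that are not parallel -/
structure LH (a b : Z2) : Prop where
  l : ∃ a', Uni a a'
  r : ∃ b', Uni b b'
  ne : dt a b ≠ 0

theorem LH.symm {a b : Z2} (h : LH a b) : LH b a := ⟨h.r, h.l, by have := h.ne; rw [dt_swap]; omega⟩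

theorem Uni.lh {a b : Z2} (h : Uni a b) : LH a b := ⟨⟨b, h⟩, ⟨a, h.symm⟩, by unfold Uni at h; omega⟩

variable {EN HN : Type} [NormedAddCommGroup EN] [NormedSpace ℝ EN] [FiniteDimensional ℝ EN]
  [TopologicalSpace HN] {IN : ModelWithCorners ℝ EN HN} [IN.Boundaryless]
  {N : Type} [TopologicalSpace N] [ChartedSpace HN N] [IsManifold IN ∞ N] [T2Space N]

namespace Tb

variable (T : Tb IN N) {v : ℝ → Z2} {a b a' : Z2} {c : ℝ}

theorem Φr_cv (n m : ℤ) {w : (Circle × ℂ) × ℝ} (hw : w ∈ Ur v a) :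
    T.Φr v a (n • a' + m • a) w = T.Φr v a a' (cv n m w.1, w.2) := by
  by_cases h : w.1.2 = 0
  · rw [T.Φr_zero h, T.Φr_zero (w := (cv n m w.1, w.2)) (cv_ne.2 h), dt_add_smul,
      (Jr.pm (hw.resolve_left fun k => k h)).dt_eq, mul_zero, add_zero]
    simp only [cv, ← zpow_mul]
    congr 3
    simp only [dt, Prod.smul_fst, Prod.smul_snd, smul_eq_mul]
    ring
  · rw [T.Φr_ne h, T.Φr_ne (w := (cv n m w.1, w.2)) (mt cv_ne.1 h), gl_cv _ _ _ _ h]

variable (v) in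
/-- the formula of the rod chart for an arbitrary pair -/
def rn (a b : Z2) (w : (Circle × ℂ) × ℝ) : X T v := invFun (T.nf v) (T.Φr v a b w)

variable (v) in
/-- the formula of the vertex chart for an arbitrary pair -/
def vn (a b : Z2) (c : ℝ) (z : ℂ × ℂ) : X T v := invFun (T.nf v) (T.Φv v a b c z)

theorem cv_mem {n m : ℤ} {w : (Circle × ℂ) × ℝ} (hw : w ∈ Ur v a) : (cv n m w.1, w.2) ∈ Ur v a :=
  hw.imp_left (mt cv_ne.1)

theorem rn_cv (hu : Uni a a') (n m : ℤ) {w : (Circle × ℂ) × ℝ} (hw : w ∈ Ur v a) :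
    T.rn v a (n • a' + m • a) w = T.rod v hu (cv n m w.1, w.2) := by
  rw [rn, T.Φr_cv n m hw, ← T.nf_rod hu (cv_mem hw)]
  exact leftInverse_invFun (T.nf_injective v) _

theorem rn_eq_rod (hu : Uni a b) {w : (Circle × ℂ) × ℝ} (hw : w ∈ Ur v a) : T.rn v a b w = T.rod v hu w := by
  rw [rn, ← T.nf_rod hu hw]
  exact leftInverse_invFun (T.nf_injective v) _

theorem vn_eq_vtx (hu : Uni a b) {z : ℂ × ℂ} (hz : z ∈ Uv v a b c) : T.vn v a b c z = T.vtx v hu c z := by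
  rw [vn, ← T.nf_vtx hu hz]
  exact leftInverse_invFun (T.nf_injective v) _

theorem vn_R {z : ℂ × ℂ} (h : z.1 ≠ 0) : T.vn v a b c z = T.rn v b a (hR c z) := by rw [vn, T.Φv_R h, rn]

theorem vn_L {z : ℂ × ℂ} (h : z.2 ≠ 0) : T.vn v a b c z = T.rn v a b (hL c z) := by rw [vn, T.Φv_L h, rn]

theorem rn_eq_ext {w : (Circle × ℂ) × ℝ} (h : w.1.2 ≠ 0) :
    T.rn v a b w = T.ext v (T.τ (gl a b w.1), w.2) := by
  rw [rn, T.Φr_ne h, ← T.nf_ext (v := v) (T.τ_mem.2 (gl_ne.2 h))]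
  exact leftInverse_invFun (T.nf_injective v) _

theorem vn_eq_ext {z : ℂ × ℂ} (h1 : z.1 ≠ 0) (h2 : z.2 ≠ 0) :
    T.vn v a b c z = T.ext v (T.τ (dir z.1 ^ a.1 * dir z.2 ^ b.1,
      ((2 * ‖z.1‖ * ‖z.2‖ : ℝ) : ℂ) * (dir z.1 ^ a.2 * dir z.2 ^ b.2 : Circle)), tm c z) := by
  rw [T.vn_R h1, T.rn_eq_ext (mt (hR_ne h1).1 h2), ← gl_hyp a b h1]
  rfl

theorem exists_cv (h : LH a b) : ∃ a', ∃ n m : ℤ, ∃ _ : Uni a a', n ≠ 0 ∧ b = n • a' + m • a := by
  obtain ⟨a', hu⟩ := h.l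
  exact ⟨a', _, _, hu, mul_ne_zero hu.lh.ne h.ne, hu.decomp b⟩

theorem ld_rn (h : LH a b) {w : (Circle × ℂ) × ℝ} (hw : w ∈ Ur v a) :
    IsLocalDiffeomorphAt IR (𝓡 4) ∞ (T.rn v a b) w := by
  obtain ⟨a', n, m, hu, hn, rfl⟩ := exists_cv h
  refine Glue52.ld_congr ((ld_prodMap_at (ld_cv hn m w.1) (Glue52.ld_id w.2)).comp _ _
    (ld_pd (T.rod v hu) (cv_mem hw))) ?_
  filter_upwards [isOpen_Ur.mem_nhds hw] with y hy using T.rn_cv hu n m hy

theorem rn_spec (h : LH a b) {w : (Circle × ℂ) × ℝ} (hw : w ∈ Ur v a) : T.rn v a b w ∈ T.tor v ∧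
    T.time v (T.rn v a b w) = w.2 ∧ T.yy v (T.rn v a b w) = ‖w.1.2‖ := by
  obtain ⟨a', n, m, hu, hn, rfl⟩ := exists_cv h
  rw [T.rn_cv hu n m hw]
  exact ⟨T.rod_mem_tor hu (cv_mem hw), T.time_rod hu (cv_mem hw), (T.yy_rod hu (cv_mem hw)).trans (norm_cv _ _ _)⟩

theorem rn_eq_iff (h : LH a b) {w w' : (Circle × ℂ) × ℝ} (hw : w ∈ Ur v a) (hw' : w' ∈ Ur v a) :
    T.rn v a b w = T.rn v a b w' ↔ ∃ α β, Ker a b α β ∧ w' = ((β * w.1.1, α * w.1.2), w.2) := by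
  obtain ⟨a', n, m, hu, hn, rfl⟩ := exists_cv h
  rw [T.rn_cv hu n m hw, T.rn_cv hu n m hw', (T.rod v hu).injOn.eq_iff (cv_mem hw) (cv_mem hw'),
    Prod.mk.injEq, cv_eq_iff]
  simp only [ker_iff hu]
  exact ⟨fun ⟨⟨α, β, k, e⟩, e'⟩ => ⟨α, β, k, Prod.ext e e'.symm⟩,
    fun ⟨α, β, k, e⟩ => ⟨⟨α, β, k, congrArg Prod.fst e⟩, (congrArg Prod.snd e).symm⟩⟩

theorem mem_rn (h : LH a b) {p : X T v} (h1 : p ∈ T.tor v) (h' : T.yy v p ≠ 0 ∨ T.time v p ∈ Jr v a) :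
    ∃ w ∈ Ur v a, T.rn v a b w = p := by
  obtain ⟨a', n, m, hu, hn, rfl⟩ := exists_cv h
  obtain ⟨⟨w, x⟩, hw, rfl⟩ := T.mem_rod hu h1 h'
  obtain ⟨w', rfl⟩ := cv_surj hn m w
  have : (w', x) ∈ Ur v a := hw.imp_left (mt cv_ne.2)
  exact ⟨_, this, T.rn_cv hu n m this⟩

theorem ne_or {z : ℂ × ℂ} (h : z ≠ 0) : z.1 ≠ 0 ∨ z.2 ≠ 0 :=
  not_and_or.1 fun k => h (Prod.ext k.1 k.2)

theorem ld_vn (h : LH a b) {z : ℂ × ℂ} (hz : z ∈ Uv v a b c) (h0 : z ≠ 0) :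
    IsLocalDiffeomorphAt IV (𝓡 4) ∞ (T.vn v a b c) z := by
  rcases ne_or h0 with k | k
  · refine Glue52.ld_congr ((ld_hR k).comp _ _ (T.ld_rn h.symm (hR_mem hz k))) ?_
    filter_upwards [(isOpen_ne.preimage continuous_fst).mem_nhds k] with y hy using T.vn_R hy
  · refine Glue52.ld_congr ((ld_hL k).comp _ _ (T.ld_rn h (hL_mem hz k))) ?_
    filter_upwards [(isOpen_ne.preimage continuous_snd).mem_nhds k] with y hy using T.vn_L hy

theorem vn_spec (h : LH a b) {z : ℂ × ℂ} (hz : z ∈ Uv v a b c) (h0 : z ≠ 0) : T.vn v a b c z ∈ T.tor v ∧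
    T.time v (T.vn v a b c z) = tm c z ∧ T.yy v (T.vn v a b c z) = 2 * ‖z.1‖ * ‖z.2‖ := by
  rcases ne_or h0 with k | k
  · rw [T.vn_R k, ← norm_hyp]
    exact T.rn_spec h.symm (hR_mem hz k)
  · rw [T.vn_L k, mul_right_comm]
    exact (norm_hyp z.swap) ▸ T.rn_spec h (hL_mem hz k)

theorem rr_vn (h : LH a b) {z : ℂ × ℂ} (hz : z ∈ Uv v a b c) (h0 : z ≠ 0) :
    T.rr v c (T.vn v a b c z) = ‖z.1‖ ^ 2 + ‖z.2‖ ^ 2 := by
  rw [rr, (T.vn_spec h hz h0).2.1, (T.vn_spec h hz h0).2.2,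
    ← Real.sqrt_sq (show 0 ≤ ‖z.1‖ ^ 2 + ‖z.2‖ ^ 2 by positivity), tm]
  congr 1
  ring

/-- the fibres of `vn` are the orbits of `Ker a b` -/
theorem vn_eq_iff (h : LH a b) {z z' : ℂ × ℂ} (hz : z ∈ Uv v a b c) (h0 : z ≠ 0) (hz' : z' ∈ Uv v a b c)
    (h0' : z' ≠ 0) : T.vn v a b c z = T.vn v a b c z' ↔ ∃ α β, Ker a b α β ∧ z' = rt α β z := by
  constructor
  · intro e
    have e1 : tm c z = tm c z' := by rw [← (T.vn_spec h hz h0).2.1, e, (T.vn_spec h hz' h0').2.1]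
    have e2 := (T.rr_vn h hz h0).symm.trans (e ▸ T.rr_vn h hz' h0')
    unfold tm at e1
    rcases ne_or h0 with k | k
    · have k' : z'.1 ≠ 0 := fun e => k (by
        rw [← norm_eq_zero, ← sq_eq_zero_iff]; rw [e, norm_zero] at e1 e2; linarith)
      rw [T.vn_R k, T.vn_R k', T.rn_eq_iff h.symm (hR_mem hz k) (hR_mem hz' k')] at e
      obtain ⟨β, α, k1, e⟩ := e
      exact ⟨α, β, k1.symm, hR_inj (c := c) k' (rt_ne1.2 k)
        (e.trans (Prod.ext (hyp_rt α β k).symm (tm_rt c α β z).symm))⟩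
    · have k' : z'.2 ≠ 0 := fun e => k (by
        rw [← norm_eq_zero, ← sq_eq_zero_iff]; rw [e, norm_zero] at e1 e2; linarith)
      rw [T.vn_L k, T.vn_L k', T.rn_eq_iff h (hL_mem hz k) (hL_mem hz' k')] at e
      obtain ⟨α, β, k1, e⟩ := e
      exact ⟨α, β, k1, hL_inj (c := c) k' (rt_ne2.2 k)
        (e.trans (Prod.ext (hyp_rt β α (z := z.swap) k).symm (tm_rt c α β z).symm))⟩
  · rintro ⟨α, β, k1, rfl⟩
    rcases ne_or h0 with k | k
    · rw [T.vn_R k, T.vn_R (rt_ne1.2 k), T.rn_eq_iff h.symm (hR_mem hz k) (hR_mem hz' (rt_ne1.2 k))]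
      exact ⟨β, α, k1.symm, Prod.ext (hyp_rt α β k) (tm_rt c α β z)⟩
    · rw [T.vn_L k, T.vn_L (rt_ne2.2 k), T.rn_eq_iff h (hL_mem hz k) (hL_mem hz' (rt_ne2.2 k))]
      exact ⟨α, β, k1, Prod.ext (hyp_rt β α (z := z.swap) k) (tm_rt c α β z)⟩

/-- the range of `vn` -/
theorem mem_vn (h : LH a b) {p : X T v} (h1 : p ∈ T.tor v)
    (h' : T.yy v p ≠ 0 ∨ (T.time v p ∈ Jv v a b c ∧ T.time v p ≠ c)) :
    ∃ z ∈ Uv v a b c, z ≠ 0 ∧ T.vn v a b c z = p := by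
  by_cases k : T.yy v p ≠ 0 ∨ c < T.time v p
  · obtain ⟨w, hw, rfl⟩ := T.mem_rn h.symm h1 (by
      rcases h' with e | e
      exacts [Or.inl e, k.imp_right (Jv.right e.1)])
    rw [(T.rn_spec h.symm hw).2.1, (T.rn_spec h.symm hw).2.2, norm_ne_zero_iff] at k h'
    obtain ⟨z, z1, rfl⟩ := exists_hR k
    exact ⟨z, h'.imp (fun k => ⟨z1, mt (hR_ne z1).2 k⟩) And.left, fun e => z1 (by rw [e]; rfl), T.vn_R z1⟩
  · have h2 := h'.resolve_left fun e => k (Or.inl e)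
    have h3 := (le_of_not_gt fun e => k (Or.inr e)).lt_of_ne h2.2
    obtain ⟨w, hw, rfl⟩ := T.mem_rn h h1 (Or.inr (Jv.left h2.1 h3))
    rw [(T.rn_spec h hw).2.1] at h2 h3
    obtain ⟨z, z1, rfl⟩ := exists_hL (Or.inr h3)
    exact ⟨z, Or.inr h2.1, fun e => z1 (by rw [e]; rfl), T.vn_L z1⟩

end Tb

/-- the sphere -/
abbrev S3' : Type := sphere (0 : E4) 1

/-- the diffeomorphism of the sphere induced by an isometry -/
def sphD {E : Type} [NormedAddCommGroup E] [InnerProductSpace ℝ E] {n : ℕ}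
    [Fact (Module.finrank ℝ E = n + 1)] (A : E ≃ₗᵢ[ℝ] E) :
    sphere (0 : E) 1 ≃ₘ^∞⟮𝓡 n, 𝓡 n⟯ sphere (0 : E) 1 :=
  diffeoOf (fun y => ⟨A y, by simp⟩) (fun y => ⟨A.symm y, by simp⟩)
    ((A.contDiff.contMDiff.comp contMDiff_coe_sphere).codRestrict_sphere _)
    ((A.symm.contDiff.contMDiff.comp contMDiff_coe_sphere).codRestrict_sphere _)
    (fun y => Subtype.ext (A.symm_apply_apply _)) fun y => Subtype.ext (A.apply_symm_apply _)

theorem coe_sphD {E : Type} [NormedAddCommGroup E] [InnerProductSpace ℝ E] {n : ℕ}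
    [Fact (Module.finrank ℝ E = n + 1)] (A : E ≃ₗᵢ[ℝ] E) (y : sphere (0 : E) 1) :
    (sphD (n := n) A y : E) = A y := rfl

/-- the torus action on `ℝ⁴` -/
def rot (α β : Circle) : E4 ≃ₗᵢ[ℝ] E4 where
  toFun x := L4.symm (rt α β (L4 x))
  invFun x := L4.symm (rt α⁻¹ β⁻¹ (L4 x))
  map_add' x y := by rw [← map_add, map_add L4]; exact congrArg _ (Prod.ext (mul_add _ _ _) (mul_add _ _ _))
  map_smul' r x := by
    rw [RingHom.id_apply, ← map_smul, map_smul L4]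
    exact congrArg _ (Prod.ext (mul_smul_comm _ _ _) (mul_smul_comm _ _ _))
  left_inv x := by simp [rt_rt, rt_one]
  right_inv x := by simp [rt_rt, rt_one]
  norm_map' x := by
    rw [← sq_eq_sq₀ (norm_nonneg _) (norm_nonneg _), ← norm_L4, ← norm_L4]
    simp [norm_rt1, norm_rt2]

theorem L4_rot (α β : Circle) (x : E4) : L4 (rot α β x) = rt α β (L4 x) := L4.apply_symm_apply _

theorem L4_ne {r : ℝ} (hr : 0 < r) (y : S3') : L4 (r • (y : E4)) ≠ 0 := by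
  rw [Ne, L4.map_eq_zero_iff, smul_eq_zero, not_or]
  exact ⟨hr.ne', ne_zero_of_mem_unit_sphere y⟩

theorem mem_Uv_vx (a b : Z2) (c : ℝ) (z : ℂ × ℂ) : z ∈ Uv (vx a b c) a b c := Or.inr (Jv_vx _ _ _ _)

section Lens

variable {a b : Z2}

/-- the point of the model cone -/
def lk (a b : Z2) (y : S3') : X torT (vx a b 0) := torT.vn _ a b 0 (L4 y)

theorem lk_eq_iff (h : LH a b) {y y' : S3'} :
    lk a b y = lk a b y' ↔ ∃ α β, Ker a b α β ∧ y' = sphD (n := 3) (rot α β) y := by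
  have k : ∀ y : S3', L4 y ≠ 0 := fun y => by simpa using L4_ne one_pos y
  rw [lk, lk, torT.vn_eq_iff h (mem_Uv_vx _ _ _ _) (k y) (mem_Uv_vx _ _ _ _) (k y')]
  refine exists_congr fun α => exists_congr fun β => and_congr_right fun _ => ?_
  rw [← L4_rot, L4.injective.eq_iff, Subtype.ext_iff, coe_sphD]

/-- the gluing data of the lens space -/
def lgd (h : LH a b) : GD E3 Unit :=
  GD.ofMaps (fun _ => Pc.of (𝓡 3) S3' (ContinuousLinearEquiv.refl ℝ E3)) (fun _ => lk a b)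
    (fun _ _ y y' e => by
      obtain ⟨α, β, k, rfl⟩ := (lk_eq_iff h).1 e
      exact ⟨(sphD (n := 3) (rot α β)).toPartialDiffeomorph, mem_univ _, rfl,
        fun z _ => ((lk_eq_iff h).2 ⟨α, β, k, rfl⟩).symm⟩)
    fun _ y => by
      obtain ⟨φ, h1, h2⟩ := torT.ld_vn h (mem_Uv_vx a b 0 (L4 y)) (by simpa using L4_ne one_pos y)
      refine ⟨{z : S3' | L4 z ∈ φ.source}, (φ.open_source.preimage (by fun_prop)).mem_nhds h1,
        fun z hz w hw e => Subtype.ext (L4.injective (φ.injOn hz hw ?_))⟩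
      exact (h2 hz).symm.trans (e.trans (h2 hw))

/-- THE LENS SPACE of the slopes `a`, `b` -/
def Lens (h : LH a b) : Type := (lgd h).M

variable (h : LH a b)

instance : TopologicalSpace (Lens h) := inferInstanceAs (TopologicalSpace (lgd h).M)
instance : ChartedSpace E3 (Lens h) := inferInstanceAs (ChartedSpace E3 (lgd h).M)
instance : IsManifold (𝓡 3) ∞ (Lens h) := inferInstanceAs (IsManifold 𝓘(ℝ, E3) ∞ (lgd h).M)

/-- the universal covering -/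
def cov (y : S3') : Lens h := (lgd h).inc () y

theorem ld_cov : IsLocalDiffeomorph (𝓡 3) (𝓡 3) ∞ (cov h) := (lgd h).ld ()

theorem cov_surj : Surjective (cov h) := fun x => by
  obtain ⟨_, y, e⟩ := (lgd h).surj x
  exact ⟨y, e⟩

theorem cov_eq_iff {y y' : S3'} :
    cov h y = cov h y' ↔ ∃ α β, Ker a b α β ∧ y' = sphD (n := 3) (rot α β) y :=
  GD.ofMaps_inc.trans (lk_eq_iff h)

theorem cov_rot {α β : Circle} (k : Ker a b α β) (y : S3') : cov h (sphD (n := 3) (rot α β) y) = cov h y :=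
  ((cov_eq_iff h).2 ⟨α, β, k, rfl⟩).symm

instance : CompactSpace (Lens h) := (cov_surj h).compactSpace (ld_cov h).contMDiff.continuous

instance : ConnectedSpace S3' := isConnected_iff_connectedSpace.1
  (isConnected_sphere (by rw [← Module.finrank_eq_rank]; simp) _ zero_le_one)

instance : ConnectedSpace (Lens h) := (cov_surj h).connectedSpace (ld_cov h).contMDiff.continuous

instance : SecondCountableTopology (Lens h) := ChartedSpace.secondCountable_of_sigmaCompact E3 _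

theorem finite_fibre (x : Lens h) : (cov h ⁻¹' {x}).Finite := by
  obtain ⟨y, rfl⟩ := cov_surj h x
  refine ((finite_ker h.ne).image fun p => sphD (n := 3) (rot p.1 p.2) y).subset fun y' e => ?_
  obtain ⟨α, β, k, e⟩ := (cov_eq_iff h).1 (show cov h y' = cov h y from e).symm
  exact ⟨(α, β), k, e.symm⟩

/-- for a basis the lens space is the sphere -/
theorem isOE_cov (hu : Uni a b) : IsOE (𝓡 3) (𝓡 3) (cov h) :=
  ⟨fun y y' e => by
    obtain ⟨α, β, k, rfl⟩ := (cov_eq_iff h).1 e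
    obtain ⟨rfl, rfl⟩ := k.eq_one hu
    exact Subtype.ext (L4.injective (by rw [coe_sphD, L4_rot, rt_one])), ld_cov h⟩

end Lens

namespace Tb

variable (T : Tb IN N) {v : ℝ → Z2} {a b : Z2} {c : ℝ} {ρ : ℝ → ℝ} (h : LH a b)

variable (v a b) in
/-- the lens neck on the covering sphere -/
def lc (c : ℝ) (ρ : ℝ → ℝ) (p : S3' × ℝ) : X T v := T.vn v a b c (L4 (√(ρ p.2) • (p.1 : E4)))

variable (v) in
/-- the lens neck -/
def lb (c : ℝ) (ρ : ℝ → ℝ) (p : Lens h × ℝ) : X T v := T.lc v a b c ρ (surjInv (cov_surj h) p.1, p.2)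

theorem Arc.ne (A : Arc v a b c ρ) (p : S3' × ℝ) : L4 (√(ρ p.2) • (p.1 : E4)) ≠ 0 :=
  L4_ne (Real.sqrt_pos.2 (A.pos _)) _

theorem lc_eq_sb (hu : Uni a b) (A : Arc v a b c ρ) (p : S3' × ℝ) : T.lc v a b c ρ p = T.sb v hu c ρ p :=
  T.vn_eq_vtx hu (A.mem_Uv p)

include h in
theorem ld_lc (A : Arc v a b c ρ) : IsLocalDiffeomorph ((𝓡 3).prod 𝓘(ℝ, ℝ)) (𝓡 4) ∞ (T.lc v a b c ρ) :=
  fun p => (((IsOE.of_diffeo L4.toDiffeomorph).comp (isOE_shell (isOE_sqrt A.oe A.pos)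
    fun s => Real.sqrt_pos.2 (A.pos s))).loc p).comp _ _ (T.ld_vn h (A.mem_Uv p) (A.ne p))

include h in
theorem rr_lc (A : Arc v a b c ρ) (p : S3' × ℝ) : T.rr v c (T.lc v a b c ρ p) = ρ p.2 :=
  (T.rr_vn h (A.mem_Uv p) (A.ne p)).trans (A.nsq p)

theorem lc_eq_iff (A : Arc v a b c ρ) {p q : S3' × ℝ} :
    T.lc v a b c ρ p = T.lc v a b c ρ q ↔ cov h p.1 = cov h q.1 ∧ p.2 = q.2 := by
  have key : p.2 = q.2 → (T.lc v a b c ρ p = T.lc v a b c ρ q ↔ cov h p.1 = cov h q.1) := fun e => by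
    rw [lc, lc, T.vn_eq_iff h (A.mem_Uv p) (A.ne p) (A.mem_Uv q) (A.ne q), cov_eq_iff]
    refine exists_congr fun α => exists_congr fun β => and_congr_right fun _ => ?_
    rw [← L4_rot, L4.injective.eq_iff, Subtype.ext_iff, coe_sphD, map_smul, e,
      (smul_right_injective E4 (Real.sqrt_pos.2 (A.pos _)).ne').eq_iff]
  refine ⟨fun e => ?_, fun e => (key e.2).2 e.1⟩
  have := A.oe.inj ((T.rr_lc h A p).symm.trans (e ▸ T.rr_lc h A q))
  exact ⟨(key this).1 e, this⟩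

theorem lb_cov (A : Arc v a b c ρ) (y : S3') (s : ℝ) : T.lb v h c ρ (cov h y, s) = T.lc v a b c ρ (y, s) :=
  (T.lc_eq_iff h A).2 ⟨surjInv_eq _ _, rfl⟩

theorem isOE_lb (A : Arc v a b c ρ) : IsOE ((𝓡 3).prod 𝓘(ℝ, ℝ)) (𝓡 4) (T.lb v h c ρ) := by
  refine ⟨fun p q e => ?_, fun ⟨x, s⟩ => ?_⟩
  · have := (T.lc_eq_iff h A).1 e
    simp only [surjInv_eq] at this
    exact Prod.ext this.1 this.2
  · obtain ⟨y, rfl⟩ := cov_surj h x
    exact Glue52.ld_of_comp (ld_prodMap_at (ld_cov h y) (Glue52.ld_id s)) (Glue52.ld_congr (T.ld_lc h A (y, s))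
      (Eventually.of_forall fun z => T.lb_cov h A z.1 z.2))

theorem rr_lb (A : Arc v a b c ρ) (p : Lens h × ℝ) : T.rr v c (T.lb v h c ρ p) = ρ p.2 := T.rr_lc h A _

theorem lb_mem_tor (A : Arc v a b c ρ) (p : Lens h × ℝ) : T.lb v h c ρ p ∈ T.tor v :=
  (T.vn_spec h (A.mem_Uv _) (A.ne _)).1

theorem image_lb (A : Arc v a b c ρ) (S : Set ℝ) :
    T.lb v h c ρ '' (univ ×ˢ S) = T.disc v c (ρ '' S) := by
  ext p
  constructor
  · rintro ⟨q, hq, rfl⟩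
    exact ⟨T.lb_mem_tor h A q, q.2, hq.2, (T.rr_lb h A q).symm⟩
  · rintro ⟨h1, s, hs, e⟩
    change ρ s = T.rr v c p at e
    have := A.pos s
    obtain ⟨z, hz, z0, rfl⟩ := T.mem_vn h (c := c) h1 ((em _).symm.imp_right fun k => by
      rcases T.time_of_rr (c := c) k with k | k <;> rw [k, ← e]
      exacts [⟨Jv.of_left (A.left s) (by linarith), by linarith⟩,
        ⟨Jv.of_right (A.right s) (by linarith), by linarith⟩])
    obtain ⟨x, rfl⟩ := L4.surjective z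
    rw [T.rr_vn h hz z0, norm_L4] at e
    obtain ⟨u, hx⟩ := exists_shell (x := x) (Real.sqrt_pos.2 this) (by rw [e, Real.sqrt_sq (norm_nonneg _)])
    exact ⟨(cov h u, s), ⟨mem_univ _, hs⟩, by rw [T.lb_cov h A, lc, hx]⟩

end Tb

theorem Jr_vx_left {a b : Z2} {c x : ℝ} (h : x < c) : x ∈ Jr (vx a b c) a := Jv.left (Jv_vx a b c x) h

theorem Jr_vx_right {a b : Z2} {c x : ℝ} (h : c < x) : x ∈ Jr (vx a b c) b := Jv.right (Jv_vx a b c x) h

theorem arc_vx (a b : Z2) (c : ℝ) {ρ : ℝ → ℝ} (h : IsOE 𝓘(ℝ, ℝ) 𝓘(ℝ, ℝ) ρ) (h0 : ∀ s, 0 < ρ s) :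
    Tb.Arc (vx a b c) a b c ρ :=
  ⟨h, h0, fun s => Jr_vx_left (by linarith [h0 s]), fun s => Jr_vx_right (by linarith [h0 s])⟩

instance {a b : Z2} (h : LH a b) : T2Space (Lens h) :=
  have k := torT.isOE_lb h (arc_vx a b 0 isOE_exp Real.exp_pos)
  T2Space.of_injective_continuous (f := fun x => torT.lb _ h 0 Real.exp (x, 0))
    (fun _ _ e => congrArg Prod.fst (k.inj e)) (k.continuous.comp (by fun_prop))

end Crest.Agent.X212.Rod53
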