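import Crest.Agent.X212.Rod53.Lens
import Crest.Agent.X212.Ext52.Top

/-!
# X212 / Rod53, part Fill (helper53): fillings of an arbitrary tube

* `F.e : N → Y` (the exterior in the filling, total function), `F.pe` (partial diffeomorphism), `Fl.mk'`;
* `T.Fill hu`, `T.fl hu` (existence), `Fl.exists_diffeo` (uniqueness), `T.triv` (the trivial filling);
* `F.t2`, `F.compact`, `F.conn`, `F.sc`; the dual tube `F.tb`, `F.dual`;
* `F.map`, `F.ofGerm` (a filling depends only on the germ of the tube), `F.chg`, `TG`, `F.ofTG`.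
-/

set_option autoImplicit false
set_option linter.unusedSectionVars false

open Set Filter Topology Function Metric TopologicalSpace
open scoped ContDiff Manifold ComplexConjugate

noncomputable section

namespace Crest.Agent.X212.Rod53

open Crest.Agent.X212.Glue52 Crest.Agent.X212.Cyl58
open Crest.Agent.X212.Ext52 (Cz dense_Cz)

/-- the action of `gl p q` on slopes -/
def ac (p q x : Z2) : Z2 := x.2 • p + x.1 • q

theorem gl_ac (p q a b : Z2) {w : Circle × ℂ} (h : w.2 ≠ 0) :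
    gl p q (gl a b w) = gl (ac p q a) (ac p q b) w := gl_gl p q a b h

theorem dt_ac (p q x y : Z2) : dt (ac p q x) (ac p q y) = -dt p q * dt x y := by
  simp only [dt, ac, Prod.fst_add, Prod.snd_add, Prod.smul_fst, Prod.smul_snd, smul_eq_mul]
  ring

theorem ac_neg (p q x : Z2) : ac p q (-x) = -ac p q x := by simp [ac, add_comm]

theorem ac_zero (p q : Z2) : ac p q 0 = 0 := by simp [ac]

theorem ac_std (x : Z2) : ac (0, 1) (1, 0) x = x := by simp [ac]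

theorem Uni.ac {p q a b : Z2} (h : Uni p q) (h' : Uni a b) : Uni (ac p q a) (ac p q b) := by
  unfold Uni at *
  rw [dt_ac]
  rcases h with h | h <;> rcases h' with h' | h' <;> simp [h, h']

theorem PM.ac {p q a b : Z2} (h : PM a b) : PM (ac p q a) (ac p q b) := by
  rcases h with rfl | rfl
  exacts [Or.inl rfl, Or.inr (ac_neg _ _ _)]

/-- the first vector of the inverse basis -/
def du1 (a b : Z2) : Z2 := (dt a b * a.1, -(dt a b * b.1))

/-- the second vector of the inverse basis -/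
def du2 (a b : Z2) : Z2 := (-(dt a b * a.2), dt a b * b.2)

theorem glI_eq (a b : Z2) : glI a b = gl (du1 a b) (du2 a b) := rfl

theorem Uni.du {a b : Z2} (h : Uni a b) : Uni (du1 a b) (du2 a b) := by
  have : dt (du1 a b) (du2 a b) = dt a b * dt a b * dt a b := by
    simp only [dt, du1, du2]
    ring
  unfold Uni
  rwa [this, h.sq, one_mul]

theorem ac_du {a b : Z2} (h : Uni a b) (x : Z2) : ac a b (ac (du1 a b) (du2 a b) x) = x := by
  have h1 := h.sq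
  ext
  · simp only [dt, ac, du1, du2, Prod.fst_add, Prod.snd_add, Prod.smul_fst, Prod.smul_snd, smul_eq_mul] at h1 ⊢
    linear_combination x.1 * h1
  · simp only [dt, ac, du1, du2, Prod.fst_add, Prod.snd_add, Prod.smul_fst, Prod.smul_snd, smul_eq_mul] at h1 ⊢
    linear_combination x.2 * h1

theorem du_ac {a b : Z2} (h : Uni a b) (x : Z2) : ac (du1 a b) (du2 a b) (ac a b x) = x := by
  have h1 := h.sq
  ext
  · simp only [dt, ac, du1, du2, Prod.fst_add, Prod.snd_add, Prod.smul_fst, Prod.smul_snd, smul_eq_mul] at h1 ⊢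
    linear_combination x.1 * h1
  · simp only [dt, ac, du1, du2, Prod.fst_add, Prod.snd_add, Prod.smul_fst, Prod.smul_snd, smul_eq_mul] at h1 ⊢
    linear_combination x.2 * h1

variable {EN HN : Type} [NormedAddCommGroup EN] [NormedSpace ℝ EN] [FiniteDimensional ℝ EN]
  [TopologicalSpace HN] {IN : ModelWithCorners ℝ EN HN} [IN.Boundaryless]
  {N : Type} [TopologicalSpace N] [ChartedSpace HN N] [IsManifold IN ∞ N] [T2Space N]
  {EN' HN' : Type} [NormedAddCommGroup EN'] [NormedSpace ℝ EN'] [FiniteDimensional ℝ EN']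
  [TopologicalSpace HN'] {IN' : ModelWithCorners ℝ EN' HN'} [IN'.Boundaryless]
  {N' : Type} [TopologicalSpace N'] [ChartedSpace HN' N'] [IsManifold IN' ∞ N'] [T2Space N']
  {EY HY : Type} [NormedAddCommGroup EY] [NormedSpace ℝ EY] [TopologicalSpace HY]
  {IY : ModelWithCorners ℝ EY HY} {Y : Type} [TopologicalSpace Y] [ChartedSpace HY Y]
  {EY' HY' : Type} [NormedAddCommGroup EY'] [NormedSpace ℝ EY'] [TopologicalSpace HY']
  {IY' : ModelWithCorners ℝ EY' HY'} {Y' : Type} [TopologicalSpace Y'] [ChartedSpace HY' Y']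

namespace Tb

variable (T : Tb IN N)

theorem oe : IsOE IT IN T.τ := ⟨T.inj, T.ld⟩

/-- the open exterior -/
abbrev ExO : Opens N := ⟨T.Ex, T.isOpen_Ex⟩

theorem mem_Ex_of {p : N} (h : p ∉ range T.τ) : p ∈ T.Ex := fun _ e => h ⟨_, e⟩

theorem Ex_or (p : N) : p ∈ T.Ex ∨ ∃ u, T.τ (u, 0) = p := by
  by_cases h : ∃ u, T.τ (u, 0) = p
  exacts [Or.inr h, Or.inl (not_exists.1 h)]

theorem dense_Ex : Dense T.Ex := fun p => by
  rcases T.Ex_or p with h | ⟨u, rfl⟩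
  · exact subset_closure h
  · refine closure_mono ?_ (image_closure_subset_closure_image T.oe.continuous ⟨_, dense_Cz (u, 0), rfl⟩)
    rintro _ ⟨w, hw, rfl⟩
    exact T.τ_mem.2 hw

theorem isPreconnected_Ex [PreconnectedSpace N] : IsPreconnected T.Ex := by
  have hc : IsPreconnected (T.τ '' (Cz : Set (Circle × ℂ))) :=
    (isConnected_iff_connectedSpace.2 (inferInstanceAs (ConnectedSpace Cz))).isPreconnected.image _ T.oe.continuous.continuousOn
  have h0 : T.τ '' (Cz : Set (Circle × ℂ)) ⊆ T.Ex := by rintro _ ⟨w, hw, rfl⟩; exact T.τ_mem.2 hw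
  have key : ∀ A B : Set N, IsOpen A → IsOpen B → T.Ex ⊆ A ∪ B → T.Ex ∩ (A ∩ B) = ∅ →
      T.τ '' (Cz : Set (Circle × ℂ)) ⊆ A → T.Ex ⊆ A := by
    intro A B hA hB hu hd hr
    have := (isPreconnected_univ (α := N)).subset_left_of_subset_union
      ((T.isOpen_Ex.inter hA).union T.oe.isOpen_range) (T.isOpen_Ex.inter hB)
      (disjoint_left.2 fun x h1 h2 => (eq_empty_iff_forall_notMem.1 hd x) ⟨h2.1, h1.elim And.right
        (fun ⟨w, e⟩ => hr ⟨w, T.τ_mem.1 (e ▸ h2.1), e⟩), h2.2⟩)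
      (fun x _ => (T.Ex_or x).elim (fun h => (hu h).imp (fun k => Or.inl ⟨h, k⟩) fun k => ⟨h, k⟩)
        fun ⟨_, e⟩ => Or.inl (Or.inr ⟨_, e⟩)) ⟨T.τ (1, 0), mem_univ _, Or.inr ⟨(1, 0), rfl⟩⟩
    exact fun x hx => (this (mem_univ x)).elim And.right fun ⟨w, e⟩ => hr ⟨w, T.τ_mem.1 (e ▸ hx), e⟩
  rw [isPreconnected_iff_subset_of_disjoint] at hc ⊢
  intro A B hA hB hu hd
  refine (hc A B hA hB (h0.trans hu) (subset_eq_empty (inter_subset_inter_left _ h0) hd)).imp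
    (key A B hA hB hu hd) (key B A hB hA (by rwa [union_comm]) (by rwa [inter_comm B]))

instance [PreconnectedSpace N] (v : ℝ → Z2) : ConnectedSpace (X T v) := T.connectedSpace T.isPreconnected_Ex

end Tb

namespace Fl

variable {T : Tb IN N} {a b : Z2} (F : Fl T a b IY Y)

open Classical in
/-- the exterior in the filling, as a total function -/
def e (p : N) : Y := if h : p ∈ F.W then F.ie ⟨p, h⟩ else F.it (1, 0)

theorem e_ie (q : F.W) : F.e q = F.ie q := dif_pos q.2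

theorem e_of {p : N} (h : p ∈ T.Ex) : F.e p = F.ie ⟨p, (F.hW p).2 h⟩ := dif_pos _

theorem ld_e {p : N} (h : p ∈ T.Ex) : IsLocalDiffeomorphAt IN IY ∞ F.e p :=
  Glue52.ld_of_comp (ld_val F.W ⟨p, (F.hW p).2 h⟩) (Glue52.ld_congr (F.oeE.loc _) (Eventually.of_forall F.e_ie))

theorem injOn_e : InjOn F.e T.Ex := fun p hp q hq k => by
  rw [F.e_of hp, F.e_of hq] at k
  exact congrArg Subtype.val (F.oeE.inj k)

theorem e_eq_it {p : N} (h : p ∈ T.Ex) {w : Circle × ℂ} : F.e p = F.it w ↔ w.2 ≠ 0 ∧ T.τ (gl a b w) = p := by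
  rw [F.e_of h, F.eq]

theorem e_τ {w : Circle × ℂ} (h : w.2 ≠ 0) : F.e (T.τ (gl a b w)) = F.it w :=
  (F.e_eq_it (T.τ_mem.2 (gl_ne.2 h))).2 ⟨h, rfl⟩

theorem e_τ' (hu : Uni a b) {w : Circle × ℂ} (h : w.2 ≠ 0) : F.e (T.τ w) = F.it (glI a b w) := by
  rw [← F.e_τ (w := glI a b w) (gl_ne.2 h), gl_glI hu h]

theorem e_ne {p : N} (h : p ∈ T.Ex) (u : Circle) : F.e p ≠ F.it (u, 0) := fun k => ((F.e_eq_it h).1 k).1 rfl

theorem surj' (y : Y) : (∃ p ∈ T.Ex, F.e p = y) ∨ ∃ u, F.it (u, 0) = y := by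
  rcases F.surj y with ⟨q, rfl⟩ | ⟨⟨u, ζ⟩, rfl⟩
  · exact Or.inl ⟨q, (F.hW _).1 q.2, F.e_ie q⟩
  · by_cases h : ζ = 0
    exacts [Or.inr ⟨u, by rw [h]⟩, Or.inl ⟨_, T.τ_mem.2 (gl_ne.2 h), F.e_τ h⟩]

theorem oe_e : IsOE IN IY fun q : T.ExO => F.e q :=
  ⟨fun p q k => Subtype.ext (F.injOn_e p.2 q.2 k), fun q => ld_restrict (F.ld_e q.2)⟩

theorem cyf_e (v : ℝ → Z2) (hu : Uni a b) {p : N} (h : p ∈ T.Ex) (x : ℝ) :
    F.cyf v hu (F.e p, x) = T.ext v (p, x) := by rw [F.e_of h, F.cyf_ie]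

/-- the exterior in the filling, as a partial diffeomorphism -/
def pe : PartialDiffeomorph IN IY N Y ∞ :=
  pdOn T.isOpen_Ex ⟨_, (T.τ_mem (w := (1, 1))).2 one_ne_zero⟩ (fun _ => F.ld_e) F.injOn_e

theorem pe_source : F.pe.source = T.Ex := rfl

theorem pe_apply (p : N) : F.pe p = F.e p := rfl

theorem mem_pe_target {y : Y} : y ∈ F.pe.target ↔ ∀ u, F.it (u, 0) ≠ y :=
  ⟨by rintro ⟨p, hp, rfl⟩ u; exact (F.e_ne hp u).symm, fun h => (F.surj' y).resolve_right fun ⟨u, k⟩ => h u k⟩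

/-- a filling from total functions -/
def mk' (e : N → Y) (it : Circle × ℂ → Y) (ld : ∀ p ∈ T.Ex, IsLocalDiffeomorphAt IN IY ∞ e p)
    (inj : InjOn e T.Ex) (oe : IsOE IT IY it) (surj : ∀ y, (∃ p ∈ T.Ex, e p = y) ∨ ∃ w, it w = y)
    (eq : ∀ w, w.2 ≠ 0 → e (T.τ (gl a b w)) = it w) (ne : ∀ p ∈ T.Ex, ∀ u, e p ≠ it (u, 0)) :
    Fl T a b IY Y where
  W := T.ExO
  hW _ := Iff.rfl
  ie q := e q
  it := it
  oeE := ⟨fun p q k => Subtype.ext (inj p.2 q.2 k), fun q => ld_restrict (ld _ q.2)⟩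
  oeT := oe
  surj y := (surj y).imp_left fun ⟨p, hp, k⟩ => ⟨⟨p, hp⟩, k⟩
  eq p w := ⟨fun k => have h : w.2 ≠ 0 := fun h => ne _ p.2 w.1 (k.trans (by rw [← h]))
    ⟨h, inj (T.τ_mem.2 (gl_ne.2 h)) p.2 ((eq w h).trans k.symm)⟩, fun k => k.2 ▸ eq w k.1⟩

theorem mk'_e {e : N → Y} {it : Circle × ℂ → Y} {ld inj oe surj eq ne} {p : N} (h : p ∈ T.Ex) :
    (mk' (T := T) (a := a) (b := b) (IY := IY) e it ld inj oe surj eq ne).e p = e p := e_of _ h

theorem mk'_it {e : N → Y} {it : Circle × ℂ → Y} {ld inj oe surj eq ne} :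
    (mk' (T := T) (a := a) (b := b) (IY := IY) e it ld inj oe surj eq ne).it = it := rfl

/-- UNIQUENESS -/
theorem exists_diffeo (F' : Fl T a b IY' Y') : ∃ Φ : Y ≃ₘ^∞⟮IY, IY'⟯ Y',
    (∀ p ∈ T.Ex, Φ (F.e p) = F'.e p) ∧ ∀ w, Φ (F.it w) = F'.it w := by
  obtain ⟨Φ, h1, h2⟩ := exists_diffeo_of_two F.oe_e F.oeT F'.oe_e F'.oeT
    (fun p w => (F.e_eq_it p.2).trans (F'.e_eq_it p.2).symm)
    (fun y => (F.surj' y).imp (fun ⟨p, hp, k⟩ => ⟨⟨p, hp⟩, k⟩) fun ⟨_, k⟩ => ⟨_, k⟩)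
    (fun y => (F'.surj' y).imp (fun ⟨p, hp, k⟩ => ⟨⟨p, hp⟩, k⟩) fun ⟨_, k⟩ => ⟨_, k⟩)
  exact ⟨Φ, fun p hp => h1 ⟨p, hp⟩, h2⟩

/-- transport along a diffeomorphism -/
def map (Φ : Y ≃ₘ^∞⟮IY, IY'⟯ Y') : Fl T a b IY' Y' :=
  mk' (Φ ∘ F.e) (Φ ∘ F.it) (fun _ h => (F.ld_e h).comp _ _ (Φ.isLocalDiffeomorph _))
    (Φ.injective.comp_injOn F.injOn_e) ((IsOE.of_diffeo Φ).comp F.oeT)
    (fun y => (F.surj' (Φ.symm y)).imp (fun ⟨p, hp, k⟩ => ⟨p, hp, by simp [k]⟩) fun ⟨u, k⟩ => ⟨(u, 0), by simp [k]⟩)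
    (fun _ h => congrArg Φ (F.e_τ h)) fun _ h u => Φ.injective.ne (F.e_ne h u)

theorem map_e (Φ : Y ≃ₘ^∞⟮IY, IY'⟯ Y') {p : N} (h : p ∈ T.Ex) : (F.map Φ).e p = Φ (F.e p) := mk'_e h

theorem map_it (Φ : Y ≃ₘ^∞⟮IY, IY'⟯ Y') (w : Circle × ℂ) : (F.map Φ).it w = Φ (F.it w) := rfl

theorem Jr_const (a : Z2) (x : ℝ) : x ∈ Jr (fun _ => a) a := mem_Jr.2 (Eventually.of_forall fun _ => PM.refl a)

theorem loc_const (hu : Uni a b) : Loc fun _ => a := fun x => loc_of_Jr hu (Jr_const a x)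

theorem oe_cyf (hu : Uni a b) : IsOE (IY.prod 𝓘(ℝ, ℝ)) (𝓡 4) (F.cyf (fun _ => a) hu) :=
  F.isOE_yb hu IsOE.id (Jr_const a)

include F in
theorem t2 (hu : Uni a b) : T2Space Y :=
  T2Space.of_injective_continuous (f := fun y => F.cyf (fun _ => a) hu (y, 0))
    (fun _ _ k => congrArg Prod.fst ((F.oe_cyf hu).inj k)) ((F.oe_cyf hu).continuous.comp (by fun_prop))

include F in
theorem compact [CompactSpace N] (hu : Uni a b) : CompactSpace Y := by
  have h := T.isCompact_time (v := fun _ => a) (isCompact_singleton (x := (0 : ℝ))) fun x _ => loc_const hu x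
  rw [← F.image_cyf hu fun x _ => Jr_const a x,
    ← (F.oe_cyf hu).isOpenEmbedding.isInducing.isCompact_iff] at h
  exact ⟨by have := h.image continuous_fst; rwa [Set.fst_image_prod univ (singleton_nonempty _)] at this⟩

include F in
theorem dense_e : Dense (F.e '' T.Ex) := fun y => by
  rcases F.surj' y with h | ⟨u, rfl⟩
  · exact subset_closure h
  · refine closure_mono ?_ (image_closure_subset_closure_image F.oeT.continuous ⟨_, dense_Cz (u, 0), rfl⟩)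
    rintro _ ⟨w, hw, rfl⟩
    exact ⟨_, T.τ_mem.2 (gl_ne.2 hw), F.e_τ hw⟩

include F in
theorem conn [PreconnectedSpace N] : ConnectedSpace Y := by
  rw [connectedSpace_iff_univ, ← F.dense_e.closure_eq]
  exact ⟨⟨F.it (1, 0), F.dense_e _⟩,
    (T.isPreconnected_Ex.image _ F.pe.contMDiffOn_toFun.continuousOn).closure⟩

include F in
theorem sc [SecondCountableTopology N] (hu : Uni a b) : SecondCountableTopology Y :=
  have := T.secondCountable (loc_const hu)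
  have := (F.oe_cyf hu).isOpenEmbedding.isEmbedding.secondCountableTopology
  (isEmbedding_prodMkLeft (0 : ℝ)).secondCountableTopology

include F in
theorem dim [FiniteDimensional ℝ EY] : Module.finrank ℝ EY = 3 :=
  ((F.oeT.loc (1, 0)).mfderivToContinuousLinearEquiv (by simp)).toLinearEquiv.finrank_eq.symm.trans
    (show Module.finrank ℝ (EuclideanSpace ℝ (Fin 1) × ℂ) = 3 by simp)

/-- A FILLING DEPENDS ONLY ON THE GERM OF THE TUBE -/
def ofGerm {T' : Tb IN' N'} {a' b' : Z2} (hu : Uni a' b') (g : N' → N)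
    (ld : ∀ p ∈ T'.Ex, IsLocalDiffeomorphAt IN' IN ∞ g p) (bij : BijOn g T'.Ex T.Ex)
    (k : Circle × ℂ → Circle × ℂ) (hk : ∀ u, IsLocalDiffeomorphAt IT IT ∞ k (u, 0))
    (k0 : ∀ u, (k (u, 0)).2 = 0) (kb : Bijective fun u => (k (u, 0)).1)
    (he : ∀ u, ∀ᶠ w in 𝓝 ((u, 0) : Circle × ℂ), w.2 ≠ 0 → (k w).2 ≠ 0 ∧ g (T'.τ (gl a' b' w)) = T.τ (gl a b (k w))) :
    Fl T' a' b' IY Y :=
  have m : ∀ {w : Circle × ℂ}, w.2 ≠ 0 → T'.τ (gl a' b' w) ∈ T'.Ex := fun h => T'.τ_mem.2 (gl_ne.2 h)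
  have k1 : ∀ u, k (u, 0) = ((k (u, 0)).1, 0) := fun u => Prod.ext rfl (k0 u)
  mk' (F.e ∘ g) (fun w => if w.2 = 0 then F.it (k w) else F.e (g (T'.τ (gl a' b' w))))
    (fun p hp => (ld p hp).comp _ _ (F.ld_e (bij.mapsTo hp))) (F.injOn_e.comp bij.injOn bij.mapsTo)
    ⟨fun ⟨u, ζ⟩ ⟨u', ζ'⟩ e => by
      by_cases h : ζ = 0 <;> by_cases h' : ζ' = 0 <;> simp only [h, h', if_true, if_false] at e
      · rw [h, h', kb.1 (congrArg Prod.fst (F.oeT.inj e))]
      · exact absurd (e.symm.trans (congrArg _ (k1 u))) (F.e_ne (bij.mapsTo (m h')) _)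
      · exact absurd (e.trans (congrArg _ (k1 u'))) (F.e_ne (bij.mapsTo (m h)) _)
      · exact gl_inj hu h h' (T'.inj (bij.injOn (m h) (m h') (F.injOn_e (bij.mapsTo (m h)) (bij.mapsTo (m h')) e))),
    fun ⟨u, ζ⟩ => by
      by_cases h : ζ = 0
      · subst h
        refine Glue52.ld_congr ((hk u).comp _ _ (F.oeT.loc _)) ?_
        filter_upwards [he u] with w hw
        split_ifs with h
        exacts [rfl, by rw [(hw h).2, F.e_τ (hw h).1]; rfl]
      · refine Glue52.ld_congr ((ld_gl hu h).comp _ _ ((T'.ld _).comp _ _ ((ld _ (m h)).comp _ _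
          (F.ld_e (bij.mapsTo (m h)))))) ?_
        filter_upwards [isOpen_ne2.mem_nhds h] with w hw using if_neg hw⟩
    (fun y => by
      rcases F.surj' y with ⟨p, hp, rfl⟩ | ⟨u, rfl⟩
      · obtain ⟨q, hq, rfl⟩ := bij.surjOn hp
        exact Or.inl ⟨q, hq, rfl⟩
      · obtain ⟨u, rfl⟩ := kb.2 u
        exact Or.inr ⟨(u, 0), (if_pos rfl).trans (congrArg _ (k1 u))⟩)
    (fun w h => (if_neg h).symm) fun p hp u e =>
      F.e_ne (bij.mapsTo hp) _ (e.trans ((if_pos rfl).trans (congrArg _ (k1 u))))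

theorem ofGerm_e {T' : Tb IN' N'} {a' b' : Z2} {hu : Uni a' b'} {g : N' → N} {ld bij k hk k0 kb he} {p : N'}
    (h : p ∈ T'.Ex) : (F.ofGerm (T' := T') hu g ld bij k hk k0 kb he).e p = F.e (g p) := e_of _ h

theorem ofGerm_it {T' : Tb IN' N'} {a' b' : Z2} {hu : Uni a' b'} {g : N' → N} {ld bij k hk k0 kb he}
    {w : Circle × ℂ} (h : w.2 ≠ 0 → (k w).2 ≠ 0 ∧ g (T'.τ (gl a' b' w)) = T.τ (gl a b (k w))) :
    (F.ofGerm (T' := T') hu g ld bij k hk k0 kb he).it w = F.it (k w) := by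
  by_cases e : w.2 = 0
  · exact if_pos e
  · exact (if_neg e).trans (by rw [(h e).2, F.e_τ (h e).1])

end Fl

theorem exists_chg {a b a' b' : Z2} (hu : Uni a b) (hu' : Uni a' b') (h : PM a' a) :
    ∃ k : Circle × ℂ → Circle × ℂ, IsLocalDiffeomorph IT IT ∞ k ∧ (∀ w, (k w).2 = 0 ↔ w.2 = 0) ∧
      (Bijective fun u => (k (u, 0)).1) ∧ ∀ w, w.2 ≠ 0 → gl a' b' w = gl a b (k w) := by
  obtain ⟨m, hm⟩ := hu.compl (h.symm.uni hu')
  rcases hm with rfl | rfl <;> rcases h with rfl | rfl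
  · exact ⟨tw m, ld_tw m, fun _ => tw_ne, bijective_id, fun w hw => (gl_tw _ _ _ hw).symm⟩
  · exact ⟨tw m ∘ cj, ld_comp (ld_tw m) ld_cj, fun _ => tw_ne.trans cj_ne, bijective_id, fun w hw =>
      (gl_cj _ _ _).symm.trans (gl_tw _ _ _ (mt cj_ne.1 hw)).symm⟩
  · exact ⟨tw m ∘ iv, ld_comp (ld_tw m) ld_iv, fun _ => tw_ne, inv_involutive.bijective, fun w hw =>
      (gl_iv _ _ _).symm.trans (gl_tw _ _ _ (w := iv w) hw).symm⟩
  · exact ⟨tw m ∘ iv ∘ cj, ld_comp (ld_tw m) (ld_comp ld_iv ld_cj), fun _ => tw_ne.trans cj_ne,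
      inv_involutive.bijective, fun w hw => (gl_cj _ _ _).symm.trans ((gl_iv _ _ _).symm.trans
        (gl_tw _ _ _ (w := iv (cj w)) (mt cj_ne.1 hw)).symm)⟩

/-- change of the sign of the slope and of the complement -/
theorem Fl.exists_chg {T : Tb IN N} {a b a' b' : Z2} (F : Fl T a b IY Y) (hu : Uni a b) (hu' : Uni a' b')
    (h : PM a' a) : ∃ F' : Fl T a' b' IY Y, ∀ p ∈ T.Ex, F'.e p = F.e p := by
  obtain ⟨k, h1, h2, h3, h4⟩ := Rod53.exists_chg hu hu' h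
  exact ⟨F.ofGerm hu' id (fun _ _ => Glue52.ld_id _) (bijOn_id _) k (fun _ => h1 _) (fun _ => (h2 _).2 rfl) h3
    fun _ => Eventually.of_forall fun w hw => ⟨mt (h2 w).1 hw, congrArg T.τ (h4 w hw)⟩, fun _ => F.ofGerm_e⟩

/-- a diffeomorphism of the exteriors that is monomial on the tubes -/
structure TG (T' : Tb IN' N') (T : Tb IN N) (g : N' → N) (p q : Z2) : Prop where
  uni : Uni p q
  ld : ∀ y ∈ T'.Ex, IsLocalDiffeomorphAt IN' IN ∞ g y
  bij : BijOn g T'.Ex T.Ex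
  eq : ∀ w, w.2 ≠ 0 → g (T'.τ w) = T.τ (gl p q w)

theorem TG.refl (T : Tb IN N) : TG T T id (0, 1) (1, 0) :=
  ⟨uni_std, fun _ _ => Glue52.ld_id _, bijOn_id _, fun w _ => by rw [gl_id]; rfl⟩

/-- transport of a filling along a monomial diffeomorphism of the exteriors -/
def Fl.ofTG {T : Tb IN N} {T' : Tb IN' N'} {g : N' → N} {p q a b : Z2} (h : TG T' T g p q) (hu : Uni a b)
    (F : Fl T (ac p q a) (ac p q b) IY Y) : Fl T' a b IY Y :=
  F.ofGerm hu g h.ld h.bij id (fun _ => Glue52.ld_id _) (fun _ => rfl) bijective_id fun _ =>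
    Eventually.of_forall fun w hw => ⟨hw, by rw [h.eq _ (gl_ne.2 hw), gl_ac _ _ _ _ hw]; rfl⟩

theorem Fl.ofTG_e {T : Tb IN N} {T' : Tb IN' N'} {g : N' → N} {p q a b : Z2} (h : TG T' T g p q) (hu : Uni a b)
    (F : Fl T (ac p q a) (ac p q b) IY Y) {y : N'} (hy : y ∈ T'.Ex) : (F.ofTG h hu).e y = F.e (g y) :=
  F.ofGerm_e hy

theorem Fl.ofTG_it {T : Tb IN N} {T' : Tb IN' N'} {g : N' → N} {p q a b : Z2} (h : TG T' T g p q) (hu : Uni a b)
    (F : Fl T (ac p q a) (ac p q b) IY Y) (w : Circle × ℂ) : (F.ofTG h hu).it w = F.it w :=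
  F.ofGerm_it fun hw => ⟨hw, by rw [h.eq _ (gl_ne.2 hw), gl_ac _ _ _ _ hw]; rfl⟩

namespace Tb

variable (T : Tb IN N) {a b : Z2}

/-- the trivial filling -/
def triv : Fl T (0, 1) (1, 0) IN N :=
  Fl.mk' id T.τ (fun _ _ => Glue52.ld_id _) (injOn_id _) T.oe
    (fun y => (T.Ex_or y).imp (fun h => ⟨y, h, rfl⟩) fun ⟨_, h⟩ => ⟨_, h⟩) (fun w _ => by rw [gl_id]; rfl)
    fun _ h u e => h u e.symm

theorem triv_e {p : N} (h : p ∈ T.Ex) : T.triv.e p = p := Fl.mk'_e h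

theorem triv_it : T.triv.it = T.τ := rfl

/-- the gluing data of a filling -/
def two (hu : Uni a b) : Two E3 IN IT IT T.ExO (Circle × ℂ) Cz where
  L₁ := linE 3 _ T.dim
  L₂ := linE 3 _ (by simp)
  j₁ z := ⟨T.τ (gl a b z), T.τ_mem.2 (gl_ne.2 z.2)⟩
  j₂ := Subtype.val
  ld₁ z := ld_codRestrict (ld_restrict ((ld_gl hu z.2).comp _ _ (T.ld _)))
  ld₂ := ld_val Cz
  inj₁ z w e := Subtype.ext (gl_inj hu z.2 w.2 (T.inj (congrArg Subtype.val e)))
  inj₂ := Subtype.val_injective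

/-- THE FILLING of the tube along `a` -/
def Fill (hu : Uni a b) : Type := (T.two hu).M

variable (hu : Uni a b)

instance : TopologicalSpace (T.Fill hu) := inferInstanceAs (TopologicalSpace (T.two hu).M)
instance : ChartedSpace E3 (T.Fill hu) := inferInstanceAs (ChartedSpace E3 (T.two hu).M)
instance : IsManifold (𝓡 3) ∞ (T.Fill hu) := inferInstanceAs (IsManifold 𝓘(ℝ, E3) ∞ (T.two hu).M)

/-- EXISTENCE -/
def fl : Fl T a b (𝓡 3) (T.Fill hu) where
  W := T.ExO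
  hW _ := Iff.rfl
  ie := (T.two hu).inl
  it := (T.two hu).inr
  oeE := ⟨(T.two hu).inl_injective, (T.two hu).ld_inl⟩
  oeT := ⟨(T.two hu).inr_injective, (T.two hu).ld_inr⟩
  surj := (T.two hu).surj
  eq _ w := (T.two hu).inl_eq_inr.trans ⟨by rintro ⟨n, rfl, rfl⟩; exact ⟨n.2, rfl⟩,
    fun h => ⟨⟨w, h.1⟩, Subtype.ext h.2, rfl⟩⟩

instance : T2Space (T.Fill hu) := (T.fl hu).t2 hu
instance [CompactSpace N] : CompactSpace (T.Fill hu) := (T.fl hu).compact hu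
instance [PreconnectedSpace N] : ConnectedSpace (T.Fill hu) := (T.fl hu).conn
instance [SecondCountableTopology N] : SecondCountableTopology (T.Fill hu) := (T.fl hu).sc hu

end Tb

namespace Fl

variable {T : Tb IN N} {a b : Z2} (F : Fl T a b IN' N')

/-- the dual tube -/
def tb : Tb IN' N' := ⟨F.it, F.oeT.loc, F.oeT.inj, F.dim⟩

theorem tb_τ : F.tb.τ = F.it := rfl

theorem tb_Ex : F.tb.Ex = F.pe.target := Set.ext fun _ => F.mem_pe_target.symm

theorem bijOn_e : BijOn F.e T.Ex F.tb.Ex := F.tb_Ex ▸ F.pe.toPartialEquiv.bijOn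

/-- the exterior of the tube is the exterior of the dual tube -/
theorem tg (hu : Uni a b) : TG T F.tb F.e (du1 a b) (du2 a b) :=
  ⟨hu.du, fun _ => F.ld_e, F.bijOn_e, fun _ h => F.e_τ' hu h⟩

theorem tg' (hu : Uni a b) : TG F.tb T F.pe.symm a b :=
  ⟨hu, fun _ h => ld_pd F.pe.symm (F.tb_Ex.subset h), F.tb_Ex ▸ F.pe.toPartialEquiv.symm.bijOn, fun _ h =>
    (congrArg F.pe.symm (F.e_τ h).symm).trans (F.pe.left_inv (T.τ_mem.2 (gl_ne.2 h)))⟩

/-- fillings of the tube are fillings of the dual tube -/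
def re (hu : Uni a b) {a' b' : Z2} (hu' : Uni a' b') (F' : Fl T (ac a b a') (ac a b b') IY Y) :
    Fl F.tb a' b' IY Y := F'.ofTG (F.tg' hu) hu'

theorem re_e (hu : Uni a b) {a' b' : Z2} (hu' : Uni a' b') (F' : Fl T (ac a b a') (ac a b b') IY Y) {p : N}
    (h : p ∈ T.Ex) : (F.re hu hu' F').e (F.e p) = F'.e p :=
  (F'.ofTG_e _ _ (F.bijOn_e.mapsTo h)).trans (congrArg _ (F.pe.left_inv h))

end Fl

end Crest.Agent.X212.Rod53
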