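import Crest.Agent.X212.Rod53.Api
import Crest.Agent.X212.Cyl58.Cov
import Crest.Agent.X212.Ext52.Defs

/-!
# X212 / Rod53, part Band (helper53): necks of the rod manifold

* `T.bs v`, `T.ov v O` : the base map `(time, height)` and the part of the toric part over `O ⊆ ℝ × ℝ`;
  `T.rr v c` the base distance from `(c, 0)`, `T.disc v c S = {toric, rr ∈ S}`;
* `Fl T a b IY Y` : a filling of slope `a`; `F.cy v hu : Y × ℝ → X T v` with source `Y × Jr v a`; `F.yb` (vertical neck);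
* `T.sb hu c ρ : S³ × ℝ → X T v` (half circles between the rods `a` and `b`);
* `T.rb hu c ρ : (S¹ × S²) × ℝ → X T v` (half circles between two rods of slope `± a`);
* `sig A B : ℝ → (A, B)`; `ofTube`, `ofFill` (Ext52); `Tb.me` : the word as a manifold with two ends.
-/

set_option autoImplicit false
set_option linter.unusedSectionVars false

open Set Filter Topology Function Metric TopologicalSpace
open scoped ContDiff Manifold ComplexConjugate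

noncomputable section

namespace Crest.Agent.X212.Rod53

open Crest.Agent.X212.Glue52 Crest.Agent.X212.Cyl58

/-- Euclidean three-space -/
abbrev E3 : Type := EuclideanSpace ℝ (Fin 3)

theorem uni_std : Uni (0, 1) (1, 0) := Or.inr (by simp [dt])

/-- an increasing diffeomorphism `ℝ → (A, B)` with `0 ↦ (A + B) / 2` -/
def sig (A B t : ℝ) : ℝ := (A + B) / 2 + (B - A) / Real.pi * Real.arctan t

theorem sig_zero (A B : ℝ) : sig A B 0 = (A + B) / 2 := by simp [sig]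

theorem strictMono_sig {A B : ℝ} (h : A < B) : StrictMono (sig A B) := fun _ _ e =>
  add_lt_add_right (mul_lt_mul_of_pos_left (Real.arctan_strictMono e)
    (div_pos (sub_pos.2 h) Real.pi_pos)) _

theorem isOE_arctan : IsOE 𝓘(ℝ, ℝ) 𝓘(ℝ, ℝ) Real.arctan :=
  ⟨Real.arctan_injective, fun t => Cyl58.ld_of_inverse (g := Real.tan) isOpen_univ isOpen_Ioo
    Real.contDiff_arctan.contMDiff.contMDiffOn
    (fun _ hx => (Real.contDiffAt_tan.2 (Real.cos_pos_of_mem_Ioo hx).ne').contMDiffAt.contMDiffWithinAt)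
    (fun x _ => Real.arctan_mem_Ioo x) (fun _ _ => mem_univ _) (fun x _ => Real.tan_arctan x)
    (fun _ hy => Real.arctan_tan hy.1 hy.2) (mem_univ t)⟩

theorem isOE_aff (c : ℝ) {s : ℝ} (hs : s ≠ 0) : IsOE 𝓘(ℝ, ℝ) 𝓘(ℝ, ℝ) fun t : ℝ => c + s * t :=
  IsOE.of_diffeo (diffeoOf (fun t : ℝ => c + s * t) (fun t : ℝ => (t - c) / s)
    (ContDiff.contMDiff (by fun_prop)) (ContDiff.contMDiff (by fun_prop))
    (fun t => by field_simp; ring) fun t => by field_simp; ring)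

theorem isOE_sig {A B : ℝ} (h : A < B) : IsOE 𝓘(ℝ, ℝ) 𝓘(ℝ, ℝ) (sig A B) :=
  (isOE_aff _ (div_pos (sub_pos.2 h) Real.pi_pos).ne').comp isOE_arctan

theorem range_sig {A B : ℝ} (h : A < B) : range (sig A B) = Ioo A B := by
  have h0 := Real.pi_pos
  have h1 := sub_pos.2 h
  ext x
  constructor
  · rintro ⟨t, rfl⟩
    obtain ⟨k1, k2⟩ := Real.arctan_mem_Ioo t
    have e : (B - A) / Real.pi * (Real.pi / 2) = (B - A) / 2 := by field_simp
    have k3 := mul_lt_mul_of_pos_left k1 (div_pos h1 h0)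
    have k4 := mul_lt_mul_of_pos_left k2 (div_pos h1 h0)
    rw [mul_neg, e] at k3
    rw [e] at k4
    constructor <;> unfold sig <;> linarith
  · intro hx
    refine ⟨Real.tan ((x - (A + B) / 2) * Real.pi / (B - A)), ?_⟩
    rw [sig, Real.arctan_tan]
    · field_simp
      ring
    · rw [lt_div_iff₀ h1]
      nlinarith [hx.1]
    · rw [div_lt_iff₀ h1]
      nlinarith [hx.2]

theorem sig_mem {A B : ℝ} (h : A < B) (t : ℝ) : sig A B t ∈ Ioo A B := range_sig h ▸ mem_range_self t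

/-- `ℝ⁴ = ℂ²` -/
def L4 : E4 ≃L[ℝ] ℂ × ℂ :=
  LinearEquiv.toContinuousLinearEquiv
    { toFun x := (⟨x 0, x 1⟩, ⟨x 2, x 3⟩)
      invFun z := !₂[z.1.re, z.1.im, z.2.re, z.2.im]
      map_add' _ _ := rfl
      map_smul' _ _ := by ext <;> simp [Complex.ext_iff]
      left_inv x := by ext i; fin_cases i <;> rfl
      right_inv _ := rfl }

theorem L4_apply (x : E4) : L4 x = (⟨x 0, x 1⟩, ⟨x 2, x 3⟩) := rfl

theorem norm_L4 (x : E4) : ‖(L4 x).1‖ ^ 2 + ‖(L4 x).2‖ ^ 2 = ‖x‖ ^ 2 := by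
  rw [EuclideanSpace.real_norm_sq_eq, Fin.sum_univ_four, L4_apply, Complex.sq_norm, Complex.sq_norm,
    Complex.normSq_mk, Complex.normSq_mk]
  ring

/-- `ℝ³ = ℂ × ℝ` -/
def L3 : E3 ≃L[ℝ] ℂ × ℝ :=
  LinearEquiv.toContinuousLinearEquiv
    { toFun x := (⟨x 0, x 1⟩, x 2)
      invFun z := !₂[z.1.re, z.1.im, z.2]
      map_add' _ _ := rfl
      map_smul' _ _ := by ext <;> simp [Complex.ext_iff]
      left_inv x := by ext i; fin_cases i <;> rfl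
      right_inv _ := rfl }

theorem L3_apply (x : E3) : L3 x = (⟨x 0, x 1⟩, x 2) := rfl

theorem norm_L3 (x : E3) : (L3 x).2 ^ 2 + ‖(L3 x).1‖ ^ 2 = ‖x‖ ^ 2 := by
  rw [EuclideanSpace.real_norm_sq_eq, Fin.sum_univ_three, L3_apply, Complex.sq_norm, Complex.normSq_mk]
  ring

instance : Fact (Module.finrank ℝ E4 = 3 + 1) := ⟨by simp⟩
instance : Fact (Module.finrank ℝ E3 = 2 + 1) := ⟨by simp⟩

/-- `S¹ × ℝ³ →` rod chart, centred at `c` -/
def rc (c : ℝ) (p : Circle × E3) : (Circle × ℂ) × ℝ := ((p.1, (L3 p.2).1), c + (L3 p.2).2)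

theorem isOE_rc (c : ℝ) : IsOE ((𝓡 1).prod 𝓘(ℝ, E3)) IR (rc c) := by
  have h1 : ∀ {F : Type} [NormedAddCommGroup F] [NormedSpace ℝ F] (l : E3 →L[ℝ] F),
      ContMDiff ((𝓡 1).prod 𝓘(ℝ, E3)) 𝓘(ℝ, F) ∞ fun p : Circle × E3 => l p.2 :=
    fun l => l.contDiff.contMDiff.comp contMDiff_snd
  refine IsOE.of_diffeo (diffeoOf (rc c) (fun w => (w.1.1, L3.symm (w.1.2, w.2 - c)))
    ((contMDiff_fst.prodMk (h1 ((ContinuousLinearMap.fst ℝ ℂ ℝ).comp L3.toContinuousLinearMap))).prodMk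
      (contMDiff_const.add (h1 ((ContinuousLinearMap.snd ℝ ℂ ℝ).comp L3.toContinuousLinearMap))))
    ((contMDiff_fst.comp contMDiff_fst).prodMk (L3.symm.contDiff.contMDiff.comp
      ((contMDiff_snd.comp contMDiff_fst).prodMk_space (contMDiff_snd.sub contMDiff_const))))
    (fun p => ?_) fun w => ?_)
  · simp [rc]
  · simp [rc]

theorem rc_surj (c : ℝ) (w : (Circle × ℂ) × ℝ) : ∃ p, rc c p = w :=
  ⟨(w.1.1, L3.symm (w.1.2, w.2 - c)), by simp [rc]⟩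

/-- radial parametrisation of a shell -/
theorem isOE_shell {E : Type} [NormedAddCommGroup E] [InnerProductSpace ℝ E] {n : ℕ}
    [Fact (Module.finrank ℝ E = n + 1)] {ρ : ℝ → ℝ} (hρ : IsOE 𝓘(ℝ, ℝ) 𝓘(ℝ, ℝ) ρ) (h0 : ∀ s, 0 < ρ s) :
    IsOE ((𝓡 n).prod 𝓘(ℝ, ℝ)) 𝓘(ℝ, E) fun p : sphere (0 : E) 1 × ℝ => ρ p.2 • (p.1 : E) := by
  have h1 : IsOE 𝓘(ℝ, ℝ) 𝓘(ℝ, ℝ) fun s => Real.log (ρ s) :=
    isOE_exp.of_comp_left (by convert hρ using 1; exact funext fun s => Real.exp_log (h0 s))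
  convert isOE_pol.comp ((IsOE.id (IA := 𝓡 n) (A := sphere (0 : E) 1)).prodMap h1) using 1
  exact funext fun p => (pol_log p.1 (h0 p.2)).symm

theorem isOE_sqrt {ρ : ℝ → ℝ} (hρ : IsOE 𝓘(ℝ, ℝ) 𝓘(ℝ, ℝ) ρ) (h0 : ∀ s, 0 < ρ s) :
    IsOE 𝓘(ℝ, ℝ) 𝓘(ℝ, ℝ) fun s => √(ρ s) := by
  have h1 : IsOE 𝓘(ℝ, ℝ) 𝓘(ℝ, ℝ) fun s => Real.log (ρ s) :=
    isOE_exp.of_comp_left (by convert hρ using 1; exact funext fun s => Real.exp_log (h0 s))
  convert isOE_exp.comp ((isOE_aff 0 (s := 1 / 2) (by norm_num)).comp h1) using 1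
  funext s
  simp only [comp_apply, zero_add]
  rw [Real.sqrt_eq_rpow, Real.rpow_def_of_pos (h0 s), mul_comm]

theorem exists_shell {E : Type} [NormedAddCommGroup E] [InnerProductSpace ℝ E] {x : E} {r : ℝ}
    (hr : 0 < r) (h : ‖x‖ = r) : ∃ u : sphere (0 : E) 1, r • (u : E) = x :=
  ⟨⟨r⁻¹ • x, by simp [norm_smul, h, abs_of_pos hr, hr.ne']⟩, by simp [smul_smul, hr.ne']⟩

variable {EN HN : Type} [NormedAddCommGroup EN] [NormedSpace ℝ EN] [FiniteDimensional ℝ EN]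
  [TopologicalSpace HN] {IN : ModelWithCorners ℝ EN HN} [IN.Boundaryless]
  {N : Type} [TopologicalSpace N] [ChartedSpace HN N] [IsManifold IN ∞ N] [T2Space N]

namespace Tb

variable (T : Tb IN N) {v : ℝ → Z2} {a b : Z2} {c : ℝ}

theorem eta_of_tor {p : X T v} (h : p ∈ T.tor v) : 0 ≤ T.yy v p ∧ T.eta v p = (1 + T.yy v p)⁻¹ := by
  obtain ⟨w, hw, rfl⟩ | h' : (∃ w ∈ Ur v (0, 1), T.rod v uni_std w = p) ∨ T.yy v p = 0 :=
    (em _).symm.imp_left fun k => T.mem_rod uni_std h (Or.inl k)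
  · rw [T.yy_rod _ hw]
    exact ⟨norm_nonneg _, T.hf_rod _ _ _ hw⟩
  · refine ⟨h'.ge, ?_⟩
    rcases T.ext_or_axis p with ⟨⟨q, x⟩, hs, rfl⟩ | ⟨-, -, k, -⟩
    · obtain ⟨w, rfl⟩ := (T.ext_mem_tor hs).1 h
      exact absurd (norm_eq_zero.1 ((T.yy_ext (T.τ_mem.1 hs) x).symm.trans h')) (T.τ_mem.1 hs)
    · rw [k, h']
      simp

theorem eta_of_not {p : X T v} (h : p ∉ T.tor v) : T.eta v p = 0 := by
  rcases T.ext_or_axis p with ⟨s, hs, rfl⟩ | ⟨k, -⟩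
  · exact (T.hf_ext _ _ hs).trans (T.rf_not _ _ fun k => h ((T.ext_mem_tor hs).2 k))
  · exact absurd k h

theorem mem_tor {p : X T v} : p ∈ T.tor v ↔ 0 < T.eta v p := by
  refine ⟨fun h => ?_, fun h => by_contra fun k => h.ne' (T.eta_of_not k)⟩
  obtain ⟨h1, h2⟩ := T.eta_of_tor h
  rw [h2]
  positivity

theorem isOpen_tor : IsOpen (T.tor v) := by
  rw [show T.tor v = {p | 0 < T.eta v p} from Set.ext fun _ => T.mem_tor]
  exact isOpen_lt continuous_const T.continuous_eta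

theorem continuousOn_yy : ContinuousOn (T.yy v) (T.tor v) := by
  refine ((T.continuous_eta.continuousOn.inv₀ fun p hp => (T.mem_tor.1 hp).ne').sub
    (continuousOn_const (c := 1))).congr fun p hp => ?_
  show _ = (T.eta v p)⁻¹ - 1
  rw [(T.eta_of_tor hp).2, inv_inv, add_sub_cancel_left]

theorem isClosed_le_yy (R : ℝ) : IsClosed {p | p ∈ T.tor v ∧ T.yy v p ≤ R} := by
  have h0 : 0 < 1 + |R| := by positivity
  have k := ((T.continuousOn_yy (v := v)).mono (t := {p | (1 + |R|)⁻¹ ≤ T.eta v p})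
    (fun p hp => T.mem_tor.2 ((inv_pos.2 h0).trans_le hp))).preimage_isClosed_of_isClosed
    (isClosed_le continuous_const T.continuous_eta) (isClosed_Iic (a := R))
  convert k using 1
  ext p
  refine ⟨fun h => ⟨?_, h.2⟩, fun h => ⟨T.mem_tor.2 ((inv_pos.2 h0).trans_le h.1), h.2⟩⟩
  obtain ⟨h1, h2⟩ := T.eta_of_tor h.1
  rw [mem_ofPred_eq, h2]
  exact inv_anti₀ (by positivity) (by linarith [h.2, le_abs_self R])

variable (v) in
/-- the base map -/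
def bs (p : X T v) : ℝ × ℝ := (T.time v p, T.yy v p)

variable (v) in
/-- the toric part over a subset of the half plane -/
def ov (O : Set (ℝ × ℝ)) : Set (X T v) := T.tor v ∩ T.bs v ⁻¹' O

theorem continuousOn_bs : ContinuousOn (T.bs v) (T.tor v) :=
  T.continuous_time.continuousOn.prodMk T.continuousOn_yy

theorem isOpen_ov {O : Set (ℝ × ℝ)} (h : IsOpen O) : IsOpen (T.ov v O) :=
  T.continuousOn_bs.isOpen_inter_preimage T.isOpen_tor h

theorem isClosed_ov {O : Set (ℝ × ℝ)} (h : IsClosed O) {R : ℝ} (hR : ∀ q ∈ O, q.2 ≤ R) :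
    IsClosed (T.ov v O) := by
  convert (T.continuousOn_bs.mono fun p hp => hp.1).preimage_isClosed_of_isClosed
    (T.isClosed_le_yy (v := v) R) h using 1
  ext p
  exact ⟨fun k => ⟨⟨k.1, hR _ k.2⟩, k.2⟩, fun k => ⟨k.1.1, k.2⟩⟩

theorem isCompact_ov {O : Set (ℝ × ℝ)} (h : IsCompact O)
    (hv : ∀ q ∈ O, ∃ a b c, Uni a b ∧ q.1 ∈ Jv v a b c) : IsCompact (T.ov v O) := by
  obtain ⟨R, hR⟩ := (h.image continuous_snd).bddAbove
  refine (T.isCompact_tor (h.image continuous_fst) (by rintro _ ⟨q, hq, rfl⟩; exact hv q hq) R).of_isClosed_subset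
    (T.isClosed_ov h.isClosed fun q hq => hR ⟨q, hq, rfl⟩) fun p hp => ⟨hp.1, ⟨_, hp.2, rfl⟩, hR ⟨_, hp.2, rfl⟩⟩

variable (v) in
/-- the base distance from the point `(c, 0)` of the axis -/
def rr (c : ℝ) (p : X T v) : ℝ := √((T.time v p - c) ^ 2 + T.yy v p ^ 2)

variable (v) in
/-- half discs, half circles, half annuli -/
def disc (c : ℝ) (S : Set ℝ) : Set (X T v) := T.ov v {q | √((q.1 - c) ^ 2 + q.2 ^ 2) ∈ S}

theorem mem_disc {S : Set ℝ} {p : X T v} : p ∈ T.disc v c S ↔ p ∈ T.tor v ∧ T.rr v c p ∈ S := Iff.rfl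

theorem isOpen_disc {S : Set ℝ} (h : IsOpen S) : IsOpen (T.disc v c S) :=
  T.isOpen_ov (h.preimage (by fun_prop))

theorem isClosed_disc {S : Set ℝ} (h : IsClosed S) {R : ℝ} (hR : ∀ r ∈ S, r ≤ R) :
    IsClosed (T.disc v c S) :=
  T.isClosed_ov (h.preimage (by fun_prop)) fun _ hq =>
    (Real.le_sqrt_of_sq_le (le_add_of_nonneg_left (sq_nonneg _))).trans (hR _ hq)

theorem abs_time_le (c : ℝ) (p : X T v) : |T.time v p - c| ≤ T.rr v c p :=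
  Real.abs_le_sqrt (le_add_of_nonneg_right (sq_nonneg _))

theorem yy_le (c : ℝ) (p : X T v) : T.yy v p ≤ T.rr v c p :=
  Real.le_sqrt_of_sq_le (le_add_of_nonneg_left (sq_nonneg _))

theorem isCompact_disc {S : Set ℝ} (h : IsClosed S) {R : ℝ} (hR : ∀ r ∈ S, r ≤ R)
    (hv : ∀ x ∈ Icc (c - R) (c + R), ∃ a b c, Uni a b ∧ x ∈ Jv v a b c) : IsCompact (T.disc v c S) := by
  refine (T.isCompact_tor isCompact_Icc hv R).of_isClosed_subset (T.isClosed_disc h hR) fun p hp =>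
    ⟨hp.1, ?_, (T.yy_le c p).trans (hR _ hp.2)⟩
  have := abs_le.1 ((T.abs_time_le c p).trans (hR _ hp.2))
  constructor <;> linarith

theorem rr_vtx (hu : Uni a b) {z : ℂ × ℂ} (h : z ∈ Uv v a b c) :
    T.rr v c (T.vtx v hu c z) = ‖z.1‖ ^ 2 + ‖z.2‖ ^ 2 := by
  rw [rr, T.rad_vtx hu h, Real.sqrt_sq (by positivity)]

theorem rr_rc (hu : Uni a b) {p : Circle × E3} (h : rc c p ∈ Ur v a) :
    T.rr v c (T.rod v hu (rc c p)) = ‖p.2‖ := by
  rw [rr, T.time_rod hu h, T.yy_rod hu h, ← Real.sqrt_sq (norm_nonneg p.2), ← norm_L3]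
  simp [rc]

theorem time_of_rr {p : X T v} (h : T.yy v p = 0) :
    T.time v p = c - T.rr v c p ∨ T.time v p = c + T.rr v c p := by
  rw [rr, h, zero_pow two_ne_zero, add_zero, Real.sqrt_sq_eq_abs]
  rcases abs_cases (T.time v p - c) with k | k <;> rw [k.1] <;> simp

theorem mem_Uv_of {z : ℂ × ℂ} {r : ℝ} (hr : 0 < r) (h : ‖z.1‖ ^ 2 + ‖z.2‖ ^ 2 = r) (h1 : c - r ∈ Jr v a)
    (h2 : c + r ∈ Jr v b) : z ∈ Uv v a b c := by
  by_cases e1 : z.1 = 0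
  · refine Or.inr ?_
    rw [show tm c z = c - r by rw [tm, ← h, e1, norm_zero]; ring]
    exact Jv.of_left h1 (by linarith)
  · by_cases e2 : z.2 = 0
    · refine Or.inr ?_
      rw [show tm c z = c + r by rw [tm, ← h, e2, norm_zero]; ring]
      exact Jv.of_right h2 (by linarith)
    · exact Or.inl ⟨e1, e2⟩

theorem mem_Ur_of {p : Circle × E3} (h1 : c - ‖p.2‖ ∈ Jr v a) (h2 : c + ‖p.2‖ ∈ Jr v a) :
    rc c p ∈ Ur v a := by
  by_cases e : (L3 p.2).1 = 0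
  · have := norm_L3 p.2
    rw [e, norm_zero, zero_pow two_ne_zero, add_zero, sq_eq_sq_iff_eq_or_eq_neg] at this
    rcases this with k | k
    · exact Or.inr (by simpa only [rc, k] using h2)
    · exact Or.inr (by simpa only [rc, k, sub_eq_add_neg] using h1)
  · exact Or.inl e

/-- the data of a half circle neck -/
structure Arc (v : ℝ → Z2) (a b : Z2) (c : ℝ) (ρ : ℝ → ℝ) : Prop where
  oe : IsOE 𝓘(ℝ, ℝ) 𝓘(ℝ, ℝ) ρ
  pos : ∀ s, 0 < ρ s
  left : ∀ s, c - ρ s ∈ Jr v a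
  right : ∀ s, c + ρ s ∈ Jr v b

variable {ρ : ℝ → ℝ}

variable (v) in
/-- the `S³` neck -/
def sb (hu : Uni a b) (c : ℝ) (ρ : ℝ → ℝ) (p : sphere (0 : E4) 1 × ℝ) : X T v :=
  T.vtx v hu c (L4 (√(ρ p.2) • (p.1 : E4)))

theorem Arc.nsq (h : Arc v a b c ρ) (p : sphere (0 : E4) 1 × ℝ) :
    ‖(L4 (√(ρ p.2) • (p.1 : E4))).1‖ ^ 2 + ‖(L4 (√(ρ p.2) • (p.1 : E4))).2‖ ^ 2 = ρ p.2 := by
  rw [norm_L4, norm_smul, norm_eq_of_mem_sphere, mul_one, Real.norm_eq_abs, sq_abs, Real.sq_sqrt (h.pos _).le]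

theorem Arc.mem_Uv (h : Arc v a b c ρ) (p : sphere (0 : E4) 1 × ℝ) :
    L4 (√(ρ p.2) • (p.1 : E4)) ∈ Uv v a b c := mem_Uv_of (h.pos _) (h.nsq p) (h.left _) (h.right _)

theorem isOE_sb (hu : Uni a b) (h : Arc v a b c ρ) :
    IsOE ((𝓡 3).prod 𝓘(ℝ, ℝ)) (𝓡 4) (T.sb v hu c ρ) :=
  IsOE.of_pd (T.vtx v hu c) ((IsOE.of_diffeo L4.toDiffeomorph).comp
    (isOE_shell (isOE_sqrt h.oe h.pos) fun s => Real.sqrt_pos.2 (h.pos s))) h.mem_Uv

theorem rr_sb (hu : Uni a b) (h : Arc v a b c ρ) (p : sphere (0 : E4) 1 × ℝ) :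
    T.rr v c (T.sb v hu c ρ p) = ρ p.2 := (T.rr_vtx hu (h.mem_Uv p)).trans (h.nsq p)

theorem image_sb (hu : Uni a b) (h : Arc v a b c ρ) (S : Set ℝ) :
    T.sb v hu c ρ '' (univ ×ˢ S) = T.disc v c (ρ '' S) := by
  ext p
  constructor
  · rintro ⟨q, hq, rfl⟩
    exact ⟨T.vtx_mem_tor hu (h.mem_Uv q), q.2, hq.2, (T.rr_sb hu h q).symm⟩
  · rintro ⟨h1, s, hs, e⟩
    change ρ s = T.rr v c p at e
    obtain ⟨z, hz, rfl⟩ := T.mem_vtx hu (c := c) h1 ((em _).symm.imp_right fun k => by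
      rcases T.time_of_rr (c := c) k with k | k <;> rw [k, ← e]
      exacts [Jv.of_left (h.left s) (by linarith [h.pos s]), Jv.of_right (h.right s) (by linarith [h.pos s])])
    obtain ⟨x, rfl⟩ := L4.surjective z
    rw [T.rr_vtx hu hz, norm_L4] at e
    obtain ⟨u, hx⟩ := exists_shell (x := x) (Real.sqrt_pos.2 (h.pos s)) (by rw [e, Real.sqrt_sq (norm_nonneg _)])
    exact ⟨(u, s), ⟨mem_univ _, hs⟩, by rw [sb, hx]⟩

variable (v) in
/-- the `S¹ × S²` neck -/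
def rb (hu : Uni a b) (c : ℝ) (ρ : ℝ → ℝ) (p : (Circle × sphere (0 : E3) 1) × ℝ) : X T v :=
  T.rod v hu (rc c (p.1.1, ρ p.2 • (p.1.2 : E3)))

theorem Arc.nrm (h : Arc v a b c ρ) (u : sphere (0 : E3) 1) (s : ℝ) : ‖ρ s • (u : E3)‖ = ρ s := by
  rw [norm_smul, norm_eq_of_mem_sphere, mul_one, Real.norm_of_nonneg (h.pos s).le]

theorem Arc.mem_Ur (h : Arc v a a c ρ) (p : (Circle × sphere (0 : E3) 1) × ℝ) :
    rc c (p.1.1, ρ p.2 • (p.1.2 : E3)) ∈ Ur v a :=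
  mem_Ur_of (by rw [h.nrm]; exact h.left _) (by rw [h.nrm]; exact h.right _)

theorem isOE_rb (hu : Uni a b) (h : Arc v a a c ρ) :
    IsOE (((𝓡 1).prod (𝓡 2)).prod 𝓘(ℝ, ℝ)) (𝓡 4) (T.rb v hu c ρ) := by
  have h1 : IsOE (((𝓡 1).prod (𝓡 2)).prod 𝓘(ℝ, ℝ)) ((𝓡 1).prod ((𝓡 2).prod 𝓘(ℝ, ℝ)))
      fun p : (Circle × sphere (0 : E3) 1) × ℝ => (p.1.1, (p.1.2, p.2)) :=
    isOE_assoc
  exact IsOE.of_pd (T.rod v hu) ((isOE_rc c).comp
    ((IsOE.id.prodMap (isOE_shell h.oe h.pos)).comp h1)) h.mem_Ur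

theorem rr_rb (hu : Uni a b) (h : Arc v a a c ρ) (p : (Circle × sphere (0 : E3) 1) × ℝ) :
    T.rr v c (T.rb v hu c ρ p) = ρ p.2 := (T.rr_rc hu (h.mem_Ur p)).trans (h.nrm _ _)

theorem image_rb (hu : Uni a b) (h : Arc v a a c ρ) (S : Set ℝ) :
    T.rb v hu c ρ '' (univ ×ˢ S) = T.disc v c (ρ '' S) := by
  ext p
  constructor
  · rintro ⟨q, hq, rfl⟩
    exact ⟨T.rod_mem_tor hu (h.mem_Ur q), q.2, hq.2, (T.rr_rb hu h q).symm⟩
  · rintro ⟨h1, s, hs, e⟩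
    change ρ s = T.rr v c p at e
    obtain ⟨w, hw, rfl⟩ := T.mem_rod hu h1 ((em _).symm.imp_right fun k => by
      rcases T.time_of_rr (c := c) k with k | k <;> rw [k, ← e]
      exacts [h.left s, h.right s])
    obtain ⟨⟨u, x⟩, rfl⟩ := rc_surj c w
    rw [T.rr_rc hu hw] at e
    obtain ⟨o, hx⟩ := exists_shell (x := x) (h.pos s) e.symm
    exact ⟨((u, o), s), ⟨mem_univ _, hs⟩, by rw [rb, hx]⟩

end Tb

variable {EY HY : Type} [NormedAddCommGroup EY] [NormedSpace ℝ EY] [TopologicalSpace HY]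

/-- a filling of the tube along the slope `a` -/
structure Fl (T : Tb IN N) (a b : Z2) (IY : ModelWithCorners ℝ EY HY) (Y : Type) [TopologicalSpace Y]
    [ChartedSpace HY Y] where
  W : Opens N
  hW : ∀ p, p ∈ W ↔ p ∈ T.Ex
  ie : W → Y
  it : Circle × ℂ → Y
  oeE : IsOE IN IY ie
  oeT : IsOE IT IY it
  surj : ∀ y, (∃ p, ie p = y) ∨ ∃ w, it w = y
  eq : ∀ p w, ie p = it w ↔ w.2 ≠ 0 ∧ T.τ (gl a b w) = p

namespace Fl

variable {T : Tb IN N} {a b : Z2} {IY : ModelWithCorners ℝ EY HY} {Y : Type} [TopologicalSpace Y]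
  [ChartedSpace HY Y] (F : Fl T a b IY Y) (v : ℝ → Z2) (hu : Uni a b)

/-- the product structure over the rods of slope `± a` -/
def cyf (p : Y × ℝ) : X T v :=
  extend F.it (fun w => T.rod v hu (w, p.2)) (extend F.ie (fun q => T.ext v (q.1, p.2))
    fun _ => T.ext v (T.τ (1, 1), 0)) p.1

theorem cyf_it (w : Circle × ℂ) (x : ℝ) : F.cyf v hu (F.it w, x) = T.rod v hu (w, x) :=
  F.oeT.inj.extend_apply _ _ _

theorem cyf_ie (q : F.W) (x : ℝ) : F.cyf v hu (F.ie q, x) = T.ext v (q.1, x) := by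
  by_cases h : ∃ w, F.it w = F.ie q
  · obtain ⟨w, e⟩ := h
    obtain ⟨h1, h2⟩ := (F.eq q w).1 e.symm
    rw [← e, cyf_it, T.rod_eq_ext hu h1, h2]
  · exact (extend_apply' _ _ _ h).trans (F.oeE.inj.extend_apply _ _ _)

variable {v}

theorem time_cyf (y : Y) {x : ℝ} (hx : x ∈ Jr v a) : T.time v (F.cyf v hu (y, x)) = x := by
  rcases F.surj y with ⟨q, rfl⟩ | ⟨w, rfl⟩
  · rw [cyf_ie, T.time_ext ((F.hW _).1 q.2)]
  · rw [cyf_it, T.time_rod hu (Or.inr hx)]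

theorem ld_cyf (y : Y) {x : ℝ} (hx : x ∈ Jr v a) :
    IsLocalDiffeomorphAt (IY.prod 𝓘(ℝ, ℝ)) (𝓡 4) ∞ (F.cyf v hu) (y, x) := by
  rcases F.surj y with ⟨q, rfl⟩ | ⟨w, rfl⟩
  · refine Glue52.ld_of_comp (ld_prodMap_at (F.oeE.loc q) (Glue52.ld_id x)) (Glue52.ld_congr
      ((ld_prodMap_at (ld_val F.W q) (Glue52.ld_id x)).comp _ _
        (ld_pd (T.ext v) (mk_mem_prod ((F.hW _).1 q.2) (mem_univ x)))) ?_)
    exact Eventually.of_forall fun z => F.cyf_ie v hu z.1 z.2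
  · refine Glue52.ld_of_comp (ld_prodMap_at (F.oeT.loc w) (Glue52.ld_id x)) (Glue52.ld_congr
      (ld_pd (T.rod v hu) (x := (w, x)) (Or.inr hx)) ?_)
    exact Eventually.of_forall fun z => F.cyf_it v hu z.1 z.2

theorem injOn_cyf : InjOn (F.cyf v hu) (univ ×ˢ Jr v a) := by
  rintro ⟨y, x⟩ h ⟨y', x'⟩ h' e
  obtain rfl : x = x' := ((F.time_cyf hu y h.2).symm.trans (congrArg _ e)).trans (F.time_cyf hu y' h'.2)
  have key : ∀ (q : F.W) w, T.ext v (q.1, x) = T.rod v hu (w, x) → F.ie q = F.it w := by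
    intro q w e
    have e' := congrArg (T.nf v) e
    rw [T.nf_ext ((F.hW _).1 q.2), T.nf_rod hu (Or.inr h.2)] at e'
    by_cases k : w.2 = 0
    · rw [T.Φr_zero k] at e'
      cases e'
    · rw [T.Φr_ne k] at e'
      exact (F.eq q w).2 ⟨k, (congrArg Prod.fst (Sum.inl_injective e')).symm⟩
  refine Prod.ext ?_ rfl
  rcases F.surj y with ⟨q, rfl⟩ | ⟨w, rfl⟩ <;> rcases F.surj y' with ⟨q', rfl⟩ | ⟨w', rfl⟩ <;>
    simp only [cyf_ie, cyf_it] at e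
  · have := (T.ext v).injOn (mk_mem_prod ((F.hW _).1 q.2) (mem_univ x))
      (mk_mem_prod ((F.hW _).1 q'.2) (mem_univ x)) e
    rw [show q = q' from Subtype.ext (congrArg Prod.fst this)]
  · exact key _ _ e
  · exact (key _ _ e.symm).symm
  · have := (T.rod v hu).injOn (x₁ := (w, x)) (x₂ := (w', x)) (Or.inr h.2) (Or.inr h.2) e
    rw [show w = w' from congrArg Prod.fst this]

theorem exists_cyf {p : X T v} (h : T.time v p ∈ Jr v a) : ∃ y, F.cyf v hu (y, T.time v p) = p := by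
  rcases T.ext_or_axis p with ⟨s, hs, rfl⟩ | ⟨k, -⟩
  · exact ⟨F.ie ⟨s.1, (F.hW _).2 hs⟩, by rw [cyf_ie, T.time_ext hs]⟩
  · obtain ⟨w, hw, rfl⟩ := T.mem_rod hu k (Or.inr h)
    exact ⟨F.it w.1, by rw [cyf_it, T.time_rod hu hw]⟩

theorem image_cyf {S : Set ℝ} (hS : S ⊆ Jr v a) : F.cyf v hu '' (univ ×ˢ S) = T.time v ⁻¹' S := by
  ext p
  constructor
  · rintro ⟨⟨y, x⟩, h, rfl⟩
    rw [mem_preimage, F.time_cyf hu y (hS h.2)]
    exact h.2
  · intro h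
    obtain ⟨y, e⟩ := F.exists_cyf hu (hS h)
    exact ⟨(y, T.time v p), ⟨mem_univ _, h⟩, e⟩

variable (v) in
/-- the vertical neck over the interval `range σ` -/
def yb (σ : ℝ → ℝ) (p : Y × ℝ) : X T v := F.cyf v hu (p.1, σ p.2)

variable {σ : ℝ → ℝ}

theorem isOE_yb (h : IsOE 𝓘(ℝ, ℝ) 𝓘(ℝ, ℝ) σ) (hσ : ∀ s, σ s ∈ Jr v a) :
    IsOE (IY.prod 𝓘(ℝ, ℝ)) (𝓡 4) (F.yb v hu σ) :=
  ⟨fun _ _ e => (IsOE.id.prodMap h : IsOE (IY.prod _) (IY.prod _) _).inj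
      (F.injOn_cyf hu ⟨mem_univ _, hσ _⟩ ⟨mem_univ _, hσ _⟩ e),
    fun p => ((IsOE.id.prodMap h : IsOE (IY.prod _) (IY.prod _) _).loc p).comp _ _ (F.ld_cyf hu p.1 (hσ _))⟩

theorem time_yb (hσ : ∀ s, σ s ∈ Jr v a) (p : Y × ℝ) : T.time v (F.yb v hu σ p) = σ p.2 :=
  F.time_cyf hu _ (hσ _)

theorem image_yb (hσ : ∀ s, σ s ∈ Jr v a) (S : Set ℝ) :
    F.yb v hu σ '' (univ ×ˢ S) = T.time v ⁻¹' (σ '' S) := by
  rw [← F.image_cyf hu (by rintro _ ⟨s, -, rfl⟩; exact hσ s)]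
  ext p
  constructor
  · rintro ⟨q, hq, rfl⟩
    exact ⟨_, ⟨mem_univ _, q.2, hq.2, rfl⟩, rfl⟩
  · rintro ⟨⟨y, _⟩, ⟨-, s, hs, rfl⟩, rfl⟩
    exact ⟨(y, s), ⟨mem_univ _, hs⟩, rfl⟩

end Fl

section Ext52

open Crest.GeometryTopology.DehnSurgery Crest.Agent.X212.Ext52

/-- the tube of a knot in the three-sphere -/
def ofTube (t : Tube) : Tb (𝓡 3) S3 := ⟨t.τ, t.ld, t.inj, by simp⟩

/-- the slope vector of filling data -/
def sa (σ : FillingData) : Z2 := (σ.q, σ.p)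

/-- the complementary vector of filling data -/
def sb (σ : FillingData) : Z2 := (σ.b, σ.a)

theorem uni_s (σ : FillingData) : Uni (sa σ) (sb σ) := Or.inl σ.det

/-- the smooth Dehn filling of `Ext52` -/
def ofFill (t : Tube) (σ : FillingData) : Fl (ofTube t) (sa σ) (sb σ) (𝓡 3) (Fill t σ) where
  W := t.Ext
  hW _ := ⟨fun h u e => h ⟨(u, 0), ⟨mem_univ _, rfl⟩, e⟩, fun h ⟨w, hw, e⟩ =>
    h w.1 (by rw [← e, ← show w.2 = 0 from hw.2]; rfl)⟩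
  ie := t.ie σ
  it := t.it σ
  oeE := ⟨(t.two σ).inl_injective, (t.two σ).ld_inl⟩
  oeT := ⟨(t.two σ).inr_injective, (t.two σ).ld_inr⟩
  surj := (t.two σ).surj
  eq _ _ := t.ie_eq_it σ

end Ext52

end Crest.Agent.X212.Rod53
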