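import Crest.Agent.X212.Rod53.Fun

/-!
# X212 / Rod53, part Word (helper53): words, surgery on half circles, position of half circles

* `wd a` : the rod structure of a sequence `a : ℤ → ℤ × ℤ` (slope `a i` on `(i, i + 1)`, a vertex at `i` unless
  `a (i - 1) = ± a i`); `IsWd a`, `IsWd.loc`, `mem_Jr_wd`, `mem_Jv_wd`;
* `surV v a b c r` (the half disc is replaced by one vertex), `surR v a c r` (by a piece of rod),
  `inn v a b c r` (the outside of the half disc is replaced by two infinite rods);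
* triangle inequalities for `T.rr`.
-/

set_option autoImplicit false
set_option linter.unusedSectionVars false

open Set Filter Topology Function Metric TopologicalSpace
open scoped ContDiff Manifold ComplexConjugate

noncomputable section

namespace Crest.Agent.X212.Rod53

open Crest.Agent.X212.Glue52 Crest.Agent.X212.Cyl58

theorem Uni.not_pm {a b : Z2} (h : Uni a b) : ¬PM a b := fun k => by
  have := k.dt_eq
  unfold Uni at h
  omega

open Classical in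
/-- the rod structure of a sequence of slopes -/
def wd (a : ℤ → Z2) (x : ℝ) : Z2 :=
  if x = ⌊x⌋ ∧ ¬PM (a (⌊x⌋ - 1)) (a ⌊x⌋) then 0 else a ⌊x⌋

/-- consecutive slopes agree or form a basis -/
structure IsWd (a : ℤ → Z2) : Prop where
  prim : ∀ i, ∃ b, Uni (a i) b
  step : ∀ i, PM (a (i - 1)) (a i) ∨ Uni (a (i - 1)) (a i)

section Wd

variable {a : ℤ → Z2} {α : Z2} {x : ℝ} {i j : ℤ}

theorem wd_of_mem (h : x ∈ Ioo (i : ℝ) (i + 1)) : wd a x = a i := by
  have e : ⌊x⌋ = i := Int.floor_eq_iff.2 ⟨h.1.le, h.2⟩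
  rw [wd, e, if_neg fun k => h.1.ne' k.1]

theorem wd_int_pm (h : PM (a (i - 1)) (a i)) : wd a i = a i := by
  rw [wd, Int.floor_intCast, if_neg fun k => k.2 h]

theorem wd_int_uni (h : Uni (a (i - 1)) (a i)) : wd a i = 0 := by
  rw [wd, Int.floor_intCast, if_pos ⟨rfl, h.not_pm⟩]

theorem wd_left (h : x ∈ Ioo ((i : ℝ) - 1) i) : wd a x = a (i - 1) :=
  wd_of_mem (by simpa using h)

theorem Ioo_subset_Jr : Ioo (i : ℝ) (i + 1) ⊆ Jr (wd a) (a i) :=
  interior_maximal (fun _ h => Or.inl (wd_of_mem h)) isOpen_Ioo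

theorem mem_Jr_wd (h : PM (a ⌊x⌋) α) (h' : x = ⌊x⌋ → PM (a (⌊x⌋ - 1)) α) : x ∈ Jr (wd a) α := by
  by_cases e : x = ⌊x⌋
  · refine interior_maximal (t := Ioo ((⌊x⌋ : ℝ) - 1) (⌊x⌋ + 1)) (fun y hy => ?_) isOpen_Ioo
      ⟨by linarith, by linarith⟩
    show PM (wd a y) α
    rcases lt_trichotomy y ⌊x⌋ with k | k | k
    · rw [wd_left ⟨hy.1, k⟩]
      exact h' e
    · rw [k, wd_int_pm ((h' e).trans h.symm)]
      exact h
    · rw [wd_of_mem ⟨k, hy.2⟩]
      exact h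
  · exact Jr_congr h ▸ Ioo_subset_Jr ⟨(Int.floor_le x).lt_of_ne' e, Int.lt_floor_add_one x⟩

theorem Ioo_subset_Jr' (h : ∀ k, i ≤ k → k ≤ j → PM (a k) α) : Ioo (i : ℝ) (j + 1) ⊆ Jr (wd a) α :=
  fun x hx => mem_Jr_wd (h _ (Int.le_floor.2 hx.1.le) (Int.lt_add_one_iff.1 (Int.floor_lt.2 (by
      exact_mod_cast hx.2)))) fun e => h _
    (Int.le_sub_one_iff.2 (by exact_mod_cast e ▸ hx.1))
    (by have : ⌊x⌋ < j + 1 := Int.floor_lt.2 (by exact_mod_cast hx.2); omega)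

theorem Iio_subset_Jr (h : ∀ k, k ≤ j → PM (a k) α) : Iio ((j : ℝ) + 1) ⊆ Jr (wd a) α := fun x hx =>
  Ioo_subset_Jr' (i := ⌊x⌋ - 1) (fun k _ => h k) ⟨by push_cast; linarith [Int.floor_le x], hx⟩

theorem Ioi_subset_Jr (h : ∀ k, i ≤ k → PM (a k) α) : Ioi (i : ℝ) ⊆ Jr (wd a) α := fun x hx =>
  Ioo_subset_Jr' (j := ⌊x⌋) (fun k hk _ => h k hk) ⟨hx, Int.lt_floor_add_one x⟩

theorem Ioo_subset_Jv (h : Uni (a (i - 1)) (a i)) :
    Ioo ((i : ℝ) - 1) (i + 1) ⊆ Jv (wd a) (a (i - 1)) (a i) i :=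
  interior_maximal (fun _ hy => ⟨fun k => Or.inl (wd_left ⟨hy.1, k⟩), fun k => k ▸ wd_int_uni h,
    fun k => Or.inl (wd_of_mem ⟨k, hy.2⟩)⟩) isOpen_Ioo

theorem mem_Jv_wd (h : Uni (a (i - 1)) (a i)) : (i : ℝ) ∈ Jv (wd a) (a (i - 1)) (a i) i :=
  Ioo_subset_Jv h ⟨by linarith, by linarith⟩

theorem loc_of_Jr {v : ℝ → Z2} {b : Z2} (hu : Uni α b) (h : x ∈ Jr v α) :
    ∃ a b c, Uni a b ∧ x ∈ Jv v a b c := ⟨α, b, x + 1, hu, Jv.of_left h (lt_add_one x)⟩

theorem IsWd.loc (h : IsWd a) : Loc (wd a) := fun x => by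
  obtain ⟨b, hb⟩ := h.prim ⌊x⌋
  rcases h.step ⌊x⌋ with k | k
  · exact loc_of_Jr hb (mem_Jr_wd (PM.refl _) fun _ => k)
  · exact ⟨_, _, _, k, Ioo_subset_Jv k ⟨by linarith [Int.floor_le x], Int.lt_floor_add_one x⟩⟩

/-- words that agree on a range of indices -/
theorem wd_congr {a' : ℤ → Z2} (h : ∀ k, i ≤ k → k ≤ j → a k = a' k) (hx : x ∈ Ioo (i : ℝ) (j + 1)) :
    wd a x = wd a' x := by
  have h1 : i ≤ ⌊x⌋ := Int.le_floor.2 hx.1.le
  have h2 : ⌊x⌋ < j + 1 := Int.floor_lt.2 (by exact_mod_cast hx.2)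
  by_cases e : x = ⌊x⌋
  · have h3 : i < ⌊x⌋ := by exact_mod_cast e ▸ hx.1
    rw [wd, wd, h _ h1 (by omega), h (⌊x⌋ - 1) (by omega) (by omega)]
  · rw [wd, wd, if_neg fun k => e k.1, if_neg fun k => e k.1, h _ h1 (by omega)]

end Wd

/-- one vertex -/
def vx (a b : Z2) (c x : ℝ) : Z2 := if x < c then a else if x = c then 0 else b

/-- the half disc of radius `r` is replaced by one vertex -/
def surV (v : ℝ → Z2) (a b : Z2) (c r x : ℝ) : Z2 := if |x - c| < r then vx a b c x else v x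

/-- the half disc of radius `r` is replaced by a piece of rod -/
def surR (v : ℝ → Z2) (a : Z2) (c r x : ℝ) : Z2 := if |x - c| < r then a else v x

/-- the outside of the half disc of radius `r` is replaced by two infinite rods -/
def inn (v : ℝ → Z2) (a b : Z2) (c r x : ℝ) : Z2 := if |x - c| < r then v x else vx a b c x

section Sur

variable {v : ℝ → Z2} {a b : Z2} {c r x : ℝ}

theorem vx_spec (a b : Z2) (c x : ℝ) :
    (x < c → PM (vx a b c x) a) ∧ (x = c → vx a b c x = 0) ∧ (c < x → PM (vx a b c x) b) :=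
  ⟨fun h => Or.inl (if_pos h), fun h => by rw [vx, if_neg h.not_lt, if_pos h],
    fun h => Or.inl (by rw [vx, if_neg h.not_gt, if_neg h.ne'])⟩

theorem Jv_vx (a b : Z2) (c x : ℝ) : x ∈ Jv (vx a b c) a b c :=
  mem_Jv.2 (Eventually.of_forall (vx_spec a b c))

theorem isOpen_in (c r : ℝ) : IsOpen {x : ℝ | |x - c| < r} := isOpen_lt (by fun_prop) continuous_const
theorem isOpen_out (c r : ℝ) : IsOpen {x : ℝ | r < |x - c|} := isOpen_lt continuous_const (by fun_prop)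

theorem surV_out (h : r < |x - c|) : x ∈ interior {x | surV v a b c r x = v x} :=
  interior_maximal (fun _ k => if_neg (not_lt.2 (le_of_lt k))) (isOpen_out c r) h

theorem surR_out (h : r < |x - c|) : x ∈ interior {x | surR v a c r x = v x} :=
  interior_maximal (fun _ k => if_neg (not_lt.2 (le_of_lt k))) (isOpen_out c r) h

theorem inn_in (h : |x - c| < r) : x ∈ interior {x | inn v a b c r x = v x} :=
  interior_maximal (fun _ k => if_pos k) (isOpen_in c r) h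

theorem surV_Jv (h : |x - c| < r ∨ x ∈ Jv v a b c) : x ∈ Jv (surV v a b c r) a b c := by
  have k : ∀ᶠ y in 𝓝 x, |y - c| < r ∨
      ((y < c → PM (v y) a) ∧ (y = c → v y = 0) ∧ (c < y → PM (v y) b)) :=
    h.elim (fun h => mem_of_superset ((isOpen_in c r).mem_nhds h) fun _ => Or.inl)
      fun h => (mem_Jv.1 h).mono fun _ => Or.inr
  refine mem_Jv.2 (k.mono fun y hy => ?_)
  unfold surV
  split_ifs with e
  exacts [vx_spec a b c y, hy.resolve_left e]

theorem surR_Jr (h : |x - c| < r ∨ x ∈ Jr v a) : x ∈ Jr (surR v a c r) a := by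
  have k : ∀ᶠ y in 𝓝 x, |y - c| < r ∨ PM (v y) a :=
    h.elim (fun h => mem_of_superset ((isOpen_in c r).mem_nhds h) fun _ => Or.inl)
      fun h => (mem_Jr.1 h).mono fun _ => Or.inr
  refine mem_Jr.2 (k.mono fun y hy => ?_)
  unfold surR
  split_ifs with e
  exacts [PM.refl a, hy.resolve_left e]

theorem inn_Jv (h : r < |x - c| ∨ x ∈ Jv v a b c) : x ∈ Jv (inn v a b c r) a b c := by
  have k : ∀ᶠ y in 𝓝 x, r < |y - c| ∨
      ((y < c → PM (v y) a) ∧ (y = c → v y = 0) ∧ (c < y → PM (v y) b)) :=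
    h.elim (fun h => mem_of_superset ((isOpen_out c r).mem_nhds h) fun _ => Or.inl)
      fun h => (mem_Jv.1 h).mono fun _ => Or.inr
  refine mem_Jv.2 (k.mono fun y hy => ?_)
  unfold inn
  split_ifs with e
  exacts [hy.resolve_left e.not_gt, vx_spec a b c y]

theorem Jv.of_abs (hr : 0 < r) (h1 : c - r ∈ Jr v a) (h2 : c + r ∈ Jr v b) (h : |x - c| = r) :
    x ∈ Jv v a b c := by
  rcases (abs_eq hr.le).1 h with k | k
  · exact (show c + r = x by linarith) ▸ Jv.of_right h2 (by linarith)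
  · exact (show c - r = x by linarith) ▸ Jv.of_left h1 (by linarith)

theorem Jr.of_abs (hr : 0 < r) (h1 : c - r ∈ Jr v a) (h2 : c + r ∈ Jr v a) (h : |x - c| = r) :
    x ∈ Jr v a := by
  rcases (abs_eq hr.le).1 h with k | k
  · exact (show c + r = x by linarith) ▸ h2
  · exact (show c - r = x by linarith) ▸ h1

theorem loc_surV (hv : ∀ x, r < |x - c| → ∃ a b c, Uni a b ∧ x ∈ Jv v a b c) (hu : Uni a b) (hr : 0 < r)
    (h1 : c - r ∈ Jr v a) (h2 : c + r ∈ Jr v b) : Loc (surV v a b c r) := fun x => by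
  rcases lt_trichotomy |x - c| r with h | h | h
  · exact ⟨a, b, c, hu, surV_Jv (Or.inl h)⟩
  · exact ⟨a, b, c, hu, surV_Jv (Or.inr (Jv.of_abs hr h1 h2 h))⟩
  · obtain ⟨a', b', c', k1, k2⟩ := hv x h
    exact ⟨a', b', c', k1, Jv_of_eq k2 (int_symm (surV_out h))⟩

theorem loc_surR (hv : ∀ x, r < |x - c| → ∃ a b c, Uni a b ∧ x ∈ Jv v a b c) (hu : Uni a b) (hr : 0 < r)
    (h1 : c - r ∈ Jr v a) (h2 : c + r ∈ Jr v a) : Loc (surR v a c r) := fun x => by
  rcases lt_trichotomy |x - c| r with h | h | h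
  · exact loc_of_Jr hu (surR_Jr (Or.inl h))
  · exact loc_of_Jr hu (surR_Jr (Or.inr (Jr.of_abs hr h1 h2 h)))
  · obtain ⟨a', b', c', k1, k2⟩ := hv x h
    exact ⟨a', b', c', k1, Jv_of_eq k2 (int_symm (surR_out h))⟩

theorem loc_inn {a' b' : Z2} (hv : ∀ x, |x - c| < r → ∃ a b c, Uni a b ∧ x ∈ Jv v a b c)
    (ha : Uni a a') (hb : Uni b b') (hr : 0 < r) (h1 : c - r ∈ Jr v a) (h2 : c + r ∈ Jr v b) :
    Loc (inn v a b c r) := fun x => by
  rcases lt_or_ge |x - c| r with h | h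
  · obtain ⟨a', b', c', k1, k2⟩ := hv x h
    exact ⟨a', b', c', k1, Jv_of_eq k2 (int_symm (inn_in h))⟩
  · have k : x ∈ Jv (inn v a b c r) a b c :=
      inn_Jv (h.lt_or_eq.imp_right fun e => Jv.of_abs hr h1 h2 e.symm)
    rcases lt_trichotomy x c with e | e | e
    · exact loc_of_Jr ha (Jv.left k e)
    · rw [e, sub_self, abs_zero] at h
      exact absurd h hr.not_ge
    · exact loc_of_Jr hb (Jv.right k e)

end Sur

variable {EN HN : Type} [NormedAddCommGroup EN] [NormedSpace ℝ EN] [FiniteDimensional ℝ EN]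
  [TopologicalSpace HN] {IN : ModelWithCorners ℝ EN HN} [IN.Boundaryless]
  {N : Type} [TopologicalSpace N] [ChartedSpace HN N] [IsManifold IN ∞ N] [T2Space N]

namespace Tb

variable (T : Tb IN N) {v v' : ℝ → Z2} {a b : Z2} {c r : ℝ}

theorem rr_eq (c : ℝ) (p : X T v) : T.rr v c p = dist (⟨T.time v p, T.yy v p⟩ : ℂ) c := by
  rw [Complex.dist_eq_re_im]
  simp [rr]

theorem rr_nonneg (c : ℝ) (p : X T v) : 0 ≤ T.rr v c p := Real.sqrt_nonneg _

theorem rr_le (c c' : ℝ) (p : X T v) : T.rr v c p ≤ T.rr v c' p + |c' - c| := by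
  rw [rr_eq, rr_eq, ← Real.dist_eq, ← Complex.isometry_ofReal.dist_eq]
  exact dist_triangle _ _ _

theorem le_rr (c c' : ℝ) (p : X T v) : |c - c'| ≤ T.rr v c p + T.rr v c' p := by
  rw [rr_eq, rr_eq, ← Real.dist_eq, ← Complex.isometry_ofReal.dist_eq]
  exact dist_triangle_left _ _ _

/-- nested or separated half circles -/
theorem disjoint_disc {c' : ℝ} {S S' : Set ℝ}
    (h : ∀ r ∈ S, ∀ r' ∈ S', r + |c - c'| < r' ∨ r' + |c - c'| < r ∨ r + r' < |c - c'|) :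
    Disjoint (T.disc v c S) (T.disc v c' S') := by
  refine disjoint_left.2 fun p hp hp' => ?_
  have h1 := T.rr_le c' c p
  have h2 := T.rr_le c c' p
  have h3 := T.le_rr c c' p
  rw [abs_sub_comm] at h2
  rcases h _ (T.mem_disc.1 hp).2 _ (T.mem_disc.1 hp').2 with k | k | k <;> linarith

theorem disjoint_disc_time {S J : Set ℝ} (h : ∀ r ∈ S, ∀ x ∈ J, r < |x - c|) :
    Disjoint (T.disc v c S) (T.time v ⁻¹' J) :=
  disjoint_left.2 fun p hp hp' => (h _ (T.mem_disc.1 hp).2 _ hp').not_ge (T.abs_time_le c p)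

theorem rr_axis {p : X T v} (h : ¬T.eta v p < 1) : p ∈ T.tor v ∧ T.rr v c p = |T.time v p - c| := by
  rcases T.ext_or_axis p with ⟨s, hs, rfl⟩ | ⟨k1, k2, -⟩
  · exact absurd (T.eta_ext_lt hs) h
  · exact ⟨k1, by rw [rr, k2, zero_pow two_ne_zero, add_zero, Real.sqrt_sq_eq_abs]⟩

/-- rod structures that agree outside `[c - r, c + r]` -/
theorem mem_ag_out (h : ∀ x, r < |x - c| → x ∈ interior {x | v x = v' x}) {p : X T v}
    (hp : p ∉ T.disc v c (Iic r)) : p ∈ T.ag v v' :=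
  (em _).imp_right fun k => h _ (lt_of_not_ge fun e => hp ⟨(T.rr_axis (c := c) k).1,
    ((T.rr_axis k).2.trans_le e : T.rr v c p ≤ r)⟩)

/-- rod structures that agree on `(c - r, c + r)` -/
theorem mem_ag_in (h : ∀ x, |x - c| < r → x ∈ interior {x | v x = v' x}) {p : X T v}
    (hp : T.rr v c p < r) : p ∈ T.ag v v' := Or.inr (h _ ((T.abs_time_le c p).trans_lt hp))

/-- after `surV` the half disc is a ball in the vertex chart -/
theorem mem_Uv_surV {R : ℝ} (h : ∀ s, r ≤ s → s < R → c - s ∈ Jr v a ∧ c + s ∈ Jr v b) (hr : 0 < r)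
    {z : ℂ × ℂ} (hz : ‖z.1‖ ^ 2 + ‖z.2‖ ^ 2 < R) : z ∈ Uv (surV v a b c r) a b c := by
  refine Or.inr (surV_Jv ((lt_or_ge _ _).imp_right fun k => ?_))
  have h1 : |tm c z - c| < R := by
    rw [tm, add_sub_cancel_left, abs_lt]
    constructor <;> nlinarith [sq_nonneg ‖z.1‖, sq_nonneg ‖z.2‖]
  exact Jv.of_abs (hr.trans_le k) (h _ k h1).1 (h _ k h1).2 rfl

/-- after `surR` the half disc is `S¹ × B³` in the rod chart -/
theorem mem_Ur_surR {R : ℝ} (h : ∀ s, r ≤ s → s < R → c - s ∈ Jr v a ∧ c + s ∈ Jr v a) (hr : 0 < r)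
    {p : Circle × E3} (hp : ‖p.2‖ < R) : rc c p ∈ Ur (surR v a c r) a := by
  refine Or.inr (surR_Jr ((lt_or_ge _ _).imp_right fun k => ?_))
  have h1 : |(rc c p).2 - c| < R := by
    rw [rc, add_sub_cancel_left]
    exact (abs_le_of_sq_le_sq (by nlinarith [norm_L3 p.2, sq_nonneg ‖(L3 p.2).1‖])
      (norm_nonneg p.2)).trans_lt hp
  exact Jr.of_abs (hr.trans_le k) (h _ k h1).1 (h _ k h1).2 rfl

/-- a half disc over which the axis is one vertex is the image of a ball -/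
theorem disc_eq_vtx (hu : Uni a b) {S : Set ℝ} (h : ∀ r ∈ S, c - r ∈ Jv v a b c ∧ c + r ∈ Jv v a b c) :
    T.disc v c S = T.vtx v hu c '' {z | ‖z.1‖ ^ 2 + ‖z.2‖ ^ 2 ∈ S} ∧
      {z : ℂ × ℂ | ‖z.1‖ ^ 2 + ‖z.2‖ ^ 2 ∈ S} ⊆ Uv v a b c := by
  have k : {z : ℂ × ℂ | ‖z.1‖ ^ 2 + ‖z.2‖ ^ 2 ∈ S} ⊆ Uv v a b c := fun z hz => by
    by_cases e1 : z.1 = 0
    · exact Or.inr (by simpa [tm, e1, sub_eq_add_neg] using (h _ hz).1)
    · by_cases e2 : z.2 = 0
      · exact Or.inr (by simpa [tm, e2] using (h _ hz).2)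
      · exact Or.inl ⟨e1, e2⟩
  refine ⟨Subset.antisymm (fun p hp => ?_) ?_, k⟩
  · obtain ⟨z, hz, rfl⟩ := T.mem_vtx hu (c := c) hp.1 ((em _).symm.imp_right fun e => by
      rcases T.time_of_rr (c := c) e with e | e <;> rw [e]
      exacts [(h _ hp.2).1, (h _ hp.2).2])
    exact ⟨z, (T.rr_vtx hu hz ▸ (T.mem_disc.1 hp).2 :), rfl⟩
  · rintro _ ⟨z, hz, rfl⟩
    exact T.mem_disc.2 ⟨T.vtx_mem_tor hu (k hz), (T.rr_vtx hu (k hz)).symm ▸ hz⟩

/-- a half disc over which the axis is one rod is the image of `S¹ ×` a ball -/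
theorem disc_eq_rod (hu : Uni a b) {S : Set ℝ} (h : ∀ r ∈ S, c - r ∈ Jr v a ∧ c + r ∈ Jr v a) :
    T.disc v c S = (T.rod v hu ∘ rc c) '' {p | ‖p.2‖ ∈ S} ∧
      ∀ p : Circle × E3, ‖p.2‖ ∈ S → rc c p ∈ Ur v a := by
  have k : ∀ p : Circle × E3, ‖p.2‖ ∈ S → rc c p ∈ Ur v a := fun p hp =>
    mem_Ur_of (h _ hp).1 (h _ hp).2
  refine ⟨Subset.antisymm (fun p hp => ?_) ?_, k⟩
  · obtain ⟨w, hw, rfl⟩ := T.mem_rod hu hp.1 ((em _).symm.imp_right fun e => by
      rcases T.time_of_rr (c := c) e with e | e <;> rw [e]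
      exacts [(h _ hp.2).1, (h _ hp.2).2])
    obtain ⟨q, rfl⟩ := rc_surj c w
    exact ⟨q, (T.rr_rc hu hw ▸ (T.mem_disc.1 hp).2 :), rfl⟩
  · rintro _ ⟨p, hp, rfl⟩
    exact T.mem_disc.2 ⟨T.rod_mem_tor hu (k p hp), (T.rr_rc hu (k p hp)).symm ▸ hp⟩

end Tb

end Crest.Agent.X212.Rod53
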