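import Crest.Agent.X212.Rod53.Fill

/-!
# X212 / Rod53, part Sym (helper53): monomial maps and translations of rod manifolds

* `TC T' T g p q` : `g (τ' w) = τ (gl p q w)`, any determinant `≠ 0`; `fg` : the induced map `X T' v' → X T v`,
  a local diffeomorphism on `T'.agG p q v' v` (off the axis, or `v = ac p q ∘ v'` near the time);
* for `TG` (determinant `± 1`, bijective): `TG.injOn_fg`, `TG.exists_fg`, `TG.dif`, `TG.tiso`, chart formulas;
* `TT T' T g α β` : `g (τ' (u, ζ)) = τ (α u, β ζ)`; `ft` : the induced map, `TT.ld_ft`, `TT.nf_ft`.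
-/

set_option autoImplicit false
set_option linter.unusedSectionVars false

open Set Filter Topology Function Metric TopologicalSpace
open scoped ContDiff Manifold ComplexConjugate

noncomputable section

namespace Crest.Agent.X212.Rod53

open Crest.Agent.X212.Glue52 Crest.Agent.X212.Cyl58

section Loc

variable {v v' : ℝ → Z2} {a b p q : Z2} {c x : ℝ}

theorem Loc.prim (hv : Loc v) (hx : x ∈ Jr v a) (h : a ≠ 0) : ∃ a', Uni a a' := by
  obtain ⟨a₀, b₀, c, hu, k⟩ := hv x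
  rcases lt_trichotomy x c with e | rfl | e
  · exact ⟨_, ((Jr.pm hx).symm.trans (Jr.pm (Jv.left k e))).uni hu⟩
  · have := Jr.pm hx
    rw [Jv.zero k] at this
    exact absurd (this.elim Eq.symm fun e => neg_eq_zero.1 e.symm) h
  · exact ⟨_, ((Jr.pm hx).symm.trans (Jr.pm (Jv.right k e))).uni hu.symm⟩

theorem Loc.uni (hv : Loc v) (hc : c ∈ Jv v a b c) : Uni a b := by
  obtain ⟨a₀, b₀, c₀, hu, k⟩ := hv c
  rcases lt_trichotomy c c₀ with e | rfl | e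
  · exact absurd (Jv.zero hc) ((Jr.pm (Jv.left k e)).ne_zero hu)
  · exact (Jv.pm k hc).1.uni ((Jv.pm k hc).2.uni hu.symm).symm
  · exact absurd (Jv.zero hc) ((Jr.pm (Jv.right k e)).ne_zero hu.symm)

theorem Jr_ac (h : x ∈ Jr v' a) (e : x ∈ interior {t | v t = ac p q (v' t)}) : x ∈ Jr v (ac p q a) := by
  rw [mem_Jr]
  filter_upwards [mem_Jr.1 h, mem_interior_iff_mem_nhds.1 e] with y h1 h2
    using (show v y = ac p q (v' y) from h2) ▸ h1.ac

theorem Jv_ac (h : x ∈ Jv v' a b c) (e : x ∈ interior {t | v t = ac p q (v' t)}) :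
    x ∈ Jv v (ac p q a) (ac p q b) c := by
  rw [mem_Jv]
  filter_upwards [mem_Jv.1 h, mem_interior_iff_mem_nhds.1 e] with y h1 h2
  rw [show v y = ac p q (v' y) from h2]
  exact ⟨fun k => (h1.1 k).ac, fun k => by rw [h1.2.1 k, ac_zero], fun k => (h1.2.2 k).ac⟩

theorem int_ac (x : ℝ) : x ∈ interior {t | (ac p q ∘ v') t = ac p q (v' t)} := by simp

theorem Loc.ac (hv : Loc v') (h : Uni p q) : Loc (ac p q ∘ v') := fun x => by
  obtain ⟨a, b, c, hu, k⟩ := hv x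
  exact ⟨_, _, c, h.ac hu, Jv_ac k (int_ac x)⟩

theorem dt_ac_ne (h : dt p q ≠ 0) (hu : Uni a b) : dt (ac p q a) (ac p q b) ≠ 0 := by
  rw [dt_ac]
  exact mul_ne_zero (neg_ne_zero.2 h) hu.lh.ne

end Loc

variable {EN HN : Type} [NormedAddCommGroup EN] [NormedSpace ℝ EN] [FiniteDimensional ℝ EN]
  [TopologicalSpace HN] {IN : ModelWithCorners ℝ EN HN} [IN.Boundaryless]
  {N : Type} [TopologicalSpace N] [ChartedSpace HN N] [IsManifold IN ∞ N] [T2Space N]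
  {EN' HN' : Type} [NormedAddCommGroup EN'] [NormedSpace ℝ EN'] [FiniteDimensional ℝ EN']
  [TopologicalSpace HN'] {IN' : ModelWithCorners ℝ EN' HN'} [IN'.Boundaryless]
  {N' : Type} [TopologicalSpace N'] [ChartedSpace HN' N'] [IsManifold IN' ∞ N'] [T2Space N']

namespace Tb

variable (T : Tb IN N) {v v' : ℝ → Z2} {a b a' p q : Z2} {c : ℝ}

theorem nf_rn (hu : Uni a a') (b : Z2) {w : (Circle × ℂ) × ℝ} (hw : w ∈ Ur v a) :
    T.nf v (T.rn v a b w) = T.Φr v a b w := by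
  rw [hu.decomp b, T.rn_cv hu _ _ hw, T.nf_rod hu (cv_mem hw), T.Φr_cv _ _ hw]

theorem ld_rn' (hu : Uni a a') (h : dt a b ≠ 0) {w : (Circle × ℂ) × ℝ} (hw : w ∈ Ur v a) :
    IsLocalDiffeomorphAt IR (𝓡 4) ∞ (T.rn v a b) w := by
  rw [hu.decomp b]
  refine Glue52.ld_congr ((ld_prodMap_at (ld_cv (mul_ne_zero hu.lh.ne h) (dt a a' * dt b a') w.1)
    (Glue52.ld_id w.2)).comp _ _ (ld_pd (T.rod v hu) (cv_mem hw))) ?_
  filter_upwards [isOpen_Ur.mem_nhds hw] with y hy using T.rn_cv hu _ _ hy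

variable (p q v v') in
/-- the points off the axis, or with `v' = ac p q ∘ v` near their time -/
def agG : Set (X T v) := {x | T.eta v x < 1 ∨ T.time v x ∈ interior {t | v' t = ac p q (v t)}}

theorem isOpen_agG : IsOpen (T.agG v v' p q) :=
  (isOpen_lt T.continuous_eta continuous_const).union (isOpen_interior.preimage T.continuous_time)

theorem ext_mem_agG {y : N × ℝ} (h : y.1 ∈ T.Ex) : T.ext v y ∈ T.agG v v' p q := Or.inl (T.eta_ext_lt h)

theorem rod_mem_agG (hu : Uni a b) {w : (Circle × ℂ) × ℝ} (h : w ∈ Ur v a) :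
    T.rod v hu w ∈ T.agG v v' p q ↔ w.1.2 ≠ 0 ∨ w.2 ∈ interior {t | v' t = ac p q (v t)} := by
  rw [agG, mem_ofPred_eq, T.eta_rod hu h, T.time_rod hu h]

theorem vtx_mem_agG (hu : Uni a b) {z : ℂ × ℂ} (h : z ∈ Uv v a b c) :
    T.vtx v hu c z ∈ T.agG v v' p q ↔ (z.1 ≠ 0 ∧ z.2 ≠ 0) ∨ tm c z ∈ interior {t | v' t = ac p q (v t)} := by
  rw [agG, mem_ofPred_eq, T.eta_vtx hu h, T.time_vtx hu h]

theorem mem_agG (x : X T v) : x ∈ T.agG v (ac p q ∘ v) p q := Or.inr (int_ac _)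

end Tb

/-- a monomial map of the exteriors -/
structure TC (T' : Tb IN' N') (T : Tb IN N) (g : N' → N) (p q : Z2) : Prop where
  ne : dt p q ≠ 0
  ld : ∀ y ∈ T'.Ex, IsLocalDiffeomorphAt IN' IN ∞ g y
  maps : MapsTo g T'.Ex T.Ex
  eq : ∀ w, w.2 ≠ 0 → g (T'.τ w) = T.τ (gl p q w)
  far : ∀ y ∈ T'.Ex, y ∉ range T'.τ → g y ∉ range T.τ

theorem TG.tc {T' : Tb IN' N'} {T : Tb IN N} {g : N' → N} {p q : Z2} (h : TG T' T g p q) : TC T' T g p q :=
  ⟨h.uni.lh.ne, h.ld, h.bij.mapsTo, h.eq, fun y hy k ⟨w, e⟩ => by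
    have h0 : w.2 ≠ 0 := T.τ_mem.1 (e ▸ h.bij.mapsTo hy)
    exact k ⟨_, h.bij.injOn (T'.τ_mem.2 (gl_ne.2 h0)) hy
      ((h.eq (glI p q w) (gl_ne.2 h0)).trans (by rw [gl_glI h.uni h0, e]))⟩⟩

/-- the map on normal forms -/
def nfG (g : N' → N) (p q : Z2) : (N' × ℝ) ⊕ (ℝ × Circle) → (N × ℝ) ⊕ (ℝ × Circle) :=
  Sum.map (Prod.map g id) (Prod.map id (· ^ (-dt p q)))

/-- the map induced by a monomial map of the exteriors -/
def fg (T' : Tb IN' N') (T : Tb IN N) (g : N' → N) (p q : Z2) (v' v : ℝ → Z2) (x : X T' v') : X T v :=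
  invFun (T.nf v) (nfG g p q (T'.nf v' x))

namespace TC

variable {T' : Tb IN' N'} {T : Tb IN N} {g : N' → N} {p q : Z2} (h : TC T' T g p q) {v v' : ℝ → Z2} {a b : Z2}
  {c : ℝ}
include h

theorem Φr_eq {w : (Circle × ℂ) × ℝ} (e : w.1.2 ≠ 0 ∨ v w.2 = ac p q (v' w.2)) :
    nfG g p q (T'.Φr v' a b w) = T.Φr v (ac p q a) (ac p q b) w := by
  by_cases k : w.1.2 = 0
  · rw [T'.Φr_zero k, T.Φr_zero k, e.resolve_left fun e => e k, dt_ac, mul_comm, zpow_mul]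
    rfl
  · rw [T'.Φr_ne k, T.Φr_ne k, ← gl_ac _ _ _ _ k, ← h.eq _ (gl_ne.2 k)]
    rfl

theorem Φv_eq {z : ℂ × ℂ} (e : (z.1 ≠ 0 ∧ z.2 ≠ 0) ∨ v (tm c z) = ac p q (v' (tm c z))) :
    nfG g p q (T'.Φv v' a b c z) = T.Φv v (ac p q a) (ac p q b) c z := by
  by_cases k : z.1 = 0
  · rw [Tb.Φv, Tb.Φv, if_pos k, if_pos k]
    exact h.Φr_eq (Or.inr (e.resolve_left fun e => e.1 k))
  · rw [T'.Φv_R k, T.Φv_R k]
    exact h.Φr_eq (e.imp_left fun e => mt (hR_ne k).1 e.2)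

theorem fg_ext {y : N' × ℝ} (hy : y.1 ∈ T'.Ex) : fg T' T g p q v' v (T'.ext v' y) = T.ext v (g y.1, y.2) := by
  rw [fg, T'.nf_ext hy, ← leftInverse_invFun (T.nf_injective v) (T.ext v _), T.nf_ext (h.maps hy)]
  rfl

omit h in
theorem mem_Ur {w : (Circle × ℂ) × ℝ} (hw : w ∈ Ur v' a)
    (e : w.1.2 ≠ 0 ∨ w.2 ∈ interior {t | v t = ac p q (v' t)}) : w ∈ Ur v (ac p q a) :=
  e.elim Or.inl fun e => hw.imp_right (Jr_ac · e)

omit h in
theorem mem_Uv {z : ℂ × ℂ} (hz : z ∈ Uv v' a b c)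
    (e : (z.1 ≠ 0 ∧ z.2 ≠ 0) ∨ tm c z ∈ interior {t | v t = ac p q (v' t)}) : z ∈ Uv v (ac p q a) (ac p q b) c :=
  e.elim Or.inl fun e => hz.imp_right (Jv_ac · e)

theorem fg_rod (hu : Uni a b) {w : (Circle × ℂ) × ℝ} (hw : w ∈ Ur v' a)
    (e : w.1.2 ≠ 0 ∨ w.2 ∈ interior {t | v t = ac p q (v' t)}) :
    fg T' T g p q v' v (T'.rod v' hu w) = T.rn v (ac p q a) (ac p q b) w := by
  rw [fg, T'.nf_rod hu hw, h.Φr_eq (e.imp_right fun e => interior_subset (s := {t | v t = ac p q (v' t)}) e), Tb.rn]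

theorem fg_vtx (hu : Uni a b) {z : ℂ × ℂ} (hz : z ∈ Uv v' a b c)
    (e : (z.1 ≠ 0 ∧ z.2 ≠ 0) ∨ tm c z ∈ interior {t | v t = ac p q (v' t)}) :
    fg T' T g p q v' v (T'.vtx v' hu c z) = T.vn v (ac p q a) (ac p q b) c z := by
  rw [fg, T'.nf_vtx hu hz, h.Φv_eq (e.imp_right fun e => interior_subset (s := {t | v t = ac p q (v' t)}) e), Tb.vn]

theorem prim (hv : Loc v) (hu : Uni a b) {x : ℝ} (hx : x ∈ Jr v (ac p q a)) : ∃ a', Uni (ac p q a) a' :=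
  hv.prim hx fun e => dt_ac_ne h.ne hu (by rw [e, dt_zero_left])

theorem ld_fg (hv : Loc v) {x : X T' v'} (hx : x ∈ T'.agG v' v p q) :
    IsLocalDiffeomorphAt (𝓡 4) (𝓡 4) ∞ (fg T' T g p q v' v) x := by
  induction x using T'.ind with
  | h1 y x hy =>
    refine Glue52.ld_of_comp (ld_pd (T'.ext v') (mk_mem_prod hy (mem_univ x))) (Glue52.ld_congr
      ((ld_prodMap_at (h.ld y hy) (Glue52.ld_id x)).comp _ _
        (ld_pd (T.ext v) (mk_mem_prod (h.maps hy) (mem_univ x)))) ?_)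
    filter_upwards [(T'.isOpen_Ex.preimage continuous_fst).mem_nhds hy] with z hz using h.fg_ext hz
  | h2 a b hu u x hx' =>
    have e := ((T'.rod_mem_agG hu (Or.inr hx')).1 hx).resolve_left fun k => k rfl
    obtain ⟨a', hu'⟩ := h.prim hv hu (Jr_ac hx' e)
    refine Glue52.ld_of_comp (ld_pd (T'.rod v' hu) (Or.inr hx')) (Glue52.ld_congr
      (T.ld_rn' hu' (dt_ac_ne h.ne hu) (Or.inr (Jr_ac hx' e))) ?_)
    filter_upwards [isOpen_Ur.mem_nhds (Or.inr hx'), (isOpen_interior.preimage continuous_snd).mem_nhds e]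
      with z h1 h2 using h.fg_rod hu h1 (Or.inr h2)
  | h3 a b hu c hc =>
    have e := ((T'.vtx_mem_agG hu (Tb.zero_mem_Uv hc)).1 hx).resolve_left fun k => k.1 rfl
    have hu' := hv.uni (Jv_ac hc (by simpa only [tm, Prod.fst_zero, Prod.snd_zero, sub_self, add_zero] using e))
    refine Glue52.ld_of_comp (ld_pd (T'.vtx v' hu c) (Tb.zero_mem_Uv hc)) (Glue52.ld_congr
      (ld_pd (T.vtx v hu' c) (mem_Uv (Tb.zero_mem_Uv hc) (Or.inr e))) ?_)
    filter_upwards [isOpen_Uv.mem_nhds (Tb.zero_mem_Uv hc), (isOpen_interior.preimage (continuous_tm c)).mem_nhds e]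
      with z h1 h2 using (h.fg_vtx hu h1 (Or.inr h2)).trans (T.vn_eq_vtx hu' (mem_Uv h1 (Or.inr h2)))

theorem nf_fg (hv : Loc v) {x : X T' v'} (hx : x ∈ T'.agG v' v p q) :
    T.nf v (fg T' T g p q v' v x) = nfG g p q (T'.nf v' x) := by
  induction x using T'.ind with
  | h1 y x hy => rw [h.fg_ext hy, T'.nf_ext hy, T.nf_ext (h.maps hy)]; rfl
  | h2 a b hu u x hx' =>
    have e := ((T'.rod_mem_agG hu (Or.inr hx')).1 hx).resolve_left fun k => k rfl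
    obtain ⟨a', hu'⟩ := h.prim hv hu (Jr_ac hx' e)
    rw [h.fg_rod hu (Or.inr hx') (Or.inr e), T.nf_rn hu' _ (Or.inr (Jr_ac hx' e)), T'.nf_rod hu (Or.inr hx'),
      h.Φr_eq (Or.inr (interior_subset (s := {t | v t = ac p q (v' t)}) e))]
  | h3 a b hu c hc =>
    have e := ((T'.vtx_mem_agG hu (Tb.zero_mem_Uv hc)).1 hx).resolve_left fun k => k.1 rfl
    have hu' := hv.uni (Jv_ac hc (by simpa only [tm, Prod.fst_zero, Prod.snd_zero, sub_self, add_zero] using e))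
    have m := mem_Uv (Tb.zero_mem_Uv hc) (Or.inr e)
    rw [h.fg_vtx hu (Tb.zero_mem_Uv hc) (Or.inr e), T.vn_eq_vtx hu' m, T.nf_vtx hu' m,
      T'.nf_vtx hu (Tb.zero_mem_Uv hc), h.Φv_eq (Or.inr (interior_subset (s := {t | v t = ac p q (v' t)}) e))]

theorem time_fg (hv : Loc v) {x : X T' v'} (hx : x ∈ T'.agG v' v p q) :
    T.time v (fg T' T g p q v' v x) = T'.time v' x := by
  rw [Tb.time, Tb.time, h.nf_fg hv hx]
  cases T'.nf v' x <;> rfl

theorem rf_eq {Z : Type} (k : ℝ → Z) (d : Z) {y : N'} (hy : y ∈ T'.Ex) : T.rf k d (g y) = T'.rf k d y := by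
  by_cases e : y ∈ range T'.τ
  · obtain ⟨w, rfl⟩ := e
    rw [h.eq w (T'.τ_mem.1 hy), T.rf_τ, T'.rf_τ, norm_gl]
  · rw [T'.rf_not _ _ e, T.rf_not _ _ (h.far y hy e)]

theorem hf_fg (hv : Loc v) {Z : Type} (k : ℝ → Z) (d : Z) {x : X T' v'} (hx : x ∈ T'.agG v' v p q) :
    T.hf v k d (fg T' T g p q v' v x) = T'.hf v' k d x := by
  rw [Tb.hf, h.nf_fg hv hx]
  induction x using T'.ind with
  | h1 y x hy => rw [T'.hf_ext _ _ hy, T'.nf_ext hy]; exact h.rf_eq k d hy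
  | h2 a b hu u x hx' => rw [Tb.hf, T'.nf_rod hu (Or.inr hx'), T'.Φr_zero rfl]; rfl
  | h3 a b hu c hc => rw [Tb.hf, T'.nf_vtx hu (Tb.zero_mem_Uv hc), T'.Φv_zero]; rfl

end TC

theorem Tb.nf_cases (T : Tb IN N) {v : ℝ → Z2} (x : X T v) : (∃ y ∈ T.Ex, T.ext v (y, T.time v x) = x ∧
    T.nf v x = .inl (y, T.time v x)) ∨ (¬T.eta v x < 1 ∧ ∃ s, T.nf v x = .inr (T.time v x, s)) := by
  induction x using T.ind with
  | h1 y x hy => exact Or.inl ⟨y, hy, by rw [T.time_ext hy], by rw [T.time_ext hy, T.nf_ext hy]⟩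
  | h2 a b hu u x hx => exact Or.inr ⟨fun k => (T.eta_rod hu (Or.inr hx)).1 k rfl, _, by
      rw [T.time_rod hu (Or.inr hx), T.nf_rod hu (Or.inr hx), T.Φr_zero rfl]⟩
  | h3 a b hu c hc => exact Or.inr ⟨fun k => ((T.eta_vtx hu (Tb.zero_mem_Uv hc)).1 k).1 rfl, 1, by
      rw [T.time_vtx hu (Tb.zero_mem_Uv hc), T.nf_vtx hu (Tb.zero_mem_Uv hc), T.Φv_zero]; simp [tm]⟩

namespace TG

variable {T' : Tb IN' N'} {T : Tb IN N} {g : N' → N} {p q : Z2} (h : TG T' T g p q) {v v' : ℝ → Z2} {a b : Z2}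
  {c : ℝ}
include h

theorem fg_rod (hu : Uni a b) {w : (Circle × ℂ) × ℝ} (hw : w ∈ Ur v' a)
    (e : w.1.2 ≠ 0 ∨ w.2 ∈ interior {t | v t = ac p q (v' t)}) :
    fg T' T g p q v' v (T'.rod v' hu w) = T.rod v (h.uni.ac hu) w :=
  (h.tc.fg_rod hu hw e).trans (T.rn_eq_rod _ (TC.mem_Ur hw e))

theorem fg_vtx (hu : Uni a b) {z : ℂ × ℂ} (hz : z ∈ Uv v' a b c)
    (e : (z.1 ≠ 0 ∧ z.2 ≠ 0) ∨ tm c z ∈ interior {t | v t = ac p q (v' t)}) :
    fg T' T g p q v' v (T'.vtx v' hu c z) = T.vtx v (h.uni.ac hu) c z :=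
  (h.tc.fg_vtx hu hz e).trans (T.vn_eq_vtx _ (TC.mem_Uv hz e))

theorem injOn_fg (hv : Loc v) : InjOn (fg T' T g p q v' v) (T'.agG v' v p q) := fun x hx y hy e => by
  have k := (h.tc.nf_fg hv hx).symm.trans (e ▸ h.tc.nf_fg hv hy)
  refine T'.nf_injective v' ?_
  rcases T'.nf_cases x with ⟨z, hz, -, e1⟩ | ⟨-, s, e1⟩ <;> rcases T'.nf_cases y with ⟨z', hz', -, e2⟩ | ⟨-, s', e2⟩ <;>
    rw [e1, e2] at k ⊢
  · obtain ⟨k1, k2⟩ := Prod.ext_iff.1 (Sum.inl_injective k)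
    exact congrArg _ (Prod.ext (h.bij.injOn hz hz' k1) k2)
  · cases k
  · cases k
  · obtain ⟨k1, k2⟩ := Prod.ext_iff.1 (Sum.inr_injective k)
    exact congrArg _ (Prod.ext k1 (zpow_uni_injective (by have := h.uni; unfold Uni at this; omega) k2))

omit h in
theorem int_du (hu : Uni p q) {x : ℝ} (e : x ∈ interior {t | v t = ac p q (v' t)}) :
    x ∈ interior {t | v' t = ac (du1 p q) (du2 p q) (v t)} :=
  interior_mono (fun t (ht : v t = _) => show v' t = _ by rw [ht, du_ac hu]) e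

/-- the range -/
theorem exists_fg {y : X T v} (hy : T.eta v y < 1 ∨ T.time v y ∈ interior {t | v t = ac p q (v' t)}) :
    ∃ x ∈ T'.agG v' v p q, fg T' T g p q v' v x = y := by
  induction y using T.ind with
  | h1 y x k =>
    obtain ⟨y, k', rfl⟩ := h.bij.surjOn k
    exact ⟨_, T'.ext_mem_agG (y := (y, x)) k', h.tc.fg_ext k'⟩
  | h2 a b hu u x hx =>
    rw [T.eta_rod hu (Or.inr hx), T.time_rod hu (Or.inr hx)] at hy
    have e := hy.resolve_left fun k => k rfl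
    have m : ((u, (0 : ℂ)), x) ∈ Ur v' _ := Or.inr (Jr_ac hx (int_du h.uni e))
    refine ⟨_, (T'.rod_mem_agG (h.uni.du.ac hu) m).2 hy, (h.tc.fg_rod _ m hy).trans ?_⟩
    rw [ac_du h.uni, ac_du h.uni, T.rn_eq_rod hu (Or.inr hx)]
  | h3 a b hu c hc =>
    rw [T.eta_vtx hu (Tb.zero_mem_Uv hc), T.time_vtx hu (Tb.zero_mem_Uv hc)] at hy
    have e := hy.resolve_left fun k => k.1 rfl
    have m : (0 : ℂ × ℂ) ∈ Uv v' _ _ c := TC.mem_Uv (Tb.zero_mem_Uv hc) (Or.inr (int_du h.uni e))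
    refine ⟨_, (T'.vtx_mem_agG (h.uni.du.ac hu) m).2 hy, (h.tc.fg_vtx _ m hy).trans ?_⟩
    rw [ac_du h.uni, ac_du h.uni, T.vn_eq_vtx hu (Tb.zero_mem_Uv hc)]

/-- THE DIFFEOMORPHISM of rod manifolds -/
def dif (hv : Loc v) (e : ∀ t, v t = ac p q (v' t)) : X T' v' ≃ₘ^∞⟮𝓡 4, 𝓡 4⟯ X T v :=
  have k : ∀ x, x ∈ interior {t | v t = ac p q (v' t)} := fun x => by simp [e]
  IsOE.diffeo ⟨fun x y => h.injOn_fg hv (Or.inr (k _)) (Or.inr (k _)), fun _ => h.tc.ld_fg hv (Or.inr (k _))⟩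
    fun y => (h.exists_fg (Or.inr (k _))).imp fun _ => And.right

theorem dif_apply (hv : Loc v) (e : ∀ t, v t = ac p q (v' t)) (x : X T' v') :
    h.dif hv e x = fg T' T g p q v' v x := rfl

/-- the isomorphism over an open set of times -/
def tiso [CompactSpace N] [SecondCountableTopology N] [CompactSpace N'] [SecondCountableTopology N']
    (hv' : Loc v') (hv : Loc v) {J : Set ℝ} (hJ : IsOpen J) (e : ∀ t ∈ J, v t = ac p q (v' t)) :
    TIso (T'.tp hv') (T.tp hv) J :=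
  have k : ∀ x : X T' v', T'.time v' x ∈ J → x ∈ T'.agG v' v p q := fun _ hx => Or.inr (interior_maximal e hJ hx)
  TIso.mk' hJ (fg T' T g p q v' v) (fun x hx => h.tc.ld_fg hv (k x hx))
    (fun x y hx hy => h.injOn_fg hv (k x hx) (k y hy)) (fun x hx => h.tc.time_fg hv (k x hx)) fun y hy => by
      obtain ⟨x, hx, rfl⟩ := h.exists_fg (v' := v') (y := y) (Or.inr (interior_maximal e hJ hy))
      exact ⟨x, show T'.time v' x ∈ J from h.tc.time_fg hv hx ▸ hy, rfl⟩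

theorem tiso_apply [CompactSpace N] [SecondCountableTopology N] [CompactSpace N'] [SecondCountableTopology N']
    (hv' : Loc v') (hv : Loc v) {J : Set ℝ} (hJ : IsOpen J) (e : ∀ t ∈ J, v t = ac p q (v' t)) (x : X T' v') :
    h.tiso hv' hv hJ e x = fg T' T g p q v' v x := rfl

end TG

/-! ### translations -/

/-- a translation of the solid torus -/
def trn (α β : Circle) (w : Circle × ℂ) : Circle × ℂ := (α * w.1, β * w.2)

theorem trn_ne {α β : Circle} {w : Circle × ℂ} : (trn α β w).2 ≠ 0 ↔ w.2 ≠ 0 := by simp [trn]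

theorem norm_trn (α β : Circle) (w : Circle × ℂ) : ‖(trn α β w).2‖ = ‖w.2‖ := by
  rw [trn, norm_mul, Circle.norm_coe, one_mul]

theorem trn_trn (α β α' β' : Circle) (w : Circle × ℂ) : trn α β (trn α' β' w) = trn (α * α') (β * β') w := by
  simp [trn, mul_assoc]

theorem trn_one (w : Circle × ℂ) : trn 1 1 w = w := by simp [trn]

theorem ld_trn (α β : Circle) : IsLocalDiffeomorph IT IT ∞ (trn α β) :=
  have h : ∀ α β, ContMDiff IT IT ∞ (trn α β) := fun _ _ _ =>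
    (contMDiffAt_const.mul contMDiffAt_fst).prodMk (cm_mul contMDiffAt_const contMDiffAt_snd)
  (diffeoOf _ (trn α⁻¹ β⁻¹) (h _ _) (h _ _) (fun w => by simp [trn_trn, trn_one])
    fun w => by simp [trn_trn, trn_one]).isLocalDiffeomorph

theorem gl_trn (a b : Z2) (α β : Circle) {w : Circle × ℂ} (h : w.2 ≠ 0) :
    gl a b (trn β α w) = trn (α ^ a.1 * β ^ b.1) (α ^ a.2 * β ^ b.2) (gl a b w) := by
  have k : dir (α * w.2) = α * dir w.2 := by rw [mul_comm, dir_mul_circle h, mul_comm]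
  rw [gl, norm_trn]
  simp only [gl, trn, k, mul_zpow]
  refine Prod.ext (mul_mul_mul_comm _ _ _ _) ?_
  simp only [Circle.coe_mul]
  ring

/-- the character that vanishes on the slope `a` -/
def chr (a : Z2) (α β : Circle) : Circle := β ^ a.1 * α ^ (-a.2)

theorem chr_eq (x a b : Z2) (α β : Circle) :
    chr x (α ^ a.1 * β ^ b.1) (α ^ a.2 * β ^ b.2) = α ^ dt x a * β ^ dt x b := by
  simp only [chr, dt, mul_zpow, ← zpow_mul, sub_eq_add_neg, zpow_add, mul_neg, mul_comm x.1, mul_comm x.2]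
  exact mul_mul_mul_comm _ _ _ _

theorem Uni.exists_trn {a b : Z2} (hu : Uni a b) (α β : Circle) :
    ∃ α' β' : Circle, α' ^ a.1 * β' ^ b.1 = α ∧ α' ^ a.2 * β' ^ b.2 = β := by
  have h := gl_glI hu (w := (α, β)) β.coe_ne_zero
  have k := dir_gl a b (w := glI a b (α, β)) (gl_ne.2 β.coe_ne_zero)
  rw [h] at k
  exact ⟨_, _, congrArg Prod.fst h, k.symm.trans (by simpa using dir_mul one_pos β)⟩

/-- a map of the exteriors that is a translation on the tubes -/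
structure TT (T' : Tb IN' N') (T : Tb IN N) (g : N' → N) (α β : Circle) : Prop where
  ld : ∀ y ∈ T'.Ex, IsLocalDiffeomorphAt IN' IN ∞ g y
  maps : MapsTo g T'.Ex T.Ex
  eq : ∀ w, w.2 ≠ 0 → g (T'.τ w) = T.τ (trn α β w)

/-- the map on normal forms -/
def nfT (g : N' → N) (α β : Circle) (v : ℝ → Z2) : (N' × ℝ) ⊕ (ℝ × Circle) → (N × ℝ) ⊕ (ℝ × Circle) :=
  Sum.map (Prod.map g id) fun s => (s.1, s.2 * chr (v s.1) α β)

/-- the induced map -/
def ft (T' : Tb IN' N') (T : Tb IN N) (g : N' → N) (α β : Circle) (v : ℝ → Z2) (x : X T' v) : X T v :=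
  invFun (T.nf v) (nfT g α β v (T'.nf v x))

namespace TT

variable {T' : Tb IN' N'} {T : Tb IN N} {g : N' → N} {α β : Circle} (h : TT T' T g α β) {v : ℝ → Z2} {a b : Z2}
  {c : ℝ} {α' β' : Circle} (h1 : α' ^ a.1 * β' ^ b.1 = α) (h2 : α' ^ a.2 * β' ^ b.2 = β)
include h

omit h in
theorem ft_of {x : X T' v} {y : X T v} (e : nfT g α β v (T'.nf v x) = T.nf v y) : ft T' T g α β v x = y := by
  rw [ft, e]
  exact leftInverse_invFun (T.nf_injective v) y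

theorem ft_ext {y : N' × ℝ} (hy : y.1 ∈ T'.Ex) : ft T' T g α β v (T'.ext v y) = T.ext v (g y.1, y.2) :=
  ft_of (by rw [T'.nf_ext hy, T.nf_ext (h.maps hy)]; rfl)

include h1 h2

theorem Φr_eq {w : (Circle × ℂ) × ℝ} (hw : w ∈ Ur v a) :
    nfT g α β v (T'.Φr v a b w) = T.Φr v a b (trn β' α' w.1, w.2) := by
  by_cases k : w.1.2 = 0
  · rw [T'.Φr_zero k, T.Φr_zero (w := (trn β' α' w.1, w.2)) (not_not.1 (mt trn_ne.1 (not_not.2 k))), ← h1, ← h2]
    simp only [nfT, Sum.map_inr, chr_eq, (Jr.pm (hw.resolve_left fun e => e k)).dt_eq, trn, mul_zpow, zpow_zero,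
      one_mul, mul_comm]
  · rw [T'.Φr_ne k, T.Φr_ne (w := (trn β' α' w.1, w.2)) (trn_ne.2 k), gl_trn _ _ _ _ k, h1, h2, ← h.eq _ (gl_ne.2 k)]
    rfl

theorem ft_rod (hu : Uni a b) {w : (Circle × ℂ) × ℝ} (hw : w ∈ Ur v a) :
    ft T' T g α β v (T'.rod v hu w) = T.rod v hu (trn β' α' w.1, w.2) :=
  ft_of (by rw [T'.nf_rod hu hw, h.Φr_eq h1 h2 hw, T.nf_rod hu (w := (trn β' α' w.1, w.2)) (hw.imp_left trn_ne.2)])

theorem Φv_eq {z : ℂ × ℂ} (hz : z ∈ Uv v a b c) :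
    nfT g α β v (T'.Φv v a b c z) = T.Φv v a b c (rt α' β' z) := by
  by_cases e : z = 0
  · have : v c = 0 := Jv.zero (by simpa [e, Uv, tm] using hz)
    rw [e, show rt α' β' 0 = 0 by simp [rt], T'.Φv_zero, T.Φv_zero]
    simp [nfT, this, chr]
  rcases Tb.ne_or e with k | k
  · rw [T'.Φv_R k, T.Φv_R (rt_ne1.2 k), h.Φr_eq (mul_comm (α' ^ a.1) _ ▸ h1) (mul_comm (α' ^ a.2) _ ▸ h2)
      (hR_mem hz k)]
    exact congrArg _ (Prod.ext (hyp_rt α' β' k).symm (tm_rt c α' β' z).symm)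
  · rw [T'.Φv_L k, T.Φv_L (rt_ne2.2 k), h.Φr_eq h1 h2 (hL_mem hz k)]
    exact congrArg _ (Prod.ext (hyp_rt β' α' (z := z.swap) k).symm (tm_rt c α' β' z).symm)

theorem ft_vtx (hu : Uni a b) {z : ℂ × ℂ} (hz : z ∈ Uv v a b c) :
    ft T' T g α β v (T'.vtx v hu c z) = T.vtx v hu c (rt α' β' z) :=
  ft_of (by rw [T'.nf_vtx hu hz, h.Φv_eq h1 h2 hz, T.nf_vtx hu (mem_Uv_rt.2 hz)])

omit h1 h2

theorem ld_ft : IsLocalDiffeomorph (𝓡 4) (𝓡 4) ∞ (ft T' T g α β v) := fun x => by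
  induction x using T'.ind with
  | h1 y x hy =>
    refine Glue52.ld_of_comp (ld_pd (T'.ext v) (mk_mem_prod hy (mem_univ x))) (Glue52.ld_congr
      ((ld_prodMap_at (h.ld y hy) (Glue52.ld_id x)).comp _ _
        (ld_pd (T.ext v) (mk_mem_prod (h.maps hy) (mem_univ x)))) ?_)
    filter_upwards [(T'.isOpen_Ex.preimage continuous_fst).mem_nhds hy] with z hz using h.ft_ext hz
  | h2 a b hu u x hx =>
    obtain ⟨α', β', h1, h2⟩ := hu.exists_trn α β
    refine Glue52.ld_of_comp (ld_pd (T'.rod v hu) (Or.inr hx)) (Glue52.ld_congr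
      ((ld_prodMap_at (ld_trn β' α' _) (Glue52.ld_id x)).comp _ _ (ld_pd (T.rod v hu) (Or.inr hx))) ?_)
    filter_upwards [isOpen_Ur.mem_nhds (Or.inr hx)] with z hz using h.ft_rod h1 h2 hu hz
  | h3 a b hu c hc =>
    obtain ⟨α', β', h1, h2⟩ := hu.exists_trn α β
    have k : IsLocalDiffeomorphAt IV IV ∞ (rt α' β') 0 := (diffeoOf (rt α' β') (rt α'⁻¹ β'⁻¹)
      (ContDiff.contMDiff (by unfold rt; fun_prop)) (ContDiff.contMDiff (by unfold rt; fun_prop))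
      (fun w => by simp [rt_rt, rt_one]) fun w => by simp [rt_rt, rt_one]).isLocalDiffeomorph 0
    refine Glue52.ld_of_comp (ld_pd (T'.vtx v hu c) (Tb.zero_mem_Uv hc)) (Glue52.ld_congr
      (k.comp _ _ (ld_pd (T.vtx v hu c) (mem_Uv_rt.2 (Tb.zero_mem_Uv hc)))) ?_)
    filter_upwards [isOpen_Uv.mem_nhds (Tb.zero_mem_Uv hc)] with z hz using h.ft_vtx h1 h2 hu hz

theorem nf_ft (x : X T' v) : T.nf v (ft T' T g α β v x) = nfT g α β v (T'.nf v x) := by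
  induction x using T'.ind with
  | h1 y x hy => rw [h.ft_ext hy, T'.nf_ext hy, T.nf_ext (h.maps hy)]; rfl
  | h2 a b hu u x hx =>
    obtain ⟨α', β', h1, h2⟩ := hu.exists_trn α β
    rw [h.ft_rod h1 h2 hu (Or.inr hx), T.nf_rod hu (Or.inr hx), T'.nf_rod hu (Or.inr hx), h.Φr_eq h1 h2 (Or.inr hx)]
  | h3 a b hu c hc =>
    obtain ⟨α', β', h1, h2⟩ := hu.exists_trn α β
    rw [h.ft_vtx h1 h2 hu (Tb.zero_mem_Uv hc), T.nf_vtx hu (mem_Uv_rt.2 (Tb.zero_mem_Uv hc)),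
      T'.nf_vtx hu (Tb.zero_mem_Uv hc), h.Φv_eq h1 h2 (Tb.zero_mem_Uv hc)]

theorem time_ft (x : X T' v) : T.time v (ft T' T g α β v x) = T'.time v x := by
  rw [Tb.time, Tb.time, h.nf_ft]
  cases T'.nf v x <;> rfl

theorem eta_ft (x : X T' v) : T.eta v (ft T' T g α β v x) < 1 ↔ T'.eta v x < 1 := by
  rcases T'.nf_cases x with ⟨y, hy, e, -⟩ | ⟨k, s, e⟩
  · rw [← e, h.ft_ext hy]
    exact iff_of_true (T.eta_ext_lt (h.maps hy)) (T'.eta_ext_lt hy)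
  · refine iff_of_false ?_ k
    rw [Tb.eta, Tb.hf, h.nf_ft, e]
    simp [nfT]

end TT

end Crest.Agent.X212.Rod53
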