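import Crest.Agent.X212.Rod53.GO

/-!
# X212 / Rod53, part Alg (helper53): the explicit transition maps of the rod model

* `gl a b : Circle × ℂ → Circle × ℂ`, `(u, ζ) ↦ (d^a₁ u^b₁, ‖ζ‖ d^a₂ u^b₂)`, `d = dir ζ` (filling chart → tube);
* `tw m`, `cj`, `iv` : changes of the basis `(a, b)` that extend over the core;
* `hyp (z₁, z₂) = ((dir z₁, 2‖z₁‖ z₂), ‖z₁‖² - ‖z₂‖²)` (vertex chart → rod chart) and its inverse `hypI`.
-/

set_option autoImplicit false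
set_option linter.unusedSectionVars false

open Set Filter Topology Function
open scoped ContDiff Manifold ComplexConjugate

noncomputable section

namespace Crest.Agent.X212.Rod53

open Crest.Agent.X212.Glue52

/-- integer vectors: first coordinate = longitude, second = meridian -/
abbrev Z2 : Type := ℤ × ℤ

/-- the determinant -/
def dt (a b : Z2) : ℤ := a.1 * b.2 - a.2 * b.1

/-- `(a, b)` is a basis -/
def Uni (a b : Z2) : Prop := dt a b = 1 ∨ dt a b = -1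

/-- equal up to sign -/
def PM (a b : Z2) : Prop := a = b ∨ a = -b

theorem Uni.sq {a b : Z2} (h : Uni a b) : dt a b * dt a b = 1 := by
  rcases h with h | h <;> rw [h] <;> norm_num

theorem dt_swap (a b : Z2) : dt b a = -dt a b := by unfold dt; ring
theorem dt_self (a : Z2) : dt a a = 0 := by unfold dt; ring
theorem dt_neg_left (a b : Z2) : dt (-a) b = -dt a b := by simp [dt]; ring
theorem dt_neg_right (a b : Z2) : dt a (-b) = -dt a b := by simp [dt]; ring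
theorem dt_zero_left (b : Z2) : dt 0 b = 0 := by simp [dt]
theorem dt_add_smul (v a b : Z2) (m : ℤ) : dt v (b + m • a) = dt v b + m * dt v a := by
  simp [dt]; ring

theorem Uni.symm {a b : Z2} (h : Uni a b) : Uni b a := by
  unfold Uni at *; rw [dt_swap a b]; omega
theorem Uni.neg_left {a b : Z2} (h : Uni a b) : Uni (-a) b := by
  unfold Uni at *; rw [dt_neg_left]; omega
theorem Uni.neg_right {a b : Z2} (h : Uni a b) : Uni a (-b) := h.symm.neg_left.symm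
theorem Uni.ne_zero {a b : Z2} (h : Uni a b) : a ≠ 0 := by
  rintro rfl
  unfold Uni at h; rw [dt_zero_left] at h; omega

theorem PM.refl (a : Z2) : PM a a := Or.inl rfl
theorem PM.symm {a b : Z2} (h : PM a b) : PM b a := by
  rcases h with rfl | rfl
  · exact Or.inl rfl
  · exact Or.inr (neg_neg _).symm
theorem PM.trans {a b c : Z2} (h : PM a b) (h' : PM b c) : PM a c := by
  rcases h with rfl | rfl
  · exact h'
  · rcases h' with rfl | rfl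
    · exact Or.inr rfl
    · exact Or.inl (neg_neg _)
theorem PM.dt_eq {v a : Z2} (h : PM v a) : dt v a = 0 := by
  rcases h with rfl | rfl
  · exact dt_self _
  · rw [dt_neg_left, dt_self, neg_zero]
theorem PM.uni {v a b : Z2} (h : PM v a) (hu : Uni a b) : Uni v b := by
  rcases h with rfl | rfl
  · exact hu
  · exact hu.neg_left
theorem PM.ne_zero {v a b : Z2} (h : PM v a) (hu : Uni a b) : v ≠ 0 := (h.uni hu).ne_zero

/-- a second complement differs by a sign and a multiple of `a` -/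
theorem Uni.compl {a b b' : Z2} (h : Uni a b) (h' : Uni a b') : ∃ m : ℤ, PM b' (b + m • a) := by
  have h1 := h.sq
  have key : b' = (dt a b * dt a b') • b + (dt a b * dt b' b) • a := by
    ext
    · simp only [dt, Prod.fst_add, Prod.smul_fst, smul_eq_mul] at h1 ⊢
      linear_combination (-b'.1) * h1
    · simp only [dt, Prod.snd_add, Prod.smul_snd, smul_eq_mul] at h1 ⊢
      linear_combination (-b'.2) * h1
  have h2 : dt a b * dt a b' = 1 ∨ dt a b * dt a b' = -1 := by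
    rcases h with h | h <;> rcases h' with h' | h' <;> rw [h, h'] <;> norm_num
  rcases h2 with h2 | h2
  · exact ⟨dt a b * dt b' b, Or.inl (by rw [h2, one_smul] at key; exact key)⟩
  · refine ⟨-(dt a b * dt b' b), Or.inr ?_⟩
    rw [h2] at key
    rw [neg_add, neg_smul, neg_neg, ← neg_one_smul ℤ b]
    exact key

theorem zpow_uni_injective {n : ℤ} (h : n = 1 ∨ n = -1) {u w : Circle} (e : u ^ n = w ^ n) : u = w := by
  rcases h with rfl | rfl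
  · simpa using e
  · simpa using e

/-- the model of `Circle × ℂ` -/
abbrev IT : ModelWithCorners ℝ (EuclideanSpace ℝ (Fin 1) × ℂ) (ModelProd (EuclideanSpace ℝ (Fin 1)) ℂ) :=
  (𝓡 1).prod 𝓘(ℝ, ℂ)

/-- the model of `(Circle × ℂ) × ℝ` -/
abbrev IR := IT.prod 𝓘(ℝ, ℝ)

/-- the model of `ℂ × ℂ` -/
abbrev IV : ModelWithCorners ℝ (ℂ × ℂ) (ℂ × ℂ) := 𝓘(ℝ, ℂ × ℂ)

section Sm

variable {E : Type*} [NormedAddCommGroup E] [NormedSpace ℝ E] {H : Type*} [TopologicalSpace H]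
  {I : ModelWithCorners ℝ E H} {M : Type*} [TopologicalSpace M] [ChartedSpace H M] {x : M}

theorem cm_zpow {f : M → Circle} (h : ContMDiffAt I (𝓡 1) ∞ f x) (n : ℤ) :
    ContMDiffAt I (𝓡 1) ∞ (fun y => f y ^ n) x := by
  rcases n with n | n
  · simpa using h.pow n
  · simpa using (h.pow (n + 1)).inv

theorem cm_coe {f : M → Circle} (h : ContMDiffAt I (𝓡 1) ∞ f x) :
    ContMDiffAt I 𝓘(ℝ, ℂ) ∞ (fun y => (f y : ℂ)) x := (contMDiff_circle_coe _).comp x h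

theorem cm_dir {f : M → ℂ} (h : ContMDiffAt I 𝓘(ℝ, ℂ) ∞ f x) (h0 : f x ≠ 0) :
    ContMDiffAt I (𝓡 1) ∞ (fun y => dir (f y)) x := (contMDiffAt_dir h0).comp x h

theorem cm_norm {f : M → ℂ} (h : ContMDiffAt I 𝓘(ℝ, ℂ) ∞ f x) (h0 : f x ≠ 0) :
    ContMDiffAt I 𝓘(ℝ, ℝ) ∞ (fun y => ‖f y‖) x := (contDiffAt_norm_c h0).comp_contMDiffAt h

theorem cm_nsq {f : M → ℂ} (h : ContMDiffAt I 𝓘(ℝ, ℂ) ∞ f x) :
    ContMDiffAt I 𝓘(ℝ, ℝ) ∞ (fun y => ‖f y‖ ^ 2) x :=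
  (contDiff_norm_sq ℝ (E := ℂ) (n := ∞)).contDiffAt.comp_contMDiffAt h

theorem cm_mul {f g : M → ℂ} (hf : ContMDiffAt I 𝓘(ℝ, ℂ) ∞ f x) (hg : ContMDiffAt I 𝓘(ℝ, ℂ) ∞ g x) :
    ContMDiffAt I 𝓘(ℝ, ℂ) ∞ (fun y => f y * g y) x :=
  (contDiff_mul (𝕜 := ℝ) (𝔸 := ℂ)).contDiffAt.comp_contMDiffAt (hf.prodMk_space hg)

theorem cm_ofReal {f : M → ℝ} (h : ContMDiffAt I 𝓘(ℝ, ℝ) ∞ f x) :
    ContMDiffAt I 𝓘(ℝ, ℂ) ∞ (fun y => (f y : ℂ)) x :=
  Complex.ofRealCLM.contDiff.contDiffAt.comp_contMDiffAt h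

theorem cm_conj {f : M → ℂ} (h : ContMDiffAt I 𝓘(ℝ, ℂ) ∞ f x) :
    ContMDiffAt I 𝓘(ℝ, ℂ) ∞ (fun y => conj (f y)) x :=
  Complex.conjCLE.contDiff.contDiffAt.comp_contMDiffAt h

theorem cm_fun {f : M → ℝ} {g : ℝ → ℝ} (hg : ContDiffAt ℝ ∞ g (f x))
    (h : ContMDiffAt I 𝓘(ℝ, ℝ) ∞ f x) : ContMDiffAt I 𝓘(ℝ, ℝ) ∞ (fun y => g (f y)) x :=
  hg.comp_contMDiffAt h

end Sm

theorem dir_zero : dir 0 = 1 := dif_pos rfl

theorem norm_polar {r : ℝ} (hr : 0 ≤ r) (u : Circle) : ‖(r : ℂ) * u‖ = r := by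
  rw [norm_mul, Circle.norm_coe, mul_one, Complex.norm_real, Real.norm_of_nonneg hr]

theorem dir_mul_circle {z : ℂ} (h : z ≠ 0) (u : Circle) : dir (z * u) = dir z * u := by
  conv_lhs => rw [← norm_mul_dir z, mul_assoc, ← Circle.coe_mul]
  exact dir_mul (norm_pos_iff.2 h) _

theorem dir_pos_mul {r : ℝ} (hr : 0 < r) (z : ℂ) : dir (r * z) = dir z := by
  by_cases h : z = 0
  · rw [h, mul_zero]
  · conv_lhs => rw [← norm_mul_dir z, ← mul_assoc, ← Complex.ofReal_mul]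
    exact dir_mul (mul_pos hr (norm_pos_iff.2 h)) _

theorem dir_conj (z : ℂ) : dir (conj z) = (dir z)⁻¹ := by
  by_cases h : z = 0
  · simp [h, dir_zero]
  · conv_lhs => rw [← norm_mul_dir z, map_mul, Complex.conj_ofReal, ← Circle.coe_inv_eq_conj]
    exact dir_mul (norm_pos_iff.2 h) _

theorem eq_of_dir {z w : ℂ} (h1 : ‖z‖ = ‖w‖) (h2 : dir z = dir w) : z = w := by
  rw [← norm_mul_dir z, ← norm_mul_dir w, h1, h2]

/-- filling chart → tube: the circle `dir ζ` runs along `a`, the circle `u` along `b` -/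
def gl (a b : Z2) (w : Circle × ℂ) : Circle × ℂ :=
  (dir w.2 ^ a.1 * w.1 ^ b.1, (‖w.2‖ : ℂ) * (dir w.2 ^ a.2 * w.1 ^ b.2 : Circle))

theorem norm_gl (a b : Z2) (w : Circle × ℂ) : ‖(gl a b w).2‖ = ‖w.2‖ := norm_polar (norm_nonneg _) _

theorem gl_ne {a b : Z2} {w : Circle × ℂ} : (gl a b w).2 ≠ 0 ↔ w.2 ≠ 0 := by
  rw [← norm_ne_zero_iff, norm_gl, norm_ne_zero_iff]

theorem dir_gl (a b : Z2) {w : Circle × ℂ} (h : w.2 ≠ 0) :
    dir (gl a b w).2 = dir w.2 ^ a.2 * w.1 ^ b.2 := dir_mul (norm_pos_iff.2 h) _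

theorem gl_polar (a b : Z2) (x y : Circle) {r : ℝ} (hr : 0 < r) :
    gl a b (y, (r : ℂ) * x) = (x ^ a.1 * y ^ b.1, (r : ℂ) * (x ^ a.2 * y ^ b.2 : Circle)) := by
  simp only [gl, dir_mul hr, norm_polar hr.le]

theorem gl_gl (a b a' b' : Z2) {w : Circle × ℂ} (h : w.2 ≠ 0) :
    gl a b (gl a' b' w) = gl (a'.2 • a + a'.1 • b) (b'.2 • a + b'.1 • b) w := by
  have key : ∀ (d u : Circle) (i j : ℤ), (d ^ a'.2 * u ^ b'.2) ^ i * (d ^ a'.1 * u ^ b'.1) ^ j =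
      d ^ (a'.2 * i + a'.1 * j) * u ^ (b'.2 * i + b'.1 * j) := fun d u i j => by
    simp only [mul_zpow, ← zpow_mul, zpow_add]
    exact mul_mul_mul_comm _ _ _ _
  rw [gl, dir_gl _ _ h, norm_gl]
  exact Prod.ext (key _ _ _ _) (congrArg (fun t : Circle => (‖w.2‖ : ℂ) * t) (key _ _ _ _))

theorem gl_id (w : Circle × ℂ) : gl (0, 1) (1, 0) w = w := by
  simp [gl, norm_mul_dir]

theorem cm_gl (a b : Z2) {w : Circle × ℂ} (h : w.2 ≠ 0) : ContMDiffAt IT IT ∞ (gl a b) w := by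
  have h1 : ContMDiffAt IT (𝓡 1) ∞ (fun w : Circle × ℂ => dir w.2) w := cm_dir contMDiffAt_snd h
  exact ((cm_zpow h1 _).mul (cm_zpow contMDiffAt_fst _)).prodMk
    (cm_mul (cm_ofReal (cm_norm contMDiffAt_snd h)) (cm_coe ((cm_zpow h1 _).mul (cm_zpow contMDiffAt_fst _))))

/-- the inverse of `gl a b` -/
def glI (a b : Z2) : Circle × ℂ → Circle × ℂ :=
  gl (dt a b * a.1, -(dt a b * b.1)) (-(dt a b * a.2), dt a b * b.2)

theorem gl_glI {a b : Z2} (hu : Uni a b) {w : Circle × ℂ} (h : w.2 ≠ 0) : gl a b (glI a b w) = w := by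
  have h1 := hu.sq
  rw [glI, gl_gl _ _ _ _ h]
  convert gl_id w using 2 <;> ext <;> simp only [dt, Prod.fst_add, Prod.smul_fst, Prod.snd_add,
    Prod.smul_snd, smul_eq_mul] at h1 ⊢ <;> first | ring1 | linear_combination h1

theorem glI_gl {a b : Z2} (hu : Uni a b) {w : Circle × ℂ} (h : w.2 ≠ 0) : glI a b (gl a b w) = w := by
  have h1 := hu.sq
  rw [glI, gl_gl _ _ _ _ h]
  convert gl_id w using 2 <;> ext <;> simp only [dt, Prod.fst_add, Prod.smul_fst, Prod.snd_add,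
    Prod.smul_snd, smul_eq_mul] at h1 ⊢ <;> first | ring1 | linear_combination h1

theorem isOpen_ne2 : IsOpen {w : Circle × ℂ | w.2 ≠ 0} := isOpen_ne.preimage continuous_snd

theorem ld_gl {a b : Z2} (hu : Uni a b) {w : Circle × ℂ} (h : w.2 ≠ 0) :
    IsLocalDiffeomorphAt IT IT ∞ (gl a b) w :=
  ld_of_inverse (g := glI a b) isOpen_ne2 isOpen_ne2 h (fun _ hz => (cm_gl _ _ hz).contMDiffWithinAt)
    (fun _ hz => (cm_gl _ _ hz).contMDiffWithinAt) (fun _ hz => gl_ne.2 hz) (fun _ hz => gl_ne.2 hz)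
    (fun _ hz => glI_gl hu hz) fun _ hz => gl_glI hu hz

theorem gl_inj {a b : Z2} (hu : Uni a b) {w w' : Circle × ℂ} (h : w.2 ≠ 0) (h' : w'.2 ≠ 0)
    (e : gl a b w = gl a b w') : w = w' := by
  rw [← glI_gl hu h, e, glI_gl hu h']

/-- twist -/
def tw (m : ℤ) (w : Circle × ℂ) : Circle × ℂ := (w.1, w.2 * (w.1 ^ m : Circle))
/-- conjugation of the disc -/
def cj (w : Circle × ℂ) : Circle × ℂ := (w.1, conj w.2)
/-- reversal of the core -/
def iv (w : Circle × ℂ) : Circle × ℂ := (w.1⁻¹, w.2)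

theorem tw_ne {m : ℤ} {w : Circle × ℂ} : (tw m w).2 = 0 ↔ w.2 = 0 :=
  mul_eq_zero.trans (or_iff_left (Circle.coe_ne_zero _))
theorem cj_ne {w : Circle × ℂ} : (cj w).2 = 0 ↔ w.2 = 0 := by simp [cj]

theorem ld_tw (m : ℤ) : IsLocalDiffeomorph IT IT ∞ (tw m) := by
  have h : ∀ m, ContMDiff IT IT ∞ (tw m) := fun m w =>
    contMDiffAt_fst.prodMk (cm_mul contMDiffAt_snd (cm_coe (cm_zpow contMDiffAt_fst _)))
  have k : ∀ m w, tw (-m) (tw m w) = w := fun m w => by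
    simp only [tw]
    rw [mul_assoc, ← Circle.coe_mul, ← zpow_add, add_neg_cancel, zpow_zero, Circle.coe_one, mul_one]
  refine (diffeoOf _ (tw (-m)) (h m) (h _) (k m) fun w => ?_).isLocalDiffeomorph
  simpa using k (-m) w

theorem ld_cj : IsLocalDiffeomorph IT IT ∞ cj := by
  have h : ContMDiff IT IT ∞ cj := fun w => contMDiffAt_fst.prodMk (cm_conj contMDiffAt_snd)
  exact (diffeoOf _ cj h h (fun w => by simp [cj]) fun w => by simp [cj]).isLocalDiffeomorph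

theorem ld_iv : IsLocalDiffeomorph IT IT ∞ iv := by
  have h : ContMDiff IT IT ∞ iv := fun w => contMDiffAt_fst.inv.prodMk contMDiffAt_snd
  exact (diffeoOf _ iv h h (fun w => by simp [iv]) fun w => by simp [iv]).isLocalDiffeomorph

theorem gl_tw (a b : Z2) (m : ℤ) {w : Circle × ℂ} (h : w.2 ≠ 0) :
    gl a b (tw m w) = gl a (b + m • a) w := by
  have key : ∀ (d u : Circle) (i j : ℤ), (d * u ^ m) ^ i * u ^ j = d ^ i * u ^ (j + m * i) :=
    fun d u i j => by rw [mul_zpow, ← zpow_mul, mul_assoc, ← zpow_add, add_comm]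
  have h1 : ‖w.2 * (w.1 ^ m : Circle)‖ = ‖w.2‖ := by rw [norm_mul, Circle.norm_coe, mul_one]
  simp only [gl, tw, dir_mul_circle h, h1, key]
  rfl

theorem gl_cj (a b : Z2) (w : Circle × ℂ) : gl a b (cj w) = gl (-a) b w := by
  simp [gl, cj, dir_conj]

theorem gl_iv (a b : Z2) (w : Circle × ℂ) : gl a b (iv w) = gl a (-b) w := by
  simp [gl, iv]

/-! ### the hyperbola chart -/

/-- vertex chart → rod chart, on `z₁ ≠ 0` -/
def hyp (z : ℂ × ℂ) : (Circle × ℂ) × ℝ :=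
  ((dir z.1, ((2 * ‖z.1‖ : ℝ) : ℂ) * z.2), ‖z.1‖ ^ 2 - ‖z.2‖ ^ 2)

/-- `‖z₁‖²` as a function on the rod chart -/
def rho (w : (Circle × ℂ) × ℝ) : ℝ := (w.2 + √(w.2 ^ 2 + ‖w.1.2‖ ^ 2)) / 2

/-- rod chart → vertex chart -/
def hypI (w : (Circle × ℂ) × ℝ) : ℂ × ℂ :=
  ((√(rho w) : ℂ) * w.1.1, (((2 * √(rho w))⁻¹ : ℝ) : ℂ) * w.1.2)

/-- the range of `hyp` -/
def hypT : Set ((Circle × ℂ) × ℝ) := {w | w.1.2 ≠ 0 ∨ 0 < w.2}

theorem isOpen_hypT : IsOpen hypT :=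
  (isOpen_ne.preimage (continuous_snd.comp continuous_fst)).union
    (isOpen_lt continuous_const continuous_snd)

theorem rad_pos {w : (Circle × ℂ) × ℝ} (h : w ∈ hypT) : 0 < w.2 ^ 2 + ‖w.1.2‖ ^ 2 := by
  rcases h with h | h
  · have := norm_pos_iff.2 h
    positivity
  · positivity

theorem rho_pos {w : (Circle × ℂ) × ℝ} (h : w ∈ hypT) : 0 < rho w := by
  unfold rho
  rcases h with h | h
  · have h1 := norm_pos_iff.2 h
    have h2 : |w.2| < √(w.2 ^ 2 + ‖w.1.2‖ ^ 2) := Real.lt_sqrt_of_sq_lt (by rw [sq_abs]; nlinarith)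
    have := neg_abs_le w.2
    linarith
  · have := Real.sqrt_nonneg (w.2 ^ 2 + ‖w.1.2‖ ^ 2)
    linarith

theorem rho_eq (w : (Circle × ℂ) × ℝ) : 4 * rho w ^ 2 - 4 * w.2 * rho w = ‖w.1.2‖ ^ 2 := by
  have := Real.sq_sqrt (show 0 ≤ w.2 ^ 2 + ‖w.1.2‖ ^ 2 by positivity)
  unfold rho
  nlinarith

theorem norm_hyp (z : ℂ × ℂ) : ‖(hyp z).1.2‖ = 2 * ‖z.1‖ * ‖z.2‖ := by
  simp [hyp]

theorem rad_hyp (z : ℂ × ℂ) : √((hyp z).2 ^ 2 + ‖(hyp z).1.2‖ ^ 2) = ‖z.1‖ ^ 2 + ‖z.2‖ ^ 2 := by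
  rw [norm_hyp, ← Real.sqrt_sq (show 0 ≤ ‖z.1‖ ^ 2 + ‖z.2‖ ^ 2 by positivity)]
  congr 1
  simp only [hyp]
  ring

theorem rho_hyp (z : ℂ × ℂ) : rho (hyp z) = ‖z.1‖ ^ 2 := by
  rw [rho, rad_hyp]
  simp only [hyp]
  ring

theorem hyp_ne {z : ℂ × ℂ} (h : z.1 ≠ 0) : (hyp z).1.2 = 0 ↔ z.2 = 0 := by
  simp [hyp, h]

theorem hyp_mem {z : ℂ × ℂ} (h : z.1 ≠ 0) : hyp z ∈ hypT := by
  by_cases h2 : z.2 = 0
  · right
    simp [hyp, h2, h]
  · exact Or.inl fun e => h2 ((hyp_ne h).1 e)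

theorem hypI_ne {w : (Circle × ℂ) × ℝ} (h : w ∈ hypT) : (hypI w).1 ≠ 0 :=
  mul_ne_zero (by exact_mod_cast (Real.sqrt_pos.2 (rho_pos h)).ne') w.1.1.coe_ne_zero

theorem hypI_hyp {z : ℂ × ℂ} (h : z.1 ≠ 0) : hypI (hyp z) = z := by
  have h1 : (‖z.1‖ : ℂ) ≠ 0 := by exact_mod_cast norm_ne_zero_iff.2 h
  rw [hypI, rho_hyp, Real.sqrt_sq (norm_nonneg _)]
  refine Prod.ext (norm_mul_dir _) ?_
  simp only [hyp]
  push_cast
  field_simp

theorem hyp_hypI {w : (Circle × ℂ) × ℝ} (h : w ∈ hypT) : hyp (hypI w) = w := by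
  have h0 := rho_pos h
  have h1 := Real.sqrt_pos.2 h0
  have h2 : (√(rho w) : ℂ) ≠ 0 := by exact_mod_cast h1.ne'
  have h3 := Real.sq_sqrt h0.le
  have h4 := rho_eq w
  refine Prod.ext (Prod.ext (dir_mul h1 _) ?_) ?_
  · simp only [hyp, hypI, norm_polar h1.le]
    push_cast
    field_simp
  · simp only [hyp, hypI, norm_polar h1.le]
    rw [norm_mul, Complex.norm_real, Real.norm_of_nonneg (by positivity), mul_pow, inv_pow, mul_pow, h3]
    field_simp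
    linarith

theorem cm_hyp {z : ℂ × ℂ} (h : z.1 ≠ 0) : ContMDiffAt IV IR ∞ hyp z := by
  have f1 : ContMDiffAt IV 𝓘(ℝ, ℂ) ∞ (fun z : ℂ × ℂ => z.1) z := contDiff_fst.contMDiff.contMDiffAt
  have f2 : ContMDiffAt IV 𝓘(ℝ, ℂ) ∞ (fun z : ℂ × ℂ => z.2) z := contDiff_snd.contMDiff.contMDiffAt
  exact ((cm_dir f1 h).prodMk (cm_mul (cm_ofReal (cm_fun (g := fun t => 2 * t) (by fun_prop)
    (cm_norm f1 h))) f2)).prodMk ((cm_nsq f1).sub (cm_nsq f2))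

theorem cm_rho {w : (Circle × ℂ) × ℝ} (h : w ∈ hypT) : ContMDiffAt IR 𝓘(ℝ, ℝ) ∞ rho w := by
  have f1 : ContMDiffAt IR 𝓘(ℝ, ℝ) ∞ (fun w : (Circle × ℂ) × ℝ => w.2 ^ 2 + ‖w.1.2‖ ^ 2) w :=
    (cm_fun (g := fun t => t ^ 2) (by fun_prop) contMDiffAt_snd).add
      (cm_nsq (contMDiffAt_snd.comp w contMDiffAt_fst))
  exact cm_fun (g := fun t => t / 2) (by fun_prop)
    (contMDiffAt_snd.add (cm_fun (Real.contDiffAt_sqrt (rad_pos h).ne') f1))

theorem cm_hypI {w : (Circle × ℂ) × ℝ} (h : w ∈ hypT) : ContMDiffAt IR IV ∞ hypI w := by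
  have h1 := Real.sqrt_pos.2 (rho_pos h)
  have f1 : ContMDiffAt IR 𝓘(ℝ, ℝ) ∞ (fun w => √(rho w)) w :=
    cm_fun (Real.contDiffAt_sqrt (rho_pos h).ne') (cm_rho h)
  have f2 : ContMDiffAt IR 𝓘(ℝ, ℝ) ∞ (fun w => (2 * √(rho w))⁻¹) w :=
    cm_fun (g := fun t => (2 * t)⁻¹) (ContDiffAt.inv (by fun_prop) (by positivity)) f1
  exact (cm_mul (cm_ofReal f1) (cm_coe (contMDiffAt_fst.comp w contMDiffAt_fst))).prodMk_space
    (cm_mul (cm_ofReal f2) (contMDiffAt_snd.comp w contMDiffAt_fst))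

theorem ld_hyp {z : ℂ × ℂ} (h : z.1 ≠ 0) : IsLocalDiffeomorphAt IV IR ∞ hyp z :=
  ld_of_inverse (g := hypI) (s := {z | z.1 ≠ 0}) (isOpen_ne.preimage continuous_fst) isOpen_hypT h
    (fun _ hz => (cm_hyp hz).contMDiffWithinAt) (fun _ hz => (cm_hypI hz).contMDiffWithinAt)
    (fun _ hz => hyp_mem hz) (fun _ hz => hypI_ne hz) (fun _ hz => hypI_hyp hz) fun _ hz => hyp_hypI hz

end Crest.Agent.X212.Rod53
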