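import Crest.Agent.X212.Rod53.Defs

/-!
# X212 / Rod53, part Api (helper53): charts, time, height, Hausdorff property, properness

* `T.ext v`, `T.rod v hu`, `T.vtx v hu c` : the charts as partial diffeomorphisms into `X T v`;
* `T.nf v` (injective normal form), `T.time v` (smooth), `T.yy v` (height), `T.eta v = (1 + y)⁻¹` (continuous,
  `0` off the toric part), ranges of the charts, `T.ind`, tests for smoothness;
* `T2Space (X T v)`; `Loc v`, `isCompact_time`, `isCompact_tor`, second countability.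
-/

set_option autoImplicit false
set_option linter.unusedSectionVars false

open Set Filter Topology Function Metric
open scoped ContDiff Manifold ComplexConjugate

noncomputable section

namespace Crest.Agent.X212.Rod53

open Crest.Agent.X212.Glue52

variable {EN HN : Type} [NormedAddCommGroup EN] [NormedSpace ℝ EN] [FiniteDimensional ℝ EN]
  [TopologicalSpace HN] {IN : ModelWithCorners ℝ EN HN} [IN.Boundaryless]
  {N : Type} [TopologicalSpace N] [ChartedSpace HN N] [IsManifold IN ∞ N] [T2Space N]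

/-- every point of the axis is a rod point or a vertex -/
def Loc (v : ℝ → Z2) : Prop := ∀ x, ∃ a b c, Uni a b ∧ x ∈ Jv v a b c

namespace Tb

variable (T : Tb IN N) (v : ℝ → Z2) {a b : Z2}

/-- the exterior chart -/
def ext : PartialDiffeomorph (IN.prod 𝓘(ℝ, ℝ)) (𝓡 4) (N × ℝ) (X T v) ∞ := (T.go v).ch .ext

/-- the rod chart -/
def rod (hu : Uni a b) : PartialDiffeomorph IR (𝓡 4) ((Circle × ℂ) × ℝ) (X T v) ∞ :=
  (T.go v).ch (.rod a b hu)

/-- the vertex chart -/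
def vtx (hu : Uni a b) (c : ℝ) : PartialDiffeomorph IV (𝓡 4) (ℂ × ℂ) (X T v) ∞ :=
  (T.go v).ch (.vtx a b hu c)

@[simp] theorem ext_source : (T.ext v).source = T.Ex ×ˢ univ := rfl
@[simp] theorem rod_source (hu : Uni a b) : (T.rod v hu).source = Ur v a := rfl
@[simp] theorem vtx_source (hu : Uni a b) (c : ℝ) : (T.vtx v hu c).source = Uv v a b c := rfl

/-- the normal form -/
def nf : X T v → (N × ℝ) ⊕ (ℝ × Circle) := (T.go v).nf

theorem nf_injective : Injective (T.nf v) := (T.go v).nf_injective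

variable {v} {c : ℝ}

theorem nf_ext {p : N × ℝ} (h : p.1 ∈ T.Ex) : T.nf v (T.ext v p) = .inl p :=
  (T.go v).nf_pm (i := .ext) ⟨h, mem_univ _⟩

theorem nf_rod (hu : Uni a b) {w : (Circle × ℂ) × ℝ} (h : w ∈ Ur v a) :
    T.nf v (T.rod v hu w) = T.Φr v a b w := (T.go v).nf_pm (i := .rod a b hu) h

theorem nf_vtx (hu : Uni a b) {z : ℂ × ℂ} (h : z ∈ Uv v a b c) :
    T.nf v (T.vtx v hu c z) = T.Φv v a b c z := (T.go v).nf_pm (i := .vtx a b hu c) h

theorem rod_eq_ext (hu : Uni a b) {w : (Circle × ℂ) × ℝ} (h : w.1.2 ≠ 0) :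
    T.rod v hu w = T.ext v (T.τ (gl a b w.1), w.2) := T.nf_injective v <| by
  rw [T.nf_rod hu (Or.inl h), T.nf_ext (T.τ_mem.2 (gl_ne.2 h)), T.Φr_ne h]

theorem vtx_eq_R (hu : Uni a b) {z : ℂ × ℂ} (hz : z ∈ Uv v a b c) (h : z.1 ≠ 0) :
    T.vtx v hu c z = T.rod v hu.symm (hR c z) := T.nf_injective v <| by
  rw [T.nf_vtx hu hz, T.nf_rod _ (hR_mem hz h), T.Φv_R h]

theorem vtx_eq_L (hu : Uni a b) {z : ℂ × ℂ} (hz : z ∈ Uv v a b c) (h : z.2 ≠ 0) :
    T.vtx v hu c z = T.rod v hu (hL c z) := T.nf_injective v <| by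
  rw [T.nf_vtx hu hz, T.nf_rod _ (hL_mem hz h), T.Φv_L h]

theorem vtx_eq_ext (hu : Uni a b) {z : ℂ × ℂ} (h1 : z.1 ≠ 0) (h2 : z.2 ≠ 0) :
    T.vtx v hu c z = T.ext v (T.τ (dir z.1 ^ a.1 * dir z.2 ^ b.1,
      ((2 * ‖z.1‖ * ‖z.2‖ : ℝ) : ℂ) * (dir z.1 ^ a.2 * dir z.2 ^ b.2 : Circle)), tm c z) := by
  rw [T.vtx_eq_R hu (Or.inl ⟨h1, h2⟩) h1, T.rod_eq_ext _ (mt (hR_ne h1).1 h2), ← gl_hyp a b h1]
  rfl

/-- the charts cover -/
theorem cover (p : X T v) : (∃ q : N × ℝ, q.1 ∈ T.Ex ∧ T.ext v q = p) ∨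
    (∃ a b, ∃ hu : Uni a b, ∃ w ∈ Ur v a, T.rod v hu w = p) ∨
    ∃ a b, ∃ hu : Uni a b, ∃ c, ∃ z ∈ Uv v a b c, T.vtx v hu c z = p := by
  obtain ⟨i, q, hq, e⟩ := (T.go v).surj p
  cases i with
  | ext => exact Or.inl ⟨q, hq.1, e⟩
  | rod a b hu => exact Or.inr (Or.inl ⟨a, b, hu, q, hq, e⟩)
  | vtx a b hu c => exact Or.inr (Or.inr ⟨a, b, hu, c, q, hq, e⟩)

/-- every point is an exterior point, a rod point or a vertex -/
@[elab_as_elim]
theorem ind {P : X T v → Prop} (h1 : ∀ q x, q ∈ T.Ex → P (T.ext v (q, x)))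
    (h2 : ∀ a b (hu : Uni a b) u x, x ∈ Jr v a → P (T.rod v hu ((u, 0), x)))
    (h3 : ∀ a b (hu : Uni a b) c, c ∈ Jv v a b c → P (T.vtx v hu c 0)) (p : X T v) : P p := by
  have k : ∀ a b (hu : Uni a b), ∀ w ∈ Ur v a, P (T.rod v hu w) := by
    rintro a b hu ⟨⟨u, ζ⟩, x⟩ hw
    by_cases h : ζ = 0
    · subst h
      exact h2 a b hu u x (hw.resolve_left fun k => k rfl)
    · rw [T.rod_eq_ext hu h]
      exact h1 _ _ (T.τ_mem.2 (gl_ne.2 h))
  rcases T.cover p with ⟨q, hq, rfl⟩ | ⟨a, b, hu, w, hw, rfl⟩ | ⟨a, b, hu, c, z, hz, rfl⟩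
  · exact h1 _ _ hq
  · exact k a b hu w hw
  · by_cases e1 : z.1 = 0
    · by_cases e2 : z.2 = 0
      · obtain rfl : z = 0 := Prod.ext e1 e2
        exact h3 a b hu c (by simpa [tm] using hz.resolve_left fun k => k.1 rfl)
      · rw [T.vtx_eq_L hu hz e2]
        exact k _ _ _ _ (hL_mem hz e2)
    · rw [T.vtx_eq_R hu hz e1]
      exact k _ _ _ _ (hR_mem hz e1)

section Test

variable {E' : Type*} [NormedAddCommGroup E'] [NormedSpace ℝ E'] {H' : Type*} [TopologicalSpace H']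
  {J : ModelWithCorners ℝ E' H'} {M : Type*} [TopologicalSpace M] [ChartedSpace H' M]

theorem zero_mem_Uv (h : c ∈ Jv v a b c) : (0 : ℂ × ℂ) ∈ Uv v a b c := Or.inr (by simpa [tm] using h)

/-- smoothness is tested in the exterior chart, along the rods and at the vertices -/
theorem contMDiff_of {g : X T v → M}
    (h1 : ∀ q x, q ∈ T.Ex → ContMDiffAt (IN.prod 𝓘(ℝ, ℝ)) J ∞ (g ∘ T.ext v) (q, x))
    (h2 : ∀ a b (hu : Uni a b) u x, x ∈ Jr v a → ContMDiffAt IR J ∞ (g ∘ T.rod v hu) ((u, 0), x))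
    (h3 : ∀ a b (hu : Uni a b) c, c ∈ Jv v a b c → ContMDiffAt IV J ∞ (g ∘ T.vtx v hu c) 0) :
    ContMDiff (𝓡 4) J ∞ g :=
  T.ind (fun q x h => contMDiffAt_of_comp (ld_pd (T.ext v) (mk_mem_prod h (mem_univ x))) (h1 q x h))
    (fun a b hu u x h => contMDiffAt_of_comp (ld_pd _ (Or.inr h)) (h2 a b hu u x h))
    fun a b hu c h => contMDiffAt_of_comp (ld_pd _ (zero_mem_Uv h)) (h3 a b hu c h)

end Test

theorem continuous_of {Z : Type*} [TopologicalSpace Z] {g : X T v → Z}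
    (h1 : ContinuousOn (g ∘ T.ext v) (T.Ex ×ˢ univ))
    (h2 : ∀ a b (hu : Uni a b), ContinuousOn (g ∘ T.rod v hu) (Ur v a))
    (h3 : ∀ a b (hu : Uni a b) c, ContinuousOn (g ∘ T.vtx v hu c) (Uv v a b c)) : Continuous g :=
  (T.go v).continuous_of fun i => match i with
    | .ext => h1
    | .rod a b hu => h2 a b hu
    | .vtx a b hu c => h3 a b hu c

variable (v) in
/-- the time function -/
def time (p : X T v) : ℝ := tS (T.nf v p)

theorem time_ext {p : N × ℝ} (h : p.1 ∈ T.Ex) : T.time v (T.ext v p) = p.2 := by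
  rw [time, T.nf_ext h]
  rfl

theorem time_rod (hu : Uni a b) {w : (Circle × ℂ) × ℝ} (h : w ∈ Ur v a) :
    T.time v (T.rod v hu w) = w.2 := by rw [time, T.nf_rod hu h, T.tS_Φr]

theorem time_vtx (hu : Uni a b) {z : ℂ × ℂ} (h : z ∈ Uv v a b c) :
    T.time v (T.vtx v hu c z) = tm c z := by rw [time, T.nf_vtx hu h, T.tS_Φv]

theorem contDiff_tm (c : ℝ) : ContDiff ℝ ∞ (tm c) :=
  contDiff_const.add (((contDiff_norm_sq ℝ).comp contDiff_fst).sub ((contDiff_norm_sq ℝ).comp contDiff_snd))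

theorem contMDiff_time : ContMDiff (𝓡 4) 𝓘(ℝ, ℝ) ∞ (T.time v) := by
  refine T.contMDiff_of (fun q x h => contMDiffAt_snd.congr_of_eventuallyEq ?_)
    (fun a b hu u x h => contMDiffAt_snd.congr_of_eventuallyEq ?_)
    fun a b hu c h => (contDiff_tm c).contMDiff.contMDiffAt.congr_of_eventuallyEq ?_
  · filter_upwards [(T.isOpen_Ex.preimage continuous_fst).mem_nhds h] with z hz using T.time_ext hz
  · filter_upwards [isOpen_Ur.mem_nhds (Or.inr h)] with z hz using T.time_rod hu hz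
  · filter_upwards [isOpen_Uv.mem_nhds (zero_mem_Uv h)] with z hz using T.time_vtx hu hz

theorem continuous_time : Continuous (T.time v) := T.contMDiff_time.continuous

/-- a function of the tube radius, with the value `d` off the tube -/
def rf {Z : Type} (g : ℝ → Z) (d : Z) : N → Z := extend T.τ (fun w => g ‖w.2‖) fun _ => d

theorem rf_τ {Z : Type} (g : ℝ → Z) (d : Z) (w : Circle × ℂ) : T.rf g d (T.τ w) = g ‖w.2‖ :=
  T.inj.extend_apply _ _ _

theorem rf_not {Z : Type} (g : ℝ → Z) (d : Z) {p : N} (h : p ∉ range T.τ) : T.rf g d p = d :=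
  extend_apply' _ _ _ h

variable (v) in
/-- a function of the height, with the value `d` off the toric part -/
def hf {Z : Type} (g : ℝ → Z) (d : Z) (p : X T v) : Z :=
  Sum.elim (fun q => T.rf g d q.1) (fun _ => g 0) (T.nf v p)

theorem hf_ext {Z : Type} (g : ℝ → Z) (d : Z) {p : N × ℝ} (h : p.1 ∈ T.Ex) :
    T.hf v g d (T.ext v p) = T.rf g d p.1 := by
  rw [hf, T.nf_ext h]
  rfl

theorem hf_rod {Z : Type} (g : ℝ → Z) (d : Z) (hu : Uni a b) {w : (Circle × ℂ) × ℝ} (h : w ∈ Ur v a) :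
    T.hf v g d (T.rod v hu w) = g ‖w.1.2‖ := by
  by_cases e : w.1.2 = 0
  · rw [hf, T.nf_rod hu h, T.Φr_zero e, e, norm_zero]
    rfl
  · rw [T.rod_eq_ext hu e, T.hf_ext _ _ (T.τ_mem.2 (gl_ne.2 e)), T.rf_τ, norm_gl]

theorem hf_vtx {Z : Type} (g : ℝ → Z) (d : Z) (hu : Uni a b) {z : ℂ × ℂ} (h : z ∈ Uv v a b c) :
    T.hf v g d (T.vtx v hu c z) = g (2 * ‖z.1‖ * ‖z.2‖) := by
  by_cases e : z.1 = 0
  · have := (T.isRight_Φv (v := v) (a := a) (b := b) (c := c) z).2 (Or.inl e)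
    obtain ⟨s, hs⟩ := Sum.isRight_iff.1 this
    rw [hf, T.nf_vtx hu h, hs, e]
    simp
  · rw [T.vtx_eq_R hu h e, T.hf_rod _ _ _ (hR_mem h e), ← norm_hyp]
    rfl

variable (v) in
/-- the height (junk value `0` off the toric part) -/
def yy : X T v → ℝ := T.hf v id 0

variable (v) in
/-- `(1 + y)⁻¹` on the toric part, `0` off it -/
def eta : X T v → ℝ := T.hf v (fun r => (1 + r)⁻¹) 0

variable (v) in
/-- the toric part -/
def tor : Set (X T v) := {p | T.hf v (fun _ => True) False p}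

theorem yy_rod (hu : Uni a b) {w : (Circle × ℂ) × ℝ} (h : w ∈ Ur v a) :
    T.yy v (T.rod v hu w) = ‖w.1.2‖ := T.hf_rod _ _ hu h

theorem yy_vtx (hu : Uni a b) {z : ℂ × ℂ} (h : z ∈ Uv v a b c) :
    T.yy v (T.vtx v hu c z) = 2 * ‖z.1‖ * ‖z.2‖ := T.hf_vtx _ _ hu h

theorem yy_ext {w : Circle × ℂ} (h : w.2 ≠ 0) (x : ℝ) : T.yy v (T.ext v (T.τ w, x)) = ‖w.2‖ :=
  (T.hf_ext _ _ (T.τ_mem.2 h)).trans (T.rf_τ _ _ _)

theorem rod_mem_tor (hu : Uni a b) {w : (Circle × ℂ) × ℝ} (h : w ∈ Ur v a) : T.rod v hu w ∈ T.tor v :=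
  (T.hf_rod _ _ hu h).mpr trivial

theorem vtx_mem_tor (hu : Uni a b) {z : ℂ × ℂ} (h : z ∈ Uv v a b c) : T.vtx v hu c z ∈ T.tor v :=
  (T.hf_vtx _ _ hu h).mpr trivial

theorem ext_mem_tor {p : N × ℝ} (h : p.1 ∈ T.Ex) : T.ext v p ∈ T.tor v ↔ p.1 ∈ range T.τ := by
  rw [tor, mem_ofPred_eq, T.hf_ext _ _ h]
  refine ⟨fun e => by_contra fun k => (T.rf_not _ _ k).mp e, ?_⟩
  rintro ⟨w, hw⟩
  rw [← hw, T.rf_τ]
  trivial

theorem isCompact_tube (r : ℝ) : IsCompact (T.τ '' (univ ×ˢ closedBall (0 : ℂ) r)) :=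
  (isCompact_univ.prod (isCompact_closedBall _ _)).image T.ld.contMDiff.continuous

theorem continuous_rf {g : ℝ → ℝ} (hg : ContinuousOn g (Ici 0)) {d : ℝ} (hd : Tendsto g atTop (𝓝 d)) :
    Continuous (T.rf g d) := by
  rw [continuous_iff_continuousAt]
  intro p
  by_cases h : p ∈ range T.τ
  · obtain ⟨w, rfl⟩ := h
    rw [← (ld_isOpenEmbedding T.ld T.inj).continuousAt_iff]
    exact ((hg.comp_continuous continuous_snd.norm fun w => norm_nonneg _).congr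
      fun w => (T.rf_τ g d w).symm).continuousAt
  · rw [ContinuousAt, T.rf_not _ _ h, tendsto_def]
    intro s hs
    obtain ⟨r, hr⟩ := eventually_atTop.1 (hd.eventually hs)
    filter_upwards [(T.isCompact_tube r).isClosed.isOpen_compl.mem_nhds fun k => h (image_subset_range _ _ k)]
      with q hq
    by_cases k : q ∈ range T.τ
    · obtain ⟨w, rfl⟩ := k
      rw [mem_preimage, T.rf_τ]
      exact hr _ (le_of_not_ge fun e => hq ⟨w, ⟨mem_univ _, mem_closedBall_zero_iff.2 e⟩, rfl⟩)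
    · rw [mem_preimage, T.rf_not _ _ k]
      exact mem_of_mem_nhds hs

theorem continuous_hf {g : ℝ → ℝ} (hg : ContinuousOn g (Ici 0)) {d : ℝ} (hd : Tendsto g atTop (𝓝 d)) :
    Continuous (T.hf v g d) :=
  T.continuous_of (((T.continuous_rf hg hd).comp continuous_fst).continuousOn.congr
      fun _ h => T.hf_ext _ _ h.1)
    (fun _ _ hu => (hg.comp_continuous (continuous_snd.comp continuous_fst).norm
      fun _ => norm_nonneg _).continuousOn.congr fun _ h => T.hf_rod _ _ hu h)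
    fun _ _ hu _ => (hg.comp_continuous (f := fun z : ℂ × ℂ => 2 * ‖z.1‖ * ‖z.2‖) (by fun_prop)
      fun z => show (0 : ℝ) ≤ _ by positivity).continuousOn.congr fun _ h => T.hf_vtx _ _ hu h

theorem cont_inv : ContinuousOn (fun r : ℝ => (1 + r)⁻¹) (Ici 0) :=
  ContinuousOn.inv₀ (by fun_prop) fun r hr => by have : (0 : ℝ) ≤ r := hr; positivity

theorem tend_inv : Tendsto (fun r : ℝ => (1 + r)⁻¹) atTop (𝓝 0) :=
  tendsto_inv_atTop_zero.comp (tendsto_atTop_add_const_left _ _ tendsto_id)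

theorem continuous_eta : Continuous (T.eta v) := T.continuous_hf cont_inv tend_inv

theorem rf_lt {q : N} (h : q ∈ T.Ex) : T.rf (fun r : ℝ => (1 + r)⁻¹) 0 q < 1 := by
  by_cases k : q ∈ range T.τ
  · obtain ⟨w, rfl⟩ := k
    rw [T.rf_τ]
    exact inv_lt_one_of_one_lt₀ (lt_add_of_pos_right _ (norm_pos_iff.2 (T.τ_mem.1 h)))
  · rw [T.rf_not _ _ k]
    exact one_pos

/-- the range of a rod chart -/
theorem mem_rod (hu : Uni a b) {p : X T v} (h : p ∈ T.tor v) (h' : T.yy v p ≠ 0 ∨ T.time v p ∈ Jr v a) :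
    ∃ w ∈ Ur v a, T.rod v hu w = p := by
  have k : ∀ x u, x ∈ Jr v a → T.nf v p = .inr (x, u) → ∃ w ∈ Ur v a, T.rod v hu w = p := by
    intro x u hx e
    refine ⟨((u ^ dt (v x) b, 0), x), Or.inr hx, T.nf_injective v ?_⟩
    rw [T.nf_rod hu (Or.inr hx), T.Φr_zero rfl, e, ← zpow_mul, ((Jr.pm hx).uni hu).sq, zpow_one]
  induction p using T.ind with
  | h1 q x hq =>
    obtain ⟨w, rfl⟩ := (T.ext_mem_tor (p := (q, x)) hq).1 h
    have hw := T.τ_mem.1 hq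
    refine ⟨(glI a b w, x), Or.inl (gl_ne.2 hw), ?_⟩
    rw [T.rod_eq_ext hu (gl_ne.2 hw), gl_glI hu hw]
  | h2 a' b' hu' u x hx =>
    rw [T.yy_rod hu' (Or.inr hx), T.time_rod hu' (Or.inr hx)] at h'
    exact k x _ (h'.resolve_left fun k => k norm_zero) ((T.nf_rod hu' (Or.inr hx)).trans (T.Φr_zero rfl))
  | h3 a' b' hu' c hc =>
    rw [T.yy_vtx hu' (zero_mem_Uv hc), T.time_vtx hu' (zero_mem_Uv hc)] at h'
    exact k c 1 (by simpa [tm] using h') ((T.nf_vtx hu' (zero_mem_Uv hc)).trans T.Φv_zero)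

theorem exists_hR {w : (Circle × ℂ) × ℝ} (h : w.1.2 ≠ 0 ∨ c < w.2) : ∃ z : ℂ × ℂ, z.1 ≠ 0 ∧ hR c z = w := by
  have h1 : (w.1, w.2 - c) ∈ hypT := h.imp_right sub_pos.2
  have h2 := hyp_hypI h1
  refine ⟨_, hypI_ne h1, Prod.ext (congrArg Prod.fst h2 :) ?_⟩
  exact (congrArg (c + ·) (congrArg Prod.snd h2)).trans (add_sub_cancel _ _)

theorem exists_hL {w : (Circle × ℂ) × ℝ} (h : w.1.2 ≠ 0 ∨ w.2 < c) : ∃ z : ℂ × ℂ, z.2 ≠ 0 ∧ hL c z = w := by
  obtain ⟨z, h1, h2⟩ := exists_hR (c := -c) (w := (w.1, -w.2)) (h.imp_right neg_lt_neg)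
  refine ⟨z.swap, h1, Prod.ext (congrArg Prod.fst h2 :) ?_⟩
  have : tm (-c) z = -w.2 := congrArg Prod.snd h2
  simp only [hL, tm, Prod.fst_swap, Prod.snd_swap] at this ⊢
  linarith

/-- the range of a vertex chart -/
theorem mem_vtx (hu : Uni a b) {p : X T v} (h : p ∈ T.tor v)
    (h' : T.yy v p ≠ 0 ∨ T.time v p ∈ Jv v a b c) : ∃ z ∈ Uv v a b c, T.vtx v hu c z = p := by
  by_cases h1 : T.yy v p ≠ 0 ∨ c < T.time v p
  · obtain ⟨w, hw, rfl⟩ := T.mem_rod hu.symm h (by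
      rcases h' with k | k
      exacts [Or.inl k, h1.imp_right (Jv.right k)])
    rw [T.yy_rod _ hw, T.time_rod _ hw, norm_ne_zero_iff] at h1 h'
    obtain ⟨z, z1, rfl⟩ := exists_hR h1
    have hz : z ∈ Uv v a b c := h'.imp_left fun k => ⟨z1, mt (hR_ne z1).2 k⟩
    exact ⟨z, hz, T.vtx_eq_R hu hz z1⟩
  have h2 := h'.resolve_left fun k => h1 (Or.inl k)
  rcases (le_of_not_gt fun k => h1 (Or.inr k)).lt_or_eq with h3 | h3
  · obtain ⟨w, hw, rfl⟩ := T.mem_rod hu h (Or.inr (Jv.left h2 h3))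
    rw [T.time_rod _ hw] at h2 h3
    obtain ⟨z, z1, rfl⟩ := exists_hL (Or.inr h3)
    exact ⟨z, Or.inr h2, T.vtx_eq_L hu (Or.inr h2) z1⟩
  · rw [h3] at h2
    refine ⟨0, zero_mem_Uv h2, T.nf_injective v ?_⟩
    rw [T.nf_vtx hu (zero_mem_Uv h2), T.Φv_zero]
    induction p using T.ind with
    | h1 q x hq =>
      obtain ⟨w, rfl⟩ := (T.ext_mem_tor (p := (q, x)) hq).1 h
      exact absurd (Or.inl (T.yy_ext (T.τ_mem.1 hq) x ▸ norm_ne_zero_iff.2 (T.τ_mem.1 hq))) h1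
    | h2 a' b' hu' u x hx =>
      obtain rfl : x = c := (T.time_rod hu' (Or.inr hx)).symm.trans h3
      exact absurd (Jv.zero h2) ((Jr.pm hx).ne_zero hu')
    | h3 a' b' hu' c' hc =>
      obtain rfl : c' = c := by simpa [tm] using (T.time_vtx hu' (zero_mem_Uv hc)).symm.trans h3
      rw [T.nf_vtx hu' (zero_mem_Uv hc), T.Φv_zero]

/-- a point is in the exterior chart or on the axis -/
theorem ext_or_axis (p : X T v) : (∃ q : N × ℝ, q.1 ∈ T.Ex ∧ T.ext v q = p) ∨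
    (p ∈ T.tor v ∧ T.yy v p = 0 ∧ T.eta v p = 1 ∧ ∃ a b c, Uni a b ∧ T.time v p ∈ Jv v a b c) := by
  induction p using T.ind with
  | h1 q x hq => exact Or.inl ⟨_, hq, rfl⟩
  | h2 a b hu u x hx =>
    refine Or.inr ⟨T.rod_mem_tor hu (Or.inr hx), (T.yy_rod hu (Or.inr hx)).trans norm_zero,
      (T.hf_rod _ _ hu (Or.inr hx)).trans (by simp), a, b, x + 1, hu, ?_⟩
    rw [T.time_rod hu (Or.inr hx)]
    exact Jv.of_left hx (lt_add_one x)
  | h3 a b hu c hc =>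
    refine Or.inr ⟨T.vtx_mem_tor hu (zero_mem_Uv hc), (T.yy_vtx hu (zero_mem_Uv hc)).trans (by simp),
      (T.hf_vtx _ _ hu (zero_mem_Uv hc)).trans (by simp), a, b, c, hu, ?_⟩
    rw [T.time_vtx hu (zero_mem_Uv hc)]
    simpa [tm] using hc

theorem eta_ext_lt {q : N × ℝ} (h : q.1 ∈ T.Ex) : T.eta v (T.ext v q) < 1 :=
  (T.hf_ext _ _ h).trans_lt (T.rf_lt h)

instance : T2Space (X T v) := by
  refine ⟨fun p q hpq => ?_⟩
  by_cases ht : T.time v p = T.time v q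
  swap
  · exact separated_by_continuous T.continuous_time ht
  rcases T.ext_or_axis p with ⟨s, hs, rfl⟩ | ⟨p1, -, p2, a, b, c, hu, hp⟩ <;>
    rcases T.ext_or_axis q with ⟨s', hs', rfl⟩ | ⟨q1, -, q2, -⟩
  · have : T2Space ((T.go v).P .ext).M := inferInstanceAs (T2Space (N × ℝ))
    exact (T.go v).sep_of_piece (i := .ext) ⟨hs, mem_univ _⟩ ⟨hs', mem_univ _⟩ hpq
  · exact separated_by_continuous T.continuous_eta (q2 ▸ (T.eta_ext_lt hs).ne)
  · exact separated_by_continuous T.continuous_eta (p2 ▸ (T.eta_ext_lt hs').ne')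
  · obtain ⟨z, hz, rfl⟩ := T.mem_vtx hu p1 (Or.inr hp)
    obtain ⟨z', hz', rfl⟩ := T.mem_vtx hu q1 (Or.inr (ht ▸ hp))
    have : T2Space ((T.go v).P (.vtx a b hu c)).M := inferInstanceAs (T2Space (ℂ × ℂ))
    exact (T.go v).sep_of_piece (i := .vtx a b hu c) hz hz' hpq

/-- `(x - c)² + y² = (‖z₁‖² + ‖z₂‖²)²` in a vertex chart -/
theorem rad_vtx (hu : Uni a b) {z : ℂ × ℂ} (h : z ∈ Uv v a b c) :
    (T.time v (T.vtx v hu c z) - c) ^ 2 + T.yy v (T.vtx v hu c z) ^ 2 = (‖z.1‖ ^ 2 + ‖z.2‖ ^ 2) ^ 2 := by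
  rw [T.time_vtx hu h, T.yy_vtx hu h, tm]
  ring

theorem isClosed_yy (R : ℝ) : IsClosed {z : ℂ × ℂ | 2 * ‖z.1‖ * ‖z.2‖ ≤ R} :=
  isClosed_le (by fun_prop) continuous_const

theorem isCompact_box (c A B R : ℝ) :
    IsCompact {z : ℂ × ℂ | tm c z ∈ Icc A B ∧ 2 * ‖z.1‖ * ‖z.2‖ ≤ R} := by
  refine Metric.isCompact_of_isClosed_isBounded ((isClosed_Icc.preimage (continuous_tm c)).inter
    (isClosed_yy R)) ?_
  refine (isBounded_closedBall (x := (0 : ℂ × ℂ)) (r := |A - c| + |B - c| + |R| + 1)).subset ?_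
  rintro z ⟨⟨h1, h2⟩, h3⟩
  unfold tm at h1 h2
  have := neg_abs_le (A - c)
  have := le_abs_self (B - c)
  have := le_abs_self R
  have := abs_nonneg (A - c)
  have := abs_nonneg (B - c)
  have := norm_nonneg z.1
  have := norm_nonneg z.2
  rw [mem_closedBall_zero_iff, Prod.norm_def, max_le_iff]
  rcases le_total ‖z.1‖ ‖z.2‖ with h | h <;> constructor <;> nlinarith

/-- compactness of bounded parts of the toric part -/
theorem isCompact_tor {K : Set ℝ} (hK : IsCompact K) (hv : ∀ x ∈ K, ∃ a b c, Uni a b ∧ x ∈ Jv v a b c)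
    (R : ℝ) : IsCompact {p | p ∈ T.tor v ∧ T.time v p ∈ K ∧ T.yy v p ≤ R} := by
  have key : ∀ x ∈ K, ∃ s ∈ 𝓝 x, ∀ L, IsClosed L → L ⊆ s →
      IsCompact {p | p ∈ T.tor v ∧ T.time v p ∈ L ∧ T.yy v p ≤ R} := by
    intro x hx
    obtain ⟨a, b, c, hu, h⟩ := hv x hx
    refine ⟨Jv v a b c ∩ Icc (x - 1) (x + 1), inter_mem (isOpen_interior.mem_nhds h)
      (Icc_mem_nhds (by linarith) (by linarith)), fun L hL hs => ?_⟩
    have h1 : IsCompact {z : ℂ × ℂ | tm c z ∈ L ∧ 2 * ‖z.1‖ * ‖z.2‖ ≤ R} :=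
      (isCompact_box c (x - 1) (x + 1) R).of_isClosed_subset ((hL.preimage (continuous_tm c)).inter
        (isClosed_yy R)) fun z hz => ⟨(hs hz.1).2, hz.2⟩
    have h2 : {z : ℂ × ℂ | tm c z ∈ L ∧ 2 * ‖z.1‖ * ‖z.2‖ ≤ R} ⊆ Uv v a b c :=
      fun z hz => Or.inr (hs hz.1).1
    convert h1.image_of_continuousOn ((T.vtx v hu c).contMDiffOn_toFun.continuousOn.mono h2) using 1
    ext p
    constructor
    · rintro ⟨p1, p2, p3⟩
      obtain ⟨z, hz, rfl⟩ := T.mem_vtx hu p1 (Or.inr (hs p2).1)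
      exact ⟨z, ⟨T.time_vtx hu hz ▸ p2, T.yy_vtx hu hz ▸ p3⟩, rfl⟩
    · rintro ⟨z, hz, rfl⟩
      exact ⟨T.vtx_mem_tor hu (h2 hz), (T.time_vtx hu (h2 hz)).symm ▸ hz.1,
        (T.yy_vtx hu (h2 hz)).symm ▸ hz.2⟩
  choose! s hs hc using key
  choose! s' h1 h2 h3 using fun x hx => exists_mem_nhds_isClosed_subset (hs x hx)
  obtain ⟨t, ht, hc'⟩ := hK.elim_nhds_subcover s' h1
  convert t.isCompact_biUnion fun x hx => hc x (ht x hx) (K ∩ s' x) (hK.isClosed.inter (h2 x (ht x hx)))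
    (inter_subset_right.trans (h3 x (ht x hx))) using 1
  ext p
  simp only [mem_iUnion, mem_ofPred_eq]
  constructor
  · rintro ⟨p1, p2, p3⟩
    obtain ⟨x, hx, e⟩ := mem_iUnion₂.1 (hc' p2)
    exact ⟨x, hx, p1, ⟨p2, e⟩, p3⟩
  · rintro ⟨x, -, p1, p2, p3⟩
    exact ⟨p1, p2.1, p3⟩

/-- the time function is proper -/
theorem isCompact_time [CompactSpace N] {K : Set ℝ} (hK : IsCompact K)
    (hv : ∀ x ∈ K, ∃ a b c, Uni a b ∧ x ∈ Jv v a b c) : IsCompact (T.time v ⁻¹' K) := by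
  have h1 : IsCompact (T.τ '' (univ ×ˢ ball (0 : ℂ) 1))ᶜ :=
    ((ld_isOpenEmbedding T.ld T.inj).isOpenMap _ (isOpen_univ.prod isOpen_ball)).isClosed_compl.isCompact
  have h2 : (T.τ '' (univ ×ˢ ball (0 : ℂ) 1))ᶜ ×ˢ K ⊆ T.Ex ×ˢ univ := fun q hq =>
    ⟨fun u e => hq.1 ⟨(u, 0), ⟨mem_univ _, mem_ball_self one_pos⟩, e⟩, mem_univ _⟩
  refine (((h1.prod hK).image_of_continuousOn ((T.ext v).contMDiffOn_toFun.continuousOn.mono h2)).union
    (T.isCompact_tor hK hv 1)).of_isClosed_subset (hK.isClosed.preimage T.continuous_time) fun p hp => ?_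
  rcases T.ext_or_axis p with ⟨s, hs, rfl⟩ | ⟨p1, p2, -⟩
  · by_cases k : s.1 ∈ T.τ '' (univ ×ˢ ball (0 : ℂ) 1)
    · obtain ⟨q, x⟩ := s
      obtain ⟨w, hw, rfl⟩ := k
      exact Or.inr ⟨(T.ext_mem_tor hs).2 ⟨w, rfl⟩, hp,
        (T.yy_ext (T.τ_mem.1 hs) x).trans_le (mem_ball_zero_iff.1 hw.2).le⟩
    · exact Or.inl ⟨s, ⟨k, T.time_ext (v := v) hs ▸ hp⟩, rfl⟩
  · exact Or.inr ⟨p1, hp, p2.trans_le zero_le_one⟩

theorem secondCountable [SecondCountableTopology N] (hv : Loc v) : SecondCountableTopology (X T v) := by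
  have : LocallyCompactSpace N := Manifold.locallyCompact_of_finiteDimensional IN
  have := (T.isOpen_Ex.prod (isOpen_univ (X := ℝ))).locallyCompactSpace
  have h1 : IsSigmaCompact (T.Ex ×ˢ (univ : Set ℝ)) := isSigmaCompact_iff_sigmaCompactSpace.2 inferInstance
  have h2 := h1.image_of_continuousOn (T.ext v).contMDiffOn_toFun.continuousOn
  have h3 := isSigmaCompact_iUnion_of_isCompact _ fun n : ℕ =>
    T.isCompact_tor (isCompact_Icc (a := -(n : ℝ)) (b := n)) (fun x _ => hv x) n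
  have : SigmaCompactSpace (X T v) := by
    rw [← isSigmaCompact_univ_iff]
    convert isSigmaCompact_iUnion (fun b : Bool => if b then _ else _) fun b => b.rec h2 h3 using 1
    refine (eq_univ_of_forall fun p => ?_).symm
    rcases T.ext_or_axis p with ⟨s, hs, rfl⟩ | ⟨p1, p2, -⟩
    · exact mem_iUnion.2 ⟨false, s, ⟨hs, mem_univ _⟩, rfl⟩
    · obtain ⟨n, hn⟩ := exists_nat_ge |T.time v p|
      exact mem_iUnion.2 ⟨true, mem_iUnion.2 ⟨n, p1, abs_le.1 hn, p2.trans_le n.cast_nonneg⟩⟩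
  exact ChartedSpace.secondCountable_of_sigmaCompact E4 _

end Tb

end Crest.Agent.X212.Rod53
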