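import Crest.Agent.X212.Rod53.Alg

/-!
# X212 / Rod53, part Defs (helper53): the rod manifold `X T v`

`T : Tb IN N` is a smooth tube `τ : Circle × ℂ → N` in a three-manifold, `v : ℝ → ℤ × ℤ` the rod structure
(`v x = ± a` along a rod of slope `a`, `v c = 0` at a vertex).  `X T v` is glued from
* the exterior chart `(N ∖ core) × ℝ`,
* the rod charts `(a, b)` on `Ur v a = {ζ ≠ 0 ∨ x ∈ Jr v a} ⊆ (Circle × ℂ) × ℝ`,
* the vertex charts `(a, b, c)` on `Uv v a b c = {z₁ z₂ ≠ 0 ∨ tm c z ∈ Jv v a b c} ⊆ ℂ × ℂ`,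
for ALL bases `(a, b)` and ALL centres `c`.
-/

set_option autoImplicit false
set_option linter.unusedSectionVars false

open Set Filter Topology Function
open scoped ContDiff Manifold ComplexConjugate

noncomputable section

namespace Crest.Agent.X212.Rod53

open Crest.Agent.X212.Glue52

/-- Euclidean four-space -/
abbrev E4 : Type := EuclideanSpace ℝ (Fin 4)

/-- the rods of slope `± a` -/
def Jr (v : ℝ → Z2) (a : Z2) : Set ℝ := interior {x | PM (v x) a}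

/-- the part of the axis that looks like a vertex `(a, b)` at `c` -/
def Jv (v : ℝ → Z2) (a b : Z2) (c : ℝ) : Set ℝ :=
  interior {x | (x < c → PM (v x) a) ∧ (x = c → v x = 0) ∧ (c < x → PM (v x) b)}

/-- time in a vertex chart -/
def tm (c : ℝ) (z : ℂ × ℂ) : ℝ := c + (‖z.1‖ ^ 2 - ‖z.2‖ ^ 2)

/-- the domain of a rod chart -/
def Ur (v : ℝ → Z2) (a : Z2) : Set ((Circle × ℂ) × ℝ) := {w | w.1.2 ≠ 0 ∨ w.2 ∈ Jr v a}

/-- the domain of a vertex chart -/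
def Uv (v : ℝ → Z2) (a b : Z2) (c : ℝ) : Set (ℂ × ℂ) :=
  {z | (z.1 ≠ 0 ∧ z.2 ≠ 0) ∨ tm c z ∈ Jv v a b c}

/-- vertex chart → rod chart `(b, a)` of the right rod, on `z₁ ≠ 0` -/
def hR (c : ℝ) (z : ℂ × ℂ) : (Circle × ℂ) × ℝ := ((hyp z).1, tm c z)

/-- vertex chart → rod chart `(a, b)` of the left rod, on `z₂ ≠ 0` -/
def hL (c : ℝ) (z : ℂ × ℂ) : (Circle × ℂ) × ℝ := ((hyp z.swap).1, tm c z)

section Dom

variable {v : ℝ → Z2} {a b : Z2} {c x : ℝ}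

theorem Jr.pm (h : x ∈ Jr v a) : PM (v x) a := interior_subset (s := {x | PM (v x) a}) h

theorem mem_Jr : x ∈ Jr v a ↔ ∀ᶠ y in 𝓝 x, PM (v y) a := mem_interior_iff_mem_nhds

theorem mem_Jv : x ∈ Jv v a b c ↔
    ∀ᶠ y in 𝓝 x, (y < c → PM (v y) a) ∧ (y = c → v y = 0) ∧ (c < y → PM (v y) b) :=
  mem_interior_iff_mem_nhds

theorem Jr_congr {a' : Z2} (h : PM a a') : Jr v a = Jr v a' := by
  unfold Jr
  congr 1
  ext x
  exact ⟨fun e => PM.trans e h, fun e => PM.trans e h.symm⟩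

theorem Jv.left (h : x ∈ Jv v a b c) (hx : x < c) : x ∈ Jr v a := by
  rw [mem_Jr]
  filter_upwards [mem_Jv.1 h, Iio_mem_nhds hx] with y h1 h2 using h1.1 h2

theorem Jv.right (h : x ∈ Jv v a b c) (hx : c < x) : x ∈ Jr v b := by
  rw [mem_Jr]
  filter_upwards [mem_Jv.1 h, Ioi_mem_nhds hx] with y h1 h2 using h1.2.2 h2

theorem Jv.zero (h : c ∈ Jv v a b c) : v c = 0 := (mem_Jv.1 h).self_of_nhds.2.1 rfl

theorem Jv.of_left (h : x ∈ Jr v a) (hx : x < c) : x ∈ Jv v a b c := by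
  rw [mem_Jv]
  filter_upwards [mem_Jr.1 h, Iio_mem_nhds hx] with y h1 h2
  exact ⟨fun _ => h1, fun e => absurd e (ne_of_lt h2), fun e => absurd e (not_lt.2 (le_of_lt h2))⟩

theorem Jv.of_right (h : x ∈ Jr v b) (hx : c < x) : x ∈ Jv v a b c := by
  rw [mem_Jv]
  filter_upwards [mem_Jr.1 h, Ioi_mem_nhds hx] with y h1 h2
  exact ⟨fun e => absurd e (not_lt.2 (le_of_lt h2)), fun e => absurd e (ne_of_gt h2), fun _ => h1⟩

theorem Jv.pm {a' b' : Z2} (h : c ∈ Jv v a b c) (h' : c ∈ Jv v a' b' c) : PM a' a ∧ PM b' b := by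
  have k := (mem_Jv.1 h).and (mem_Jv.1 h')
  obtain ⟨y, y1, y2⟩ := ((k.filter_mono nhdsWithin_le_nhds).and (self_mem_nhdsWithin (s := Iio c))).exists
  obtain ⟨w, w1, w2⟩ := ((k.filter_mono nhdsWithin_le_nhds).and (self_mem_nhdsWithin (s := Ioi c))).exists
  exact ⟨(y1.2.1 y2).symm.trans (y1.1.1 y2), (w1.2.2.2 w2).symm.trans (w1.1.2.2 w2)⟩

theorem continuous_tm (c : ℝ) : Continuous (tm c) := by unfold tm; fun_prop

theorem isOpen_Ur : IsOpen (Ur v a) :=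
  (isOpen_ne.preimage (continuous_snd.comp continuous_fst)).union
    (isOpen_interior.preimage continuous_snd)

theorem isOpen_Uv : IsOpen (Uv v a b c) :=
  ((isOpen_ne.preimage continuous_fst).inter (isOpen_ne.preimage continuous_snd)).union
    (isOpen_interior.preimage (continuous_tm c))

theorem hR_ne {z : ℂ × ℂ} (h : z.1 ≠ 0) : (hR c z).1.2 = 0 ↔ z.2 = 0 := hyp_ne h
theorem hL_ne {z : ℂ × ℂ} (h : z.2 ≠ 0) : (hL c z).1.2 = 0 ↔ z.1 = 0 := hyp_ne (z := z.swap) h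

theorem hR_mem {z : ℂ × ℂ} (hz : z ∈ Uv v a b c) (h : z.1 ≠ 0) : hR c z ∈ Ur v b := by
  by_cases h2 : z.2 = 0
  · refine Or.inr (Jv.right (hz.resolve_left fun e => e.2 h2) ?_)
    have := norm_pos_iff.2 h
    simp only [hR, tm, h2, norm_zero]
    nlinarith
  · exact Or.inl fun e => h2 ((hR_ne h).1 e)

theorem hL_mem {z : ℂ × ℂ} (hz : z ∈ Uv v a b c) (h : z.2 ≠ 0) : hL c z ∈ Ur v a := by
  by_cases h2 : z.1 = 0
  · refine Or.inr (Jv.left (hz.resolve_left fun e => e.1 h2) ?_)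
    have := norm_pos_iff.2 h
    simp only [hL, tm, h2, norm_zero]
    nlinarith
  · exact Or.inl fun e => h2 ((hL_ne h).1 e)

theorem ld_aff (c s : ℝ) (hs : s * s = 1) : IsLocalDiffeomorph 𝓘(ℝ, ℝ) 𝓘(ℝ, ℝ) ∞ (fun t : ℝ => c + s * t) :=
  (diffeoOf (fun t : ℝ => c + s * t) (fun t : ℝ => s * (t - c)) (ContDiff.contMDiff (by fun_prop)) (ContDiff.contMDiff (by fun_prop))
    (fun t => by linear_combination t * hs) fun t => by linear_combination (t - c) * hs).isLocalDiffeomorph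

theorem ld_hR {z : ℂ × ℂ} (h : z.1 ≠ 0) : IsLocalDiffeomorphAt IV IR ∞ (hR c) z := by
  refine ld_congr ((ld_hyp h).comp _ _ (ld_prodMap_at (ld_id _) (ld_aff c 1 (one_mul 1) _))) ?_
  exact Eventually.of_forall fun z => Prod.ext rfl (by simp [hR, tm, hyp])

theorem ld_hL {z : ℂ × ℂ} (h : z.2 ≠ 0) : IsLocalDiffeomorphAt IV IR ∞ (hL c) z := by
  refine ld_congr ((ld_clm (ContinuousLinearEquiv.prodComm ℝ ℂ ℂ) z).comp _ _
    ((ld_hyp (z := z.swap) h).comp _ _ (ld_prodMap_at (ld_id _) (ld_aff c (-1) (by norm_num) _)))) ?_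
  exact Eventually.of_forall fun z => Prod.ext rfl (by simp [hL, tm, hyp])

theorem hR_inj {z z' : ℂ × ℂ} (h : z.1 ≠ 0) (h' : z'.1 ≠ 0) (e : hR c z = hR c z') : z = z' := by
  rw [← hypI_hyp h, ← hypI_hyp h']
  congr 1
  exact Prod.ext (congrArg Prod.fst e :) (add_left_cancel (congrArg Prod.snd e :))

theorem hL_inj {z z' : ℂ × ℂ} (h : z.2 ≠ 0) (h' : z'.2 ≠ 0) (e : hL c z = hL c z') : z = z' := by
  refine Prod.swap_injective (hR_inj (c := 0) h h' (Prod.ext (congrArg Prod.fst e :) ?_))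
  have : tm c z = tm c z' := congrArg Prod.snd e
  simp only [hR, tm, Prod.fst_swap, Prod.snd_swap] at this ⊢
  linarith

theorem gl_hyp (a b : Z2) {z : ℂ × ℂ} (h1 : z.1 ≠ 0) : gl b a (hyp z).1 =
    (dir z.1 ^ a.1 * dir z.2 ^ b.1,
      ((2 * ‖z.1‖ * ‖z.2‖ : ℝ) : ℂ) * (dir z.1 ^ a.2 * dir z.2 ^ b.2 : Circle)) := by
  have h3 : dir (hyp z).1.2 = dir z.2 := dir_pos_mul (by have := norm_pos_iff.2 h1; positivity) _
  rw [gl, norm_hyp, h3, mul_comm (dir z.2 ^ b.1), mul_comm (dir z.2 ^ b.2)]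
  rfl

theorem gl_hyp_swap (a b : Z2) {z : ℂ × ℂ} (h1 : z.1 ≠ 0) (h2 : z.2 ≠ 0) :
    gl a b (hyp z.swap).1 = gl b a (hyp z).1 := by
  rw [gl_hyp b a (z := z.swap) h2, gl_hyp a b h1, mul_comm (dir z.1 ^ a.1), mul_comm (dir z.1 ^ a.2),
    mul_right_comm 2 ‖z.1‖]
  rfl

end Dom

variable {EN HN : Type} [NormedAddCommGroup EN] [NormedSpace ℝ EN] [FiniteDimensional ℝ EN]
  [TopologicalSpace HN] {IN : ModelWithCorners ℝ EN HN} [IN.Boundaryless]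
  {N : Type} [TopologicalSpace N] [ChartedSpace HN N] [IsManifold IN ∞ N] [T2Space N]

variable (IN N) in
/-- a smooth tube in a three-manifold -/
structure Tb where
  τ : Circle × ℂ → N
  ld : IsLocalDiffeomorph IT IN ∞ τ
  inj : Injective τ
  dim : Module.finrank ℝ EN = 3

namespace Tb

variable (T : Tb IN N) (v : ℝ → Z2)

/-- the complement of the core -/
def Ex : Set N := {p | ∀ u, T.τ (u, 0) ≠ p}

theorem τ_mem {w : Circle × ℂ} : T.τ w ∈ T.Ex ↔ w.2 ≠ 0 :=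
  ⟨fun h e => h w.1 (by rw [← e]), fun h _ e => h (congrArg Prod.snd (T.inj e)).symm⟩

theorem isOpen_Ex : IsOpen T.Ex := by
  have : T.Ex = (range fun u => T.τ (u, 0))ᶜ := by
    ext p
    simp [Ex]
  rw [this]
  exact (isCompact_range (T.ld.contMDiff.continuous.comp (by fun_prop))).isClosed.isOpen_compl

/-- normal form in a rod chart -/
def Φr (a b : Z2) (w : (Circle × ℂ) × ℝ) : (N × ℝ) ⊕ (ℝ × Circle) :=
  if w.1.2 = 0 then .inr (w.2, w.1.1 ^ dt (v w.2) b) else .inl (T.τ (gl a b w.1), w.2)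

/-- normal form in a vertex chart -/
def Φv (a b : Z2) (c : ℝ) (z : ℂ × ℂ) : (N × ℝ) ⊕ (ℝ × Circle) :=
  if z.1 = 0 then T.Φr v a b (hL c z) else T.Φr v b a (hR c z)

variable {v} {a b : Z2} {c : ℝ}

theorem Φr_ne {w : (Circle × ℂ) × ℝ} (h : w.1.2 ≠ 0) : T.Φr v a b w = .inl (T.τ (gl a b w.1), w.2) :=
  if_neg h

theorem Φr_zero {w : (Circle × ℂ) × ℝ} (h : w.1.2 = 0) :
    T.Φr v a b w = .inr (w.2, w.1.1 ^ dt (v w.2) b) := if_pos h

theorem Φv_R {z : ℂ × ℂ} (h : z.1 ≠ 0) : T.Φv v a b c z = T.Φr v b a (hR c z) := if_neg h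

theorem Φv_L {z : ℂ × ℂ} (h : z.2 ≠ 0) : T.Φv v a b c z = T.Φr v a b (hL c z) := by
  by_cases h1 : z.1 = 0
  · exact if_pos h1
  · rw [T.Φv_R h1, T.Φr_ne fun e => h ((hR_ne h1).1 e), T.Φr_ne fun e => h1 ((hL_ne h).1 e)]
    exact congrArg (fun t => Sum.inl (T.τ t, tm c z)) (gl_hyp_swap a b h1 h).symm

theorem Φv_zero : T.Φv v a b c 0 = .inr (c, 1) := by
  rw [Φv, if_pos (show (0 : ℂ × ℂ).1 = 0 from rfl), T.Φr_zero (by simp [hL, hyp])]
  simp [hL, hyp, tm, dir_zero]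

/-- the time of a normal form -/
def tS (s : (N × ℝ) ⊕ (ℝ × Circle)) : ℝ := Sum.elim Prod.snd Prod.fst s

theorem tS_Φr (w : (Circle × ℂ) × ℝ) : tS (T.Φr v a b w) = w.2 := by
  unfold Φr
  split_ifs <;> rfl

theorem tS_Φv (z : ℂ × ℂ) : tS (T.Φv v a b c z) = tm c z := by
  unfold Φv
  split_ifs <;> exact T.tS_Φr _

theorem isRight_Φr (w : (Circle × ℂ) × ℝ) : (T.Φr v a b w).isRight ↔ w.1.2 = 0 := by
  unfold Φr
  split_ifs with h <;> simp [h]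

theorem isRight_Φv (z : ℂ × ℂ) : (T.Φv v a b c z).isRight ↔ z.1 = 0 ∨ z.2 = 0 := by
  by_cases h : z.1 = 0
  · rw [Φv, if_pos h, isRight_Φr]
    simp [hL, hyp, h]
  · rw [T.Φv_R h, isRight_Φr, hR_ne h]
    simp [h]

theorem Φr_inj (hu : Uni a b) : InjOn (T.Φr v a b) (Ur v a) := by
  intro w hw w' hw' e
  have e2 : w.2 = w'.2 := by rw [← T.tS_Φr (v := v) (a := a) (b := b) w, e, T.tS_Φr]
  have e3 : w.1.2 = 0 ↔ w'.1.2 = 0 := by rw [← T.isRight_Φr (v := v) (a := a) (b := b) w, e, T.isRight_Φr]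
  refine Prod.ext ?_ e2
  by_cases h : w.1.2 = 0
  · rw [T.Φr_zero h, T.Φr_zero (e3.1 h), ← e2] at e
    exact Prod.ext (zpow_uni_injective ((Jr.pm (hw.resolve_left fun k => k h)).uni hu)
      (congrArg Prod.snd (Sum.inr_injective e))) (h.trans (e3.1 h).symm)
  · rw [T.Φr_ne h, T.Φr_ne (mt e3.2 h)] at e
    exact gl_inj hu h (mt e3.2 h) (T.inj (congrArg Prod.fst (Sum.inl_injective e)))

theorem Φv_inj (hu : Uni a b) : InjOn (T.Φv v a b c) (Uv v a b c) := by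
  have key : ∀ z z' : ℂ × ℂ, T.Φv v a b c z = T.Φv v a b c z' →
      (z.1 = 0 → z'.1 = 0) ∧ (z.2 = 0 → z'.2 = 0) := by
    intro z z' e
    have e2 : tm c z = tm c z' := by rw [← T.tS_Φv (v := v) (a := a) (b := b) z, e, T.tS_Φv]
    have e3 : z.1 = 0 ∨ z.2 = 0 → z'.1 = 0 ∨ z'.2 = 0 := by
      rw [← T.isRight_Φv (v := v) (a := a) (b := b) (c := c) z, e, T.isRight_Φv]
      exact id
    unfold tm at e2
    constructor
    · intro h
      refine (e3 (Or.inl h)).elim id fun k => norm_eq_zero.1 ?_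
      rw [h, k, norm_zero] at e2
      nlinarith [sq_nonneg ‖z.2‖, sq_nonneg ‖z'.1‖]
    · intro h
      refine (e3 (Or.inr h)).elim (fun k => norm_eq_zero.1 ?_) id
      rw [h, k, norm_zero] at e2
      nlinarith [sq_nonneg ‖z.1‖, sq_nonneg ‖z'.2‖]
  intro z hz z' hz' e
  by_cases h1 : z.1 = 0
  · by_cases h2 : z.2 = 0
    · exact Prod.ext (h1.trans ((key _ _ e).1 h1).symm) (h2.trans ((key _ _ e).2 h2).symm)
    · have h2' : z'.2 ≠ 0 := mt (key _ _ e.symm).2 h2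
      rw [T.Φv_L h2, T.Φv_L h2'] at e
      exact hL_inj h2 h2' (T.Φr_inj hu (hL_mem hz h2) (hL_mem hz' h2') e)
  · have h1' : z'.1 ≠ 0 := mt (key _ _ e.symm).1 h1
    rw [T.Φv_R h1, T.Φv_R h1'] at e
    exact hR_inj h1 h1' (T.Φr_inj hu.symm (hR_mem hz h1) (hR_mem hz' h1') e)

theorem Φr_cj (w : (Circle × ℂ) × ℝ) : T.Φr v (-a) b w = T.Φr v a b (cj w.1, w.2) := by
  by_cases h : w.1.2 = 0
  · rw [T.Φr_zero h, T.Φr_zero (w := (cj w.1, w.2)) (cj_ne.2 h)]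
    rfl
  · rw [T.Φr_ne h, T.Φr_ne (w := (cj w.1, w.2)) (mt cj_ne.1 h), gl_cj]

theorem Φr_iv (w : (Circle × ℂ) × ℝ) : T.Φr v a (-b) w = T.Φr v a b (iv w.1, w.2) := by
  by_cases h : w.1.2 = 0
  · rw [T.Φr_zero h, T.Φr_zero (w := (iv w.1, w.2)) h, dt_neg_right]
    simp [iv]
  · rw [T.Φr_ne h, T.Φr_ne (w := (iv w.1, w.2)) h, gl_iv]

theorem Φr_tw (m : ℤ) {w : (Circle × ℂ) × ℝ} (hw : w ∈ Ur v a) :
    T.Φr v a (b + m • a) w = T.Φr v a b (tw m w.1, w.2) := by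
  by_cases h : w.1.2 = 0
  · rw [T.Φr_zero h, T.Φr_zero (w := (tw m w.1, w.2)) (tw_ne.2 h), dt_add_smul,
      (Jr.pm (hw.resolve_left fun k => k h)).dt_eq, mul_zero, add_zero]
    rfl
  · rw [T.Φr_ne h, T.Φr_ne (w := (tw m w.1, w.2)) (mt tw_ne.1 h), gl_tw _ _ _ h]

/-- two rod charts of the same slope differ by a diffeomorphism of the solid torus -/
theorem Φr_change {a' b' : Z2} (hu : Uni a b) (hu' : Uni a' b') (h : PM a' a) :
    ∃ k : Circle × ℂ → Circle × ℂ, IsLocalDiffeomorph IT IT ∞ k ∧ (∀ w, (k w).2 = 0 ↔ w.2 = 0) ∧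
      ∀ w ∈ Ur v a, T.Φr v a' b' w = T.Φr v a b (k w.1, w.2) := by
  obtain ⟨m, hm⟩ := hu.compl (h.symm.uni hu')
  have h1 : ∃ k : Circle × ℂ → Circle × ℂ, IsLocalDiffeomorph IT IT ∞ k ∧
      (∀ w, (k w).2 = 0 ↔ w.2 = 0) ∧ ∀ w ∈ Ur v a, T.Φr v a b' w = T.Φr v a b (k w.1, w.2) := by
    rcases hm with rfl | rfl
    · exact ⟨tw m, ld_tw m, fun _ => tw_ne, fun w hw => T.Φr_tw m hw⟩
    · exact ⟨tw m ∘ iv, ld_comp (ld_tw m) ld_iv, fun _ => tw_ne, fun w hw =>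
        (T.Φr_iv w).trans (T.Φr_tw m (w := (iv w.1, w.2)) hw)⟩
  obtain ⟨k, k1, k2, k3⟩ := h1
  rcases h with rfl | rfl
  · exact ⟨k, k1, k2, k3⟩
  · exact ⟨k ∘ cj, ld_comp k1 ld_cj, fun _ => (k2 _).trans cj_ne, fun w hw =>
      (T.Φr_cj w).trans (k3 (cj w.1, w.2) (hw.imp_left (mt cj_ne.1)))⟩

theorem Φv_cj1 (z : ℂ × ℂ) : T.Φv v (-a) b c z = T.Φv v a b c (conj z.1, z.2) := by
  by_cases h : z.1 = 0
  · rw [Φv, Φv, if_pos h, if_pos (by simpa using h), Φr_cj]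
    congr 1
    simp [hL, hyp, tm, cj, map_ofNat]
  · rw [T.Φv_R h, T.Φv_R (by simpa using h), Φr_iv]
    congr 1
    simp [hR, hyp, tm, iv, dir_conj]

theorem Φv_cj2 (z : ℂ × ℂ) : T.Φv v a (-b) c z = T.Φv v a b c (z.1, conj z.2) := by
  by_cases h : z.1 = 0
  · rw [Φv, Φv, if_pos h, if_pos h, Φr_iv]
    congr 1
    simp [hL, hyp, tm, iv, dir_conj]
  · rw [T.Φv_R h, T.Φv_R (z := (z.1, conj z.2)) h, Φr_cj]
    congr 1
    simp [hR, hyp, tm, cj, map_ofNat]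

theorem rl_rod_ext (hu : Uni a b) {w : (Circle × ℂ) × ℝ} (h : w.1.2 ≠ 0) :
    Rl IR (IN.prod 𝓘(ℝ, ℝ)) (T.Φr v a b) Sum.inl w (T.τ (gl a b w.1), w.2) := by
  refine ⟨Prod.map (T.τ ∘ gl a b) id, ld_prodMap_at ((ld_gl hu h).comp _ _ (T.ld _)) (ld_id _), rfl, ?_⟩
  filter_upwards [(isOpen_ne.preimage (continuous_snd.comp continuous_fst)).mem_nhds h] with y hy
  exact (T.Φr_ne hy).symm

theorem rl_R {z : ℂ × ℂ} (h : z.1 ≠ 0) : Rl IV IR (T.Φv v a b c) (T.Φr v b a) z (hR c z) := by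
  refine ⟨hR c, ld_hR h, rfl, ?_⟩
  filter_upwards [(isOpen_ne.preimage continuous_fst).mem_nhds h] with y hy using (T.Φv_R hy).symm

theorem rl_L {z : ℂ × ℂ} (h : z.2 ≠ 0) : Rl IV IR (T.Φv v a b c) (T.Φr v a b) z (hL c z) := by
  refine ⟨hL c, ld_hL h, rfl, ?_⟩
  filter_upwards [(isOpen_ne.preimage continuous_snd).mem_nhds h] with y hy using (T.Φv_L hy).symm

theorem rl_rod_rod {a' b' : Z2} (hu : Uni a b) (hu' : Uni a' b') (h : PM a' a)
    {w w' : (Circle × ℂ) × ℝ} (hw : w ∈ Ur v a) (hw' : w' ∈ Ur v a)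
    (e : T.Φr v a' b' w' = T.Φr v a b w) : Rl IR IR (T.Φr v a' b') (T.Φr v a b) w' w := by
  obtain ⟨k, k1, k2, k3⟩ := T.Φr_change (v := v) hu hu' h
  refine ⟨Prod.map k id, ld_prodMap_at (k1 _) (ld_id _),
    T.Φr_inj hu (x₁ := (k w'.1, w'.2)) (hw'.imp_left (mt (k2 _).1)) hw ((k3 _ hw').symm.trans e), ?_⟩
  filter_upwards [isOpen_Ur.mem_nhds hw'] with y hy using (k3 y hy).symm

theorem rl_vtx_vtx {a' b' : Z2} (h : PM a' a) (h' : PM b' b) :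
    Rl IV IV (T.Φv v a' b' c) (T.Φv v a b c) 0 0 := by
  have h1 : Rl IV IV (T.Φv v a b' c) (T.Φv v a b c) 0 0 := by
    rcases h' with rfl | rfl
    · exact Rl.refl _ _
    · exact ⟨_, ld_clm ((ContinuousLinearEquiv.refl ℝ ℂ).prodCongr Complex.conjCLE) 0, map_zero _,
        Eventually.of_forall fun z => (T.Φv_cj2 z).symm⟩
  rcases h with rfl | rfl
  · exact h1
  · exact Rl.trans (g := T.Φv v a b' c) ⟨_, ld_clm (Complex.conjCLE.prodCongr (ContinuousLinearEquiv.refl ℝ ℂ)) 0,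
      map_zero _, Eventually.of_forall fun z => (T.Φv_cj1 z).symm⟩ h1

/-- a germ is related to one of the three standard germs -/
def Good {E H M : Type} [NormedAddCommGroup E] [NormedSpace ℝ E] [TopologicalSpace H]
    (I : ModelWithCorners ℝ E H) [TopologicalSpace M] [ChartedSpace H M] (v : ℝ → Z2)
    (f : M → (N × ℝ) ⊕ (ℝ × Circle)) (p : M) : Prop :=
  (∃ s, Rl I (IN.prod 𝓘(ℝ, ℝ)) f Sum.inl p s) ∨
  (∃ a b w, Uni a b ∧ w.1.2 = 0 ∧ w.2 ∈ Jr v a ∧ Rl I IR f (T.Φr v a b) p w) ∨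
  ∃ a b c, c ∈ Jv v a b c ∧ Rl I IV f (T.Φv v a b c) p 0

theorem good_rod (hu : Uni a b) {w : (Circle × ℂ) × ℝ} (hw : w ∈ Ur v a) :
    T.Good IR v (T.Φr v a b) w := by
  by_cases h : w.1.2 = 0
  · exact Or.inr (Or.inl ⟨a, b, w, hu, h, hw.resolve_left fun k => k h, Rl.refl _ _⟩)
  · exact Or.inl ⟨_, T.rl_rod_ext hu h⟩

section

variable {E H M : Type} [NormedAddCommGroup E] [NormedSpace ℝ E] [TopologicalSpace H]
  {I : ModelWithCorners ℝ E H} [TopologicalSpace M] [ChartedSpace H M]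
  {E' H' M' : Type} [NormedAddCommGroup E'] [NormedSpace ℝ E'] [TopologicalSpace H']
  {I' : ModelWithCorners ℝ E' H'} [TopologicalSpace M'] [ChartedSpace H' M']
  {f : M → (N × ℝ) ⊕ (ℝ × Circle)} {g : M' → (N × ℝ) ⊕ (ℝ × Circle)} {p : M} {q : M'}

theorem Good.of_rl {T : Tb IN N} (h : Rl I I' f g p q) (k : T.Good I' v g q) : T.Good I v f p := by
  rcases k with ⟨s, k⟩ | ⟨a, b, w, k1, k2, k3, k⟩ | ⟨a, b, c, k1, k⟩
  · exact Or.inl ⟨s, h.trans k⟩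
  · exact Or.inr (Or.inl ⟨a, b, w, k1, k2, k3, h.trans k⟩)
  · exact Or.inr (Or.inr ⟨a, b, c, k1, h.trans k⟩)

theorem Good.rl {T : Tb IN N} (h : T.Good I v f p) (k : T.Good I' v g q) (e : f p = g q) :
    Rl I I' f g p q := by
  rcases h with ⟨s, h⟩ | ⟨a, b, w, h1, h2, h3, h⟩ | ⟨a, b, c, h1, h⟩ <;>
    rcases k with ⟨s', k⟩ | ⟨a', b', w', k1, k2, k3, k⟩ | ⟨a', b', c', k1, k⟩ <;>
    have e' := h.eq.symm.trans (e.trans k.eq)
  · rw [Sum.inl_injective e'] at h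
    exact h.trans k.symm
  · rw [T.Φr_zero k2] at e'
    cases e'
  · rw [T.Φv_zero] at e'
    cases e'
  · rw [T.Φr_zero h2] at e'
    cases e'
  · have e2 : w.2 = w'.2 := by rw [← T.tS_Φr (v := v) (a := a) (b := b) w, e', T.tS_Φr]
    have pm : PM a a' := (Jr.pm h3).symm.trans (e2 ▸ Jr.pm k3)
    exact (h.trans (T.rl_rod_rod k1 h1 pm (Or.inr k3) (Or.inr (e2 ▸ k3)) e')).trans k.symm
  · rw [T.Φr_zero h2, T.Φv_zero] at e'
    have e2 : w.2 = c' := congrArg Prod.fst (Sum.inr_injective e')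
    exact absurd (e2 ▸ Jv.zero k1) ((Jr.pm h3).ne_zero h1)
  · rw [T.Φv_zero] at e'
    cases e'
  · rw [T.Φr_zero k2, T.Φv_zero] at e'
    have e2 : c = w'.2 := congrArg Prod.fst (Sum.inr_injective e')
    exact absurd (e2 ▸ Jv.zero h1) ((Jr.pm k3).ne_zero k1)
  · rw [T.Φv_zero, T.Φv_zero] at e'
    obtain rfl : c = c' := congrArg Prod.fst (Sum.inr_injective e')
    exact (h.trans (T.rl_vtx_vtx (Jv.pm k1 h1).1 (Jv.pm k1 h1).2)).trans k.symm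

end

theorem good_vtx (hu : Uni a b) {z : ℂ × ℂ} (hz : z ∈ Uv v a b c) : T.Good IV v (T.Φv v a b c) z := by
  by_cases h1 : z.1 = 0
  · by_cases h2 : z.2 = 0
    · obtain rfl : z = 0 := Prod.ext h1 h2
      refine Or.inr (Or.inr ⟨a, b, c, ?_, Rl.refl _ _⟩)
      simpa [tm] using hz.resolve_left fun k => k.1 rfl
    · exact Good.of_rl (T.rl_L h2) (T.good_rod hu (hL_mem hz h2))
  · exact Good.of_rl (T.rl_R h1) (T.good_rod hu.symm (hR_mem hz h1))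

end Tb

/-- the index set of the charts -/
inductive Ix : Type
  | ext : Ix
  | rod (a b : Z2) (hu : Uni a b) : Ix
  | vtx (a b : Z2) (hu : Uni a b) (c : ℝ) : Ix

namespace Tb

variable (T : Tb IN N) (v : ℝ → Z2)

/-- the ambient pieces -/
def pc : Ix → Pc E4
  | .ext => Pc.of (IN.prod 𝓘(ℝ, ℝ)) (N × ℝ) (linE 4 _ (by simp [T.dim]))
  | .rod _ _ _ => Pc.of IR ((Circle × ℂ) × ℝ) (linE 4 _ (by simp))
  | .vtx _ _ _ _ => Pc.of IV (ℂ × ℂ) (linE 4 _ (by simp))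

/-- the domains -/
def dom : ∀ i, Set (T.pc i).M
  | .ext => T.Ex ×ˢ (univ : Set ℝ)
  | .rod a _ _ => Ur v a
  | .vtx a b _ c => Uv v a b c

/-- the normal forms -/
def Φ : ∀ i, (T.pc i).M → (N × ℝ) ⊕ (ℝ × Circle)
  | .ext => Sum.inl
  | .rod a b _ => T.Φr v a b
  | .vtx a b _ c => T.Φv v a b c

theorem good : ∀ i, ∀ p ∈ T.dom v i, T.Good (T.pc i).I v (T.Φ v i) p
  | .ext, p, _ => Or.inl ⟨p, Rl.refl _ _⟩
  | .rod _ _ hu, _, hp => T.good_rod hu hp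
  | .vtx _ _ hu _, _, hp => T.good_vtx hu hp

/-- the gluing data of the rod manifold -/
def go : GO E4 Ix ((N × ℝ) ⊕ (ℝ × Circle)) where
  P := T.pc
  U := T.dom v
  op
    | .ext => T.isOpen_Ex.prod isOpen_univ
    | .rod _ _ _ => isOpen_Ur
    | .vtx _ _ _ _ => isOpen_Uv
  ne
    | .ext => ⟨(T.τ (1, 1), 0), T.τ_mem.2 one_ne_zero, mem_univ _⟩
    | .rod _ _ _ => ⟨((1, 1), 0), Or.inl one_ne_zero⟩
    | .vtx _ _ _ _ => ⟨(1, 1), Or.inl ⟨one_ne_zero, one_ne_zero⟩⟩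
  Φ := T.Φ v
  inj
    | .ext => Sum.inl_injective.injOn
    | .rod _ _ hu => T.Φr_inj hu
    | .vtx _ _ hu _ => T.Φv_inj hu
  et i j p hp q hq e := (T.good v i p hp).rl (T.good v j q hq) e

end Tb

/-- THE ROD MANIFOLD of the tube `T` and the rod structure `v` -/
def X (T : Tb IN N) (v : ℝ → Z2) : Type := (T.go v).M

instance (T : Tb IN N) (v : ℝ → Z2) : TopologicalSpace (X T v) :=
  inferInstanceAs (TopologicalSpace (T.go v).M)
instance (T : Tb IN N) (v : ℝ → Z2) : ChartedSpace E4 (X T v) :=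
  inferInstanceAs (ChartedSpace E4 (T.go v).M)
instance (T : Tb IN N) (v : ℝ → Z2) : IsManifold (𝓡 4) ∞ (X T v) :=
  inferInstanceAs (IsManifold 𝓘(ℝ, E4) ∞ (T.go v).M)

end Crest.Agent.X212.Rod53
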