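import Crest.Agent.X212.Glue52.Cov
import Crest.Agent.X212.Glue52.More

/-!
# X212 / Rod53, part GO (helper53): gluing OPEN SUBSETS of manifolds along a normal form

* `Rl I J f g p q` : near `p`, `f = g ∘ h` for a local diffeomorphism `h` with `h p = q` (an equivalence relation);
* `GO V ι S` : ambient manifolds `P i`, open sets `U i`, maps `Φ i` to a set `S`, injective on `U i`, related by `Rl`;
* `G.M`, the charts `G.ch i` (partial diffeomorphisms with source `U i`), `G.nf : G.M → S` injective,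
  tests for continuity / smoothness / local diffeomorphisms, `G.lift`.
-/

set_option autoImplicit false
set_option linter.unusedSectionVars false

open Set Filter Topology Function
open scoped ContDiff Manifold

noncomputable section

namespace Crest.Agent.X212.Rod53

open Crest.Agent.X212.Glue52

section Rl

variable {E : Type*} [NormedAddCommGroup E] [NormedSpace ℝ E] {H : Type*} [TopologicalSpace H]
  {I : ModelWithCorners ℝ E H} {M : Type*} [TopologicalSpace M] [ChartedSpace H M]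
  {E' : Type*} [NormedAddCommGroup E'] [NormedSpace ℝ E'] {H' : Type*} [TopologicalSpace H']
  {J : ModelWithCorners ℝ E' H'} {N : Type*} [TopologicalSpace N] [ChartedSpace H' N]
  {E'' : Type*} [NormedAddCommGroup E''] [NormedSpace ℝ E''] {H'' : Type*} [TopologicalSpace H'']
  {K : ModelWithCorners ℝ E'' H''} {P : Type*} [TopologicalSpace P] [ChartedSpace H'' P]
  {E₃ : Type*} [NormedAddCommGroup E₃] [NormedSpace ℝ E₃] {H₃ : Type*} [TopologicalSpace H₃]
  {L : ModelWithCorners ℝ E₃ H₃} {Q : Type*} [TopologicalSpace Q] [ChartedSpace H₃ Q]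
  {S : Type*}

variable (I J) in
/-- germs of `f` at `p` and of `g` at `q` differ by a local diffeomorphism -/
def Rl (f : M → S) (g : N → S) (p : M) (q : N) : Prop :=
  ∃ h : M → N, IsLocalDiffeomorphAt I J ∞ h p ∧ h p = q ∧ g ∘ h =ᶠ[𝓝 p] f

theorem Rl.refl (f : M → S) (p : M) : Rl I I f f p p := ⟨id, ld_id p, rfl, EventuallyEq.rfl⟩

theorem Rl.eq {f : M → S} {g : N → S} {p : M} {q : N} (h : Rl I J f g p q) : f p = g q := by
  obtain ⟨h, -, rfl, e⟩ := h
  exact e.self_of_nhds.symm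

theorem Rl.trans {f : M → S} {g : N → S} {k : P → S} {p : M} {q : N} {r : P}
    (h : Rl I J f g p q) (h' : Rl J K g k q r) : Rl I K f k p r := by
  obtain ⟨h, h1, rfl, e⟩ := h
  obtain ⟨h', h2, rfl, e'⟩ := h'
  refine ⟨h' ∘ h, h1.comp K P h2, rfl, ?_⟩
  filter_upwards [e, h1.contMDiffAt.continuousAt.eventually e'] with z z1 z2
  exact z2.trans z1

theorem Rl.symm {f : M → S} {g : N → S} {p : M} {q : N} (h : Rl I J f g p q) : Rl J I g f q p := by
  obtain ⟨h, h1, rfl, e⟩ := h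
  have h0 : h1.localInverse (h p) = p := h1.localInverse_left_inv h1.localInverse_mem_target
  refine ⟨h1.localInverse, h1.localInverse_isLocalDiffeomorphAt, h0, ?_⟩
  have c : Tendsto h1.localInverse (𝓝 (h p)) (𝓝 p) := by
    have := h1.localInverse_contMDiffAt.continuousAt
    rwa [ContinuousAt, h0] at this
  filter_upwards [c.eventually e, h1.localInverse_eventuallyEq_right] with z z1 z2
  exact z1.symm.trans (congrArg g z2)

theorem ld_pd (φ : PartialDiffeomorph I J M N ∞) {x : M} (hx : x ∈ φ.source) :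
    IsLocalDiffeomorphAt I J ∞ φ x := φ.isLocalDiffeomorphAt _ _ _ hx

theorem Rl.exists_pd {f : M → S} {g : N → S} {p : M} {q : N} (h : Rl I J f g p q) :
    ∃ φ : PartialDiffeomorph I J M N ∞, p ∈ φ.source ∧ φ p = q ∧ ∀ z ∈ φ.source, f z = g (φ z) := by
  obtain ⟨k, ⟨φ, k1, k2⟩, k3, k4⟩ := h
  obtain ⟨s, hs, so, ps⟩ := eventually_nhds_iff.1 k4
  exact ⟨pdRestr φ s so, ⟨k1, ps⟩, (k2 k1).symm.trans k3, fun z hz =>
    (hs z hz.2).symm.trans (congrArg g (k2 hz.1))⟩

theorem Rl.val {U : TopologicalSpace.Opens M} {W : TopologicalSpace.Opens N} {f : M → S} {g : N → S}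
    {p : U} {q : W} (h : Rl I J f g p.1 q.1) :
    Rl I J (fun z : U => f z.1) (fun z : W => g z.1) p q :=
  (Rl.trans (J := I) ⟨Subtype.val, ld_val _ p, rfl, EventuallyEq.rfl⟩ h).trans
    (Rl.symm (J := J) ⟨Subtype.val, ld_val _ q, rfl, EventuallyEq.rfl⟩)

/-- a map that is an injective local diffeomorphism on an open set, as a partial diffeomorphism -/
def pdOn {f : M → N} {s : Set M} (hs : IsOpen s) (hn : s.Nonempty)
    (hf : ∀ x ∈ s, IsLocalDiffeomorphAt I J ∞ f x) (hi : InjOn f s) :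
    PartialDiffeomorph I J M N ∞ :=
  haveI : Nonempty M := ⟨hn.choose⟩
  { toPartialEquiv := hi.toPartialEquiv f s
    open_source := hs
    open_target := by
      rw [isOpen_iff_mem_nhds]
      rintro _ ⟨x, hx, rfl⟩
      obtain ⟨φ, h1, h2⟩ := hf x hx
      have h3 := φ.toOpenPartialHomeomorph.image_mem_nhds h1
        (inter_mem (hs.mem_nhds hx) (φ.open_source.mem_nhds h1))
      rw [h2 h1]
      refine mem_of_superset h3 ?_
      rintro _ ⟨z, hz, rfl⟩
      exact ⟨z, hz.1, h2 hz.2⟩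
    contMDiffOn_toFun := fun x hx => (hf x hx).contMDiffAt.contMDiffWithinAt
    contMDiffOn_invFun := by
      rintro _ ⟨x, hx, rfl⟩
      refine (contMDiffAt_of_comp (hf x hx) ?_).contMDiffWithinAt
      refine contMDiffAt_id.congr_of_eventuallyEq ?_
      filter_upwards [hs.mem_nhds hx] with z hz
      exact (hi.toPartialEquiv f s).left_inv hz }

@[simp] theorem pdOn_source {f : M → N} {s : Set M} (hs : IsOpen s) (hn : s.Nonempty)
    (hf : ∀ x ∈ s, IsLocalDiffeomorphAt I J ∞ f x) (hi : InjOn f s) :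
    (pdOn hs hn hf hi).source = s := rfl

@[simp] theorem pdOn_target {f : M → N} {s : Set M} (hs : IsOpen s) (hn : s.Nonempty)
    (hf : ∀ x ∈ s, IsLocalDiffeomorphAt I J ∞ f x) (hi : InjOn f s) :
    (pdOn hs hn hf hi).target = f '' s := rfl

@[simp] theorem pdOn_apply {f : M → N} {s : Set M} (hs : IsOpen s) (hn : s.Nonempty)
    (hf : ∀ x ∈ s, IsLocalDiffeomorphAt I J ∞ f x) (hi : InjOn f s) (x : M) :
    pdOn hs hn hf hi x = f x := rfl

end Rl

variable {V : Type} [NormedAddCommGroup V] [NormedSpace ℝ V] {ι S : Type}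

/-- open subsets of manifolds glued along a normal form with values in the set `S` -/
structure GO (V : Type) [NormedAddCommGroup V] [NormedSpace ℝ V] (ι S : Type) : Type 1 where
  P : ι → Pc V
  U : ∀ i, Set (P i).M
  op : ∀ i, IsOpen (U i)
  ne : ∀ i, (U i).Nonempty
  Φ : ∀ i, (P i).M → S
  inj : ∀ i, InjOn (Φ i) (U i)
  et : ∀ i j, ∀ p ∈ U i, ∀ q ∈ U j, Φ i p = Φ j q → Rl (P i).I (P j).I (Φ i) (Φ j) p q

namespace GO

variable (G : GO V ι S)

/-- the open set as a manifold -/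
abbrev O (i : ι) : TopologicalSpace.Opens (G.P i).M := ⟨G.U i, G.op i⟩

/-- the gluing data -/
def gd : GD V ι where
  P i := Pc.of (G.P i).I (G.O i) (G.P i).L
  r := Setoid.ker fun a => G.Φ a.1 a.2.1
  etale i j p q e := (Rl.val (U := G.O i) (W := G.O j) (G.et i j p.1 p.2 q.1 q.2 e)).exists_pd
  inj i _ := ⟨univ, univ_mem, fun z _ w _ e => Subtype.ext (G.inj i z.2 w.2 e)⟩

/-- the glued manifold -/
def M : Type := G.gd.M

instance : TopologicalSpace G.M := inferInstanceAs (TopologicalSpace G.gd.M)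
instance : ChartedSpace V G.M := inferInstanceAs (ChartedSpace V G.gd.M)
instance : IsManifold 𝓘(ℝ, V) ∞ G.M := inferInstanceAs (IsManifold 𝓘(ℝ, V) ∞ G.gd.M)

open Classical in
/-- the parametrisation by the `i`-th piece (junk outside `U i`) -/
def pm (i : ι) (p : (G.P i).M) : G.M :=
  if h : p ∈ G.U i then G.gd.inc i (⟨p, h⟩ : G.O i)
  else G.gd.inc i (⟨(G.ne i).choose, (G.ne i).choose_spec⟩ : G.O i)

theorem pm_of_mem {i : ι} {p : (G.P i).M} (h : p ∈ G.U i) :
    G.pm i p = G.gd.inc i (⟨p, h⟩ : G.O i) := dif_pos h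

theorem pm_eq {i j : ι} {p : (G.P i).M} {q : (G.P j).M} (hp : p ∈ G.U i) (hq : q ∈ G.U j) :
    G.pm i p = G.pm j q ↔ G.Φ i p = G.Φ j q := by
  rw [G.pm_of_mem hp, G.pm_of_mem hq]
  exact G.gd.inc_eq_inc

theorem ld_pm {i : ι} {p : (G.P i).M} (hp : p ∈ G.U i) :
    IsLocalDiffeomorphAt (G.P i).I 𝓘(ℝ, V) ∞ (G.pm i) p := by
  refine ld_of_comp (ld_val (G.O i) ⟨p, hp⟩) (ld_congr (G.gd.ld i ⟨p, hp⟩) ?_)
  exact Eventually.of_forall fun z => G.pm_of_mem z.2

theorem surj (x : G.M) : ∃ i, ∃ p ∈ G.U i, G.pm i p = x := by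
  obtain ⟨i, p, rfl⟩ := G.gd.surj x
  exact ⟨i, p.1, p.2, G.pm_of_mem p.2⟩

/-- the `i`-th piece as a partial diffeomorphism with source `U i` -/
def ch (i : ι) : PartialDiffeomorph (G.P i).I 𝓘(ℝ, V) (G.P i).M G.M ∞ :=
  pdOn (G.op i) (G.ne i) (fun _ hp => G.ld_pm hp) fun _ hp _ hq e => G.inj i hp hq ((G.pm_eq hp hq).1 e)

@[simp] theorem ch_source (i : ι) : (G.ch i).source = G.U i := rfl
@[simp] theorem ch_target (i : ι) : (G.ch i).target = G.pm i '' G.U i := rfl
@[simp] theorem ch_apply (i : ι) (p : (G.P i).M) : G.ch i p = G.pm i p := rfl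

/-- maps out of the glued manifold -/
def lift {Z : Sort*} (g : ∀ i, (G.P i).M → Z)
    (h : ∀ i j, ∀ p ∈ G.U i, ∀ q ∈ G.U j, G.Φ i p = G.Φ j q → g i p = g j q) : G.M → Z :=
  G.gd.lift (fun i p => g i p.1) fun i j p q e => h i j p.1 p.2 q.1 q.2 e

theorem lift_pm {Z : Sort*} (g : ∀ i, (G.P i).M → Z)
    (h : ∀ i j, ∀ p ∈ G.U i, ∀ q ∈ G.U j, G.Φ i p = G.Φ j q → g i p = g j q) {i : ι}
    {p : (G.P i).M} (hp : p ∈ G.U i) : G.lift g h (G.pm i p) = g i p := by
  rw [G.pm_of_mem hp]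
  rfl

/-- the normal form of a point -/
def nf : G.M → S := G.lift G.Φ fun _ _ _ _ _ _ e => e

theorem nf_pm {i : ι} {p : (G.P i).M} (hp : p ∈ G.U i) : G.nf (G.pm i p) = G.Φ i p :=
  G.lift_pm _ _ hp

theorem nf_injective : Injective G.nf := fun x y e => by
  obtain ⟨i, p, hp, rfl⟩ := G.surj x
  obtain ⟨j, q, hq, rfl⟩ := G.surj y
  rw [G.nf_pm hp, G.nf_pm hq] at e
  exact (G.pm_eq hp hq).2 e

theorem continuous_of {Z : Type*} [TopologicalSpace Z] {g : G.M → Z}
    (h : ∀ i, ContinuousOn (g ∘ G.pm i) (G.U i)) : Continuous g := by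
  refine G.gd.continuous_iff.2 fun i => ?_
  refine ((h i).comp_continuous continuous_subtype_val fun z : G.O i => z.2).congr fun z => ?_
  exact congrArg g (G.pm_of_mem z.2)

section Out

variable {E' : Type*} [NormedAddCommGroup E'] [NormedSpace ℝ E'] {H' : Type*} [TopologicalSpace H']
  {J : ModelWithCorners ℝ E' H'} {N : Type*} [TopologicalSpace N] [ChartedSpace H' N]

theorem contMDiffAt_of {g : G.M → N} {i : ι} {p : (G.P i).M} (hp : p ∈ G.U i)
    (h : ContMDiffAt (G.P i).I J ∞ (g ∘ G.pm i) p) : ContMDiffAt 𝓘(ℝ, V) J ∞ g (G.pm i p) :=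
  contMDiffAt_of_comp (G.ld_pm hp) h

theorem contMDiff_of {g : G.M → N}
    (h : ∀ i, ∀ p ∈ G.U i, ContMDiffAt (G.P i).I J ∞ (g ∘ G.pm i) p) : ContMDiff 𝓘(ℝ, V) J ∞ g :=
  fun x => by
    obtain ⟨i, p, hp, rfl⟩ := G.surj x
    exact G.contMDiffAt_of hp (h i p hp)

theorem ld_of {g : G.M → N} {i : ι} {p : (G.P i).M} (hp : p ∈ G.U i)
    (h : IsLocalDiffeomorphAt (G.P i).I J ∞ (g ∘ G.pm i) p) :
    IsLocalDiffeomorphAt 𝓘(ℝ, V) J ∞ g (G.pm i p) := ld_of_comp (G.ld_pm hp) h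

end Out

theorem isOpen_image {i : ι} {s : Set (G.P i).M} (hs : IsOpen s) (h : s ⊆ G.U i) :
    IsOpen (G.pm i '' s) := (G.ch i).toOpenPartialHomeomorph.isOpen_image_of_subset_source hs h

theorem continuousOn_pm (i : ι) : ContinuousOn (G.pm i) (G.U i) :=
  (G.ch i).contMDiffOn_toFun.continuousOn

/-- two points of one Hausdorff piece are separated -/
theorem sep_of_piece {i : ι} [T2Space (G.P i).M] {p q : (G.P i).M} (hp : p ∈ G.U i) (hq : q ∈ G.U i)
    (h : G.pm i p ≠ G.pm i q) :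
    ∃ u w : Set G.M, IsOpen u ∧ IsOpen w ∧ G.pm i p ∈ u ∧ G.pm i q ∈ w ∧ Disjoint u w := by
  obtain ⟨u, w, uo, wo, pu, qw, d⟩ := t2_separation (show p ≠ q from fun e => h (e ▸ rfl))
  refine ⟨G.pm i '' (u ∩ G.U i), G.pm i '' (w ∩ G.U i), G.isOpen_image (uo.inter (G.op i)) inter_subset_right,
    G.isOpen_image (wo.inter (G.op i)) inter_subset_right, ⟨p, ⟨pu, hp⟩, rfl⟩, ⟨q, ⟨qw, hq⟩, rfl⟩,
    disjoint_left.2 ?_⟩
  rintro _ ⟨a, ha, rfl⟩ ⟨b, hb, e⟩
  have := G.inj i hb.2 ha.2 ((G.pm_eq hb.2 ha.2).1 e)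
  exact disjoint_left.1 d ha.1 (this ▸ hb.1)

end GO

end Crest.Agent.X212.Rod53
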