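import Crest.Agent.X212.Rod53.Mer

/-!
# X212 / Rod53, part Swp (helper53): the third filling of the meridian tube

* `ro t` : the rotation by `t π` about `-1 / 2`, cut off; `sp t`, `T.swp t` : the map of the exterior of the knot and
  its meridian that exchanges the two (for `t = ± 1`);
* `Fl.mkG` : a filling from the germ of the filling torus;
* `F.third G` : the filling `G` of `F.mer` along `(1, 0)` is the filling of `T.mer` in `N` along `(p, -q)`.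
-/

set_option autoImplicit false
set_option linter.unusedSectionVars false

open Set Filter Topology Function Metric TopologicalSpace
open scoped ContDiff Manifold ComplexConjugate

noncomputable section

namespace Crest.Agent.X212.Rod53

open Crest.Agent.X212.Glue52 Crest.Agent.X212.Cyl58

/-- the angle of the rotation -/
def roA (t : ℝ) (w : ℂ) : Circle := Circle.exp (t * Real.pi * (1 - stp 1 4 (‖w + 1 / 2‖ ^ 2)))

/-- the rotation about `-1 / 2` -/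
def ro (t : ℝ) (w : ℂ) : ℂ := (w + 1 / 2) * roA t w - 1 / 2

theorem norm_ro (t : ℝ) (w : ℂ) : ‖ro t w + 1 / 2‖ = ‖w + 1 / 2‖ := by
  rw [ro, sub_add_cancel, norm_mul, Circle.norm_coe, mul_one]

theorem ro_ro (s t : ℝ) (w : ℂ) : ro s (ro t w) = ro (t + s) w := by
  rw [ro, roA, norm_ro, ro, sub_add_cancel, mul_assoc, ← Circle.coe_mul, roA, ← Circle.exp_add, ro, roA]
  congr 4
  ring

theorem ro_zero (w : ℂ) : ro 0 w = w := by simp [ro, roA]

theorem ro_far (t : ℝ) {w : ℂ} (h : 3 ≤ ‖w‖) : ro t w = w := by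
  have h2 := norm_sub_le (w + 1 / 2) (1 / 2)
  rw [add_sub_cancel_right, show ‖(1 / 2 : ℂ)‖ = 1 / 2 by simp] at h2
  rw [ro, roA, stp_one (by norm_num) (by nlinarith)]
  simp

theorem ro_near {t : ℝ} (ht : t = 1 ∨ t = -1) {w : ℂ} (h : ‖w + 1 / 2‖ ≤ 1) : ro t w = -1 - w := by
  have : (roA t w : ℂ) = -1 := by
    rw [roA, stp_zero (by norm_num) (by nlinarith [norm_nonneg (w + 1 / 2)])]
    rcases ht with rfl | rfl <;> simp
  rw [ro, this]
  ring

theorem contDiff_ro (t : ℝ) : ContMDiff 𝓘(ℝ, ℂ) 𝓘(ℝ, ℂ) ∞ (ro t) := fun w => by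
  have h : ContMDiffAt 𝓘(ℝ, ℂ) 𝓘(ℝ, ℂ) ∞ (fun w : ℂ => w + 1 / 2) w := contMDiffAt_id.add contMDiffAt_const
  exact (cm_mul h (cm_coe ((ld_circleExp _).contMDiffAt.comp w (cm_fun (g := fun x => t * Real.pi * (1 - stp 1 4 x))
    (contDiffAt_const.mul (contDiffAt_const.sub (contDiff_stp _ _).contDiffAt)) (cm_nsq h))))).sub contMDiffAt_const

/-- the rotation as a diffeomorphism -/
def roD (t : ℝ) : ℂ ≃ₘ^∞⟮𝓘(ℝ, ℂ), 𝓘(ℝ, ℂ)⟯ ℂ :=
  diffeoOf (ro t) (ro (-t)) (contDiff_ro _) (contDiff_ro _) (fun w => by rw [ro_ro, add_neg_cancel, ro_zero])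
    fun w => by rw [ro_ro, neg_add_cancel, ro_zero]

theorem half_le {w : ℂ} (h : ‖w‖ ≤ 1 / 2) : ‖w + 1 / 2‖ ≤ 1 :=
  (norm_add_le _ _).trans (by rw [show ‖(1 / 2 : ℂ)‖ = 1 / 2 by simp]; linarith)

section

variable {t : ℝ} (ht : t = 1 ∨ t = -1)
include ht

theorem ro_small {w : ℂ} (h : ‖w‖ ≤ 1 / 2) : ro t w = -1 - w := ro_near ht (half_le h)

theorem ro_small' {w : ℂ} (h : ‖w‖ ≤ 1 / 2) : ro t (-1 - w) = w := by
  rw [ro_near ht (by rw [show -1 - w + 1 / 2 = -(w + 1 / 2) by ring, norm_neg]; exact half_le h), sub_sub_cancel]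

theorem ro_ne_zero {w : ℂ} : ro t w ≠ 0 ↔ w ≠ -1 := by
  rw [← ro_small' ht (w := 0) (by simp), sub_zero]
  exact (roD t).injective.ne_iff

theorem ro_ne_one {w : ℂ} : ro t w ≠ -1 ↔ w ≠ 0 := by
  rw [← sub_zero (-1 : ℂ), ← ro_small ht (w := 0) (by simp)]
  exact (roD t).injective.ne_iff

end

theorem pm_neg {t : ℝ} (ht : t = 1 ∨ t = -1) : -t = 1 ∨ -t = -1 := by
  rcases ht with rfl | rfl <;> simp

/-- the exchange in the model -/
def sp (t : ℝ) (z : Circle × ℂ) : Circle × ℂ := sw (dir z.2, ro t (an z))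

theorem an_sp (t : ℝ) (z : Circle × ℂ) : an (sp t z) = ro t (an z) := an_sw _

theorem sp_far (t : ℝ) {z : Circle × ℂ} (h : 3 ≤ ‖z.2‖) : sp t z = z := by
  rw [sp, ro_far t (by rwa [norm_an]), ← ws_eq, sw_ws (norm_pos_iff.1 (by linarith))]

section

variable {t : ℝ} (ht : t = 1 ∨ t = -1) {z : Circle × ℂ}
include ht

theorem sp_ne : (sp t z).2 ≠ 0 ↔ an z ≠ -1 := sw_ne.trans (ro_ne_zero ht)

theorem an_sp_ne : an (sp t z) ≠ -1 ↔ z.2 ≠ 0 := by rw [an_sp, ro_ne_one ht, an_ne]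

theorem sp_sp (h : z.2 ≠ 0) (h' : an z ≠ -1) : sp (-t) (sp t z) = z := by
  have := congrArg Prod.fst ((ws_eq _).symm.trans (ws_sw (z := (dir z.2, ro t (an z))) ((ro_ne_zero ht).2 h')))
  rw [sp, an_sp, ro_ro, add_neg_cancel, ro_zero, show dir (sp t z).2 = dir z.2 from this, ← ws_eq, sw_ws h]

theorem ld_sp (h : z.2 ≠ 0) (h' : an z ≠ -1) : IsLocalDiffeomorphAt IT IT ∞ (sp t) z := by
  have k1 : IsLocalDiffeomorphAt IT IT ∞ ws z := ld_gl uni_ws h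
  have k2 : IsLocalDiffeomorphAt IT IT ∞ (Prod.map id (ro t)) (ws z) :=
    ld_prodMap_at (Glue52.ld_id _) ((roD t).isLocalDiffeomorph _)
  have k3 : IsLocalDiffeomorphAt IT IT ∞ sw (Prod.map id (ro t) (ws z)) :=
    ld_gl uni_sw (by rw [ws_eq]; exact (ro_ne_zero ht).2 h')
  exact Glue52.ld_congr (k1.comp _ _ (k2.comp _ _ k3)) (Eventually.of_forall fun y => by
    simp only [comp_apply, ws_eq, sp, Prod.map_apply, id])

theorem sp_mtb (z : Circle × ℂ) : sp t (mtb z) = sw (z.1, sh z.2) := by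
  have := congrArg Prod.fst ((ws_eq _).symm.trans (ws_sw (z := (z.1, -1 - sh z.2)) (mer_ne _)))
  rw [sp, an_mtb, ro_small' ht (norm_sh_lt _).le, show dir (mtb z).2 = z.1 from this]

theorem sp_mtb' (h : ‖z.2‖ ≤ 1 / 4) : sp t (mtb z) = sw z := by rw [sp_mtb ht, sh_of h]

theorem sp_near (h : ‖z.2‖ ≤ 1 / 4) : sp t z = mtb (ws z) := by
  rw [sp, ro_small ht (by rw [norm_an]; linarith), mtb, ws_eq, sh_of (by rwa [norm_an])]

end

variable {EN HN : Type} [NormedAddCommGroup EN] [NormedSpace ℝ EN] [FiniteDimensional ℝ EN]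
  [TopologicalSpace HN] {IN : ModelWithCorners ℝ EN HN} [IN.Boundaryless]
  {N : Type} [TopologicalSpace N] [ChartedSpace HN N] [IsManifold IN ∞ N] [T2Space N]
  {EY HY : Type} [NormedAddCommGroup EY] [NormedSpace ℝ EY] [FiniteDimensional ℝ EY]
  [TopologicalSpace HY] {IY : ModelWithCorners ℝ EY HY} [IY.Boundaryless]
  {Y : Type} [TopologicalSpace Y] [ChartedSpace HY Y] [IsManifold IY ∞ Y] [T2Space Y]
  {EZ HZ : Type} [NormedAddCommGroup EZ] [NormedSpace ℝ EZ] [TopologicalSpace HZ]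
  {IZ : ModelWithCorners ℝ EZ HZ} {Z : Type} [TopologicalSpace Z] [ChartedSpace HZ Z]
  {EZ' HZ' : Type} [NormedAddCommGroup EZ'] [NormedSpace ℝ EZ'] [TopologicalSpace HZ']
  {IZ' : ModelWithCorners ℝ EZ' HZ'} {Z' : Type} [TopologicalSpace Z'] [ChartedSpace HZ' Z']

namespace Tb

variable (T : Tb IN N) {t : ℝ}

/-- THE EXCHANGE of the knot and its meridian -/
def swp (t : ℝ) : N → N := push T.τ (sp t)

theorem swp_τ (t : ℝ) (z : Circle × ℂ) : T.swp t (T.τ z) = T.τ (sp t z) := push_apply T.inj _ z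

theorem swp_out (t : ℝ) {p : N} (h : p ∉ T.τ '' {z | ‖z.2‖ ≤ 3}) : T.swp t p = p :=
  extend_eq_of_notMem T.inj (fun _ hz => congrArg T.τ (sp_far t (not_le.1 hz).le)) h

variable (ht : t = 1 ∨ t = -1) {p : N}
include ht

theorem swp_mem : (T.swp t p ∈ T.Ex ↔ p ∈ T.mer.Ex) ∧ (T.swp t p ∈ T.mer.Ex ↔ p ∈ T.Ex) := by
  by_cases e : p ∈ range T.τ
  · obtain ⟨z, rfl⟩ := e
    rw [swp_τ, τ_mem, τ_mem, τ_mem_mer, τ_mem_mer]
    exact ⟨sp_ne ht, an_sp_ne ht⟩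
  · rw [swp, push_of_notMem _ e]
    exact ⟨iff_of_true (T.mem_Ex_of e) (T.mem_mer_of e), iff_of_true (T.mem_mer_of e) (T.mem_Ex_of e)⟩

theorem swp_swp (h : p ∈ T.Ex) (h' : p ∈ T.mer.Ex) : T.swp (-t) (T.swp t p) = p := by
  by_cases e : p ∈ range T.τ
  · obtain ⟨z, rfl⟩ := e
    rw [swp_τ, swp_τ, sp_sp ht (T.τ_mem.1 h) (T.τ_mem_mer.1 h')]
  · rw [swp, swp, push_of_notMem _ e, push_of_notMem _ e]

theorem ld_swp (h : p ∈ T.Ex) (h' : p ∈ T.mer.Ex) : IsLocalDiffeomorphAt IN IN ∞ (T.swp t) p :=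
  T.ld_push (fun _ => sp_far t) fun _ e => ld_sp ht (T.τ_mem.1 (e ▸ h)) (T.τ_mem_mer.1 (e ▸ h'))

theorem swp_mer {z : Circle × ℂ} (h : ‖z.2‖ ≤ 1 / 4) : T.swp t (T.mer.τ z) = T.τ (sw z) :=
  (T.swp_τ t _).trans (congrArg T.τ (sp_mtb' ht h))

theorem swp_near {z : Circle × ℂ} (h : ‖z.2‖ ≤ 1 / 4) : T.swp t (T.τ z) = T.mer.τ (ws z) :=
  (T.swp_τ t _).trans (congrArg T.τ (sp_near ht h))

end Tb

theorem core_mem_mer (T : Tb IN N) (u : Circle) : T.τ (u, 0) ∈ T.mer.Ex := T.τ_mem_mer.2 (an_ne_of (by simp))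

namespace Fl

variable {T : Tb IN N} {a b : Z2}

/-- a filling from the germ of the filling torus -/
def mkG (hu : Uni a b) (e : N → Z) (j : Circle × ℂ → Z) (ld : ∀ p ∈ T.Ex, IsLocalDiffeomorphAt IN IZ ∞ e p)
    (inj : InjOn e T.Ex) (lj : ∀ u, IsLocalDiffeomorphAt IT IZ ∞ j (u, 0)) (ij : Injective fun u => j (u, 0))
    (he : ∀ u, ∀ᶠ w in 𝓝 ((u, 0) : Circle × ℂ), w.2 ≠ 0 → e (T.τ (gl a b w)) = j w)
    (ne : ∀ p ∈ T.Ex, ∀ u, e p ≠ j (u, 0)) (surj : ∀ y, (∃ p ∈ T.Ex, e p = y) ∨ ∃ u, j (u, 0) = y) :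
    Fl T a b IZ Z :=
  have m : ∀ {w : Circle × ℂ}, w.2 ≠ 0 → T.τ (gl a b w) ∈ T.Ex := fun h => T.τ_mem.2 (gl_ne.2 h)
  have c : ∀ u, torT.ovr (e ∘ T.τ ∘ gl a b) j (u, 0) = j (u, 0) := torT.ovr_core
  have d : ∀ {w : Circle × ℂ}, w.2 ≠ 0 → torT.ovr (e ∘ T.τ ∘ gl a b) j w = e (T.τ (gl a b w)) :=
    fun h => torT.ovr_of (torT.τ_mem.2 h)
  mk' e (torT.ovr (e ∘ T.τ ∘ gl a b) j) ld inj
    ⟨fun ⟨u, ζ⟩ ⟨u', ζ'⟩ k => by
      by_cases h : ζ = 0 <;> by_cases h' : ζ' = 0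
      · rw [h, h', c, c] at k
        rw [h, h', ij k]
      · rw [h, c, d h'] at k
        exact absurd k.symm (ne _ (m h') _)
      · rw [h', c, d h] at k
        exact absurd k (ne _ (m h) _)
      · rw [d h, d h'] at k
        exact gl_inj hu h h' (T.inj (inj (m h) (m h') k)),
    fun ⟨u, ζ⟩ => by
      by_cases h : ζ = 0
      · subst h
        exact torT.ld_ovr_core (lj u) (he u)
      · exact torT.ld_ovr (torT.τ_mem.2 h) ((ld_gl hu h).comp _ _ ((T.ld _).comp _ _ (ld _ (m h))))⟩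
    (fun y => (surj y).imp_right fun ⟨u, k⟩ => ⟨(u, 0), (c u).trans k⟩) (fun _ h => (d h).symm)
    fun p hp u k => ne p hp u (k.trans (c u))

theorem mkG_e {hu : Uni a b} {e : N → Z} {j : Circle × ℂ → Z} {ld inj lj ij he ne surj} {p : N} (h : p ∈ T.Ex) :
    (mkG (T := T) (IZ := IZ) hu e j ld inj lj ij he ne surj).e p = e p := e_of _ h

theorem mkG_it {hu : Uni a b} {e : N → Z} {j : Circle × ℂ → Z} {ld inj lj ij he ne surj} {w : Circle × ℂ}
    (h : w.2 ≠ 0 → e (T.τ (gl a b w)) = j w) :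
    (mkG (T := T) (IZ := IZ) hu e j ld inj lj ij he ne surj).it w = j w := torT.ovr_τ h

theorem sw_gl (a b : Z2) {w : Circle × ℂ} (h : w.2 ≠ 0) :
    sw (gl (a.2, -a.1) (b.2, -b.1) w) = gl a b w := by
  rw [sw, gl_ac _ _ _ _ h]
  simp [ac]

theorem uni_third (hu : Uni a b) : Uni (a.2, -a.1) (b.2, -b.1) := by
  unfold Uni dt at *
  simp only
  rcases hu with h | h
  · left; linear_combination h
  · right; linear_combination h

variable (F : Fl T a b IY Y) (G : Fl F.mer (1, 0) (0, -1) IZ Z)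

/-- the exterior of the meridian in the third filling -/
def thE : N → Z := T.ovr (G.e ∘ F.e ∘ T.swp (-1)) G.it

theorem thE_of {p : N} (h : p ∈ T.Ex) : F.thE G p = G.e (F.e (T.swp (-1) p)) := T.ovr_of h

theorem thE_near {z : Circle × ℂ} (h : ‖z.2‖ ≤ 1 / 4) (k : z.2 ≠ 0) : G.e (F.e (T.swp (-1) (T.τ z))) = G.it z := by
  rw [T.swp_near (Or.inr rfl) h]
  exact G.e_τ k

theorem thE_τ {z : Circle × ℂ} (h : ‖z.2‖ ≤ 1 / 4) : F.thE G (T.τ z) = G.it z := T.ovr_τ (F.thE_near G h)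

theorem thE_mer {w : Circle × ℂ} (h : ‖w.2‖ ≤ 1 / 4) (k : w.2 ≠ 0) :
    F.thE G (T.mer.τ (gl (a.2, -a.1) (b.2, -b.1) w)) = G.e (F.it w) := by
  rw [F.thE_of G (T.mer_mem _), T.swp_mer (Or.inr rfl) (by rwa [norm_gl]), sw_gl a b k, F.e_τ k]

/-- THE THIRD FILLING is a filling of the meridian tube in `N` -/
def third (hu : Uni a b) : Fl T.mer (a.2, -a.1) (b.2, -b.1) IZ Z :=
  have s : (-1 : ℝ) = 1 ∨ (-1 : ℝ) = -1 := Or.inr rfl
  have m1 : ∀ {p}, p ∈ T.mer.Ex → T.swp (-1) p ∈ T.Ex := (T.swp_mem s).1.2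
  have m2 : ∀ {p}, p ∈ T.Ex → p ∈ T.mer.Ex → F.e (T.swp (-1) p) ∈ F.mer.Ex :=
    fun h h' => (F.e_mem_mer (m1 h')).2 ((T.swp_mem s).2.2 h)
  have m3 : ∀ u, F.it (u, 0) ∈ F.mer.Ex := F.core_mem_psh
  have c : ∀ u, F.thE G (T.τ (u, 0)) = G.it (u, 0) := T.ovr_core
  mkG (uni_third hu) (F.thE G) (G.e ∘ F.it)
    (fun p h' => by
      rcases T.Ex_or p with h | ⟨u, rfl⟩
      · exact T.ld_ovr h ((T.ld_swp s h h').comp _ _ ((F.ld_e (m1 h')).comp _ _ (G.ld_e (m2 h h'))))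
      · exact T.ld_ovr_core (G.oeT.loc _) ((near_core u (by norm_num)).mono fun _ => F.thE_near G))
    (fun p h' q k' e => by
      rcases T.Ex_or p with h | ⟨u, rfl⟩ <;> rcases T.Ex_or q with k | ⟨u', rfl⟩
      · rw [F.thE_of G h, F.thE_of G k] at e
        rw [← T.swp_swp s h h', F.injOn_e (m1 h') (m1 k') (G.injOn_e (m2 h h') (m2 k k') e), T.swp_swp s k k']
      · rw [F.thE_of G h, c] at e
        exact absurd e (G.e_ne (m2 h h') _)
      · rw [F.thE_of G k, c] at e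
        exact absurd e.symm (G.e_ne (m2 k k') _)
      · rw [c, c] at e
        rw [G.oeT.inj e])
    (fun u => (F.oeT.loc _).comp _ _ (G.ld_e (m3 u)))
    (fun u u' e => congrArg Prod.fst (F.oeT.inj (G.injOn_e (m3 u) (m3 u') e)))
    (fun u => (near_core u (by norm_num)).mono fun _ => F.thE_mer G)
    (fun p h' u e => by
      rcases T.Ex_or p with h | ⟨u', rfl⟩
      · exact F.e_ne (m1 h') u (G.injOn_e (m2 h h') (m3 u) ((F.thE_of G h).symm.trans e))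
      · exact G.e_ne (m3 u) u' (e.symm.trans (c u')))
    fun y => by
      rcases G.surj' y with ⟨x, hx, rfl⟩ | ⟨u, rfl⟩
      · rcases F.surj' x with ⟨p, h, rfl⟩ | ⟨u, rfl⟩
        · have h' := (F.e_mem_mer h).1 hx
          have s' : (1 : ℝ) = 1 ∨ (1 : ℝ) = -1 := Or.inl rfl
          exact Or.inl ⟨T.swp 1 p, (T.swp_mem s').2.2 h, by
            rw [F.thE_of G ((T.swp_mem s').1.2 h'), T.swp_swp s' h h']⟩
        · exact Or.inr ⟨u, rfl⟩
      · exact Or.inl ⟨_, core_mem_mer T u, c u⟩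

variable (hu : Uni a b)

theorem third_e' {p : N} (h : p ∈ T.mer.Ex) : (F.third G hu).e p = F.thE G p := e_of _ h

/-- off both cores the identification is the exchange -/
theorem third_e {p : N} (h : p ∈ T.Ex) (h' : p ∈ T.mer.Ex) : (F.third G hu).e (T.swp 1 p) = G.e (F.e p) := by
  have s' : (1 : ℝ) = 1 ∨ (1 : ℝ) = -1 := Or.inl rfl
  rw [F.third_e' G hu ((T.swp_mem s').2.2 h), F.thE_of G ((T.swp_mem s').1.2 h'), T.swp_swp s' h h']

/-- the filling torus of `G` is the tube of the knot -/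
theorem third_e_τ {z : Circle × ℂ} (h : ‖z.2‖ ≤ 1 / 4) : (F.third G hu).e (T.τ z) = G.it z :=
  (F.third_e' G hu (T.τ_mem_mer.2 (an_ne_of (by linarith)))).trans (F.thE_τ G h)

/-- the new filling torus is the filling torus of `F` -/
theorem third_it {w : Circle × ℂ} (h : ‖w.2‖ ≤ 1 / 4) : (F.third G hu).it w = G.e (F.it w) :=
  torT.ovr_τ (F.thE_mer G h)

theorem uni_th : Uni (1, 0) (0, -1) := uni_ws

/-- conversely, every filling of the meridian tube is a third filling -/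
theorem exists_third (H : Fl T.mer (a.2, -a.1) (b.2, -b.1) IZ Z) :
    ∃ G : Fl F.mer (1, 0) (0, -1) IZ Z, (∀ p ∈ T.mer.Ex, (F.third G hu).e p = H.e p) ∧ (F.third G hu).it = H.it := by
  obtain ⟨Φ, h1, h2⟩ := (F.third (F.mer.fl uni_th) hu).exists_diffeo H
  have k : ∀ p ∈ T.mer.Ex, (F.third ((F.mer.fl uni_th).map Φ) hu).e p = H.e p := fun p h' => by
    rw [← h1 p h', F.third_e' _ hu h', F.third_e' _ hu h']
    rcases T.Ex_or p with h | ⟨u, rfl⟩
    · rw [F.thE_of _ h, F.thE_of _ h, map_e]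
      exact (F.e_mem_mer ((T.swp_mem (Or.inr rfl)).1.2 h')).2 ((T.swp_mem (Or.inr rfl)).2.2 h)
    · rw [F.thE_τ _ (by simp), F.thE_τ _ (by simp), map_it]
  refine ⟨_, k, funext fun ⟨u, ζ⟩ => ?_⟩
  by_cases e : ζ = 0
  · rw [e, ← h2, F.third_it _ hu (by simp), F.third_it _ hu (by simp)]
    exact map_e _ _ (F.core_mem_psh u)
  · rw [← e_τ _ e, ← e_τ _ e, k _ (T.mer.τ_mem.2 (gl_ne.2 e))]

end Fl

end Crest.Agent.X212.Rod53
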